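import Vale.Agent.P106.U.H416.Defs
import Vale.Agent.P106.U.H127.Mix

/-!
# P106 / U / H416 : `XX` as an instance of helper127's abstract supremum

* `XX_eq` : `XX c lam k La P l t C e L a = gsup La shp (ad ..) (gc ..) P l (t_a, C) (l, t_a, C)`.
* `gb`, `ne` : the hypotheses of the calculus.
* `le_XX`, `XX_near`, `XX_le`, `XX_mono_c` ...
-/

set_option autoImplicit false

namespace Vale.Agent.P106.U.H416

open Vale.Agent.P127 Vale.Agent.P127.Stk Vale.Agent.P127.U Vale.Agent.P106.W Vale.Agent.P106.K Vale.Agent.P106.U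
open Vale.Agent.P106.U.H127
open Vale.Agent.P122.C2 (fn)

section pt

variable {Ω : Type} {c lam k : ℝ} {L a : ℕ}

/-- admissible labels -/
def ad (c : ℝ) (l : Ω → Ry) (t : Ω → ℝ) (L a : ℕ) (ω : Ω) (B : Cbx) : Prop := LbOk c L a B (l ω) (t ω)

/-- the cost of a label -/
noncomputable def gc (lam k : ℝ) (e : Ω → ℕ × ℕ) (a : ℕ) (ω : Ω) (B : Cbx) : ℝ :=
  ((3 + lam) * Real.log B.u2 + (1 - lam) * Real.log B.u1) + k * dsh B (e ω) - 3 * a * Real.log 2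

theorem dsh_nonneg (B : Cbx) (e : ℕ × ℕ) : 0 ≤ dsh B e := add_nonneg (abs_nonneg _) (abs_nonneg _)

theorem log_half (n : ℕ) : Real.log ((1 / 2 : ℝ) ^ n) = - (n * Real.log 2) := by
  rw [Real.log_pow, one_div, Real.log_inv]
  ring

theorem lb_cost {c : ℝ} {B : Cbx} {l : Ry} {t : ℝ} (hl : 0 ≤ lam ∧ lam ≤ 1) (h : LbOk c L a B l t) :
    -(4 * L * Real.log 2) ≤ (3 + lam) * Real.log B.u2 + (1 - lam) * Real.log B.u1 := by
  obtain ⟨⟨b, R, h1, h2, h3, h4⟩, -, -, -⟩ := h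
  rw [h1, h2, log_half, log_half]
  have hlog : 0 < Real.log 2 := Real.log_pos (by norm_num)
  have a1 : (b : ℝ) ≤ L := by exact_mod_cast (by omega : b ≤ L)
  have a2 : (R : ℝ) ≤ L := by exact_mod_cast (by omega : R ≤ L)
  have a3 : 0 ≤ (L - b : ℝ) * Real.log 2 := mul_nonneg (by linarith) hlog.le
  have a4 : 0 ≤ (L - R : ℝ) * Real.log 2 := mul_nonneg (by linarith) hlog.le
  have a5 := mul_nonneg (by linarith [hl.1] : 0 ≤ 3 + lam) a3
  have a6 := mul_nonneg (by linarith [hl.2] : 0 ≤ 1 - lam) a4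
  nlinarith

theorem lb_shp {c : ℝ} {B : Cbx} {l : Ry} {t : ℝ} (h : LbOk c L a B l t) :
    shp B ∈ (Finset.range (L + 1) ×ˢ Finset.range (L + 1)).image
      (fun p : ℕ × ℕ => (((1 / 2 : ℝ) ^ p.2, (1 / 2 : ℝ) ^ p.1) : ℝ × ℝ)) := by
  obtain ⟨⟨b, R, h1, h2, h3, h4⟩, -, -, -⟩ := h
  rw [Finset.mem_image]
  refine ⟨(b, R), ?_, ?_⟩
  · rw [Finset.mem_product, Finset.mem_range, Finset.mem_range]
    constructor <;> omega
  · unfold shp
    rw [h1, h2]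

/-- the ball of the ray -/
noncomputable def selfB (m : Ry) : Cbx := ⟨0, 1, 1, 0, 0, m.y, m.s, m.z⟩

theorem lb_self {c : ℝ} (hc : 0 ≤ c) (ha : a ≤ L) (l : Ry) (t : ℝ) : LbOk c L a (selfB (bl a l t)) l t := by
  refine ⟨⟨0, 0, ?_, ?_, le_rfl, by omega⟩, ?_, ?_, ?_⟩
  · simp [selfB]
  · simp [selfB]
  · simpa [selfB] using hc
  · simpa [selfB] using hc
  · unfold Bin selfB
    simp only [sub_self, abs_zero, mul_zero, Finset.sum_const_zero, add_zero, mul_one, zero_mul]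
    have h0 : fn 0 (0 : Fin 2 → ℝ) = 0 := by
      unfold Vale.Agent.P122.C2.fn
      simp
    refine ⟨fun _ => hc, fun _ => hc, ?_, ?_, ?_⟩
    · simpa using hc
    · rw [h0]
      simpa using hc
    · rw [h0]
      simpa using hc

end pt

section finite

variable {Ω : Type} [Fintype Ω] {γ : Type} {c lam k La : ℝ} {P : Law Ω} {l : Ω → Ry} {t : Ω → ℝ} {C : Ω → γ}
  {e : Ω → ℕ × ℕ} {L a : ℕ}

theorem gb (hl : 0 ≤ lam ∧ lam ≤ 1) (hk : 0 ≤ k) : GB shp (ad c l t L a) (gc lam k e a) P := by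
  classical
  refine ⟨4 * L * Real.log 2 + 3 * a * Real.log 2, (Finset.range (L + 1) ×ˢ Finset.range (L + 1)).image
    (fun p : ℕ × ℕ => (((1 / 2 : ℝ) ^ p.2, (1 / 2 : ℝ) ^ p.1) : ℝ × ℝ)), fun ω _ B hB => ⟨?_, ?_⟩⟩
  · have h1 := lb_cost hl hB
    have h2 := mul_nonneg hk (dsh_nonneg B (e ω))
    unfold gc
    linarith
  · exact lb_shp hB

theorem ne (hc : 0 ≤ c) (ha : a ≤ L) : NE (ad c l t L a) P := fun ω _ => ⟨_, lb_self hc ha (l ω) (t ω)⟩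

theorem valX_eq {Ω' : Type} [Fintype Ω'] (P' : Law Ω') (π : Ω' → Ω) (W : Ω' → Cbx) :
    valX lam k La P' (fun ω => l (π ω)) (fun ω => t (π ω)) (fun ω => C (π ω)) a (fun ω => e (π ω)) W =
      gval La shp (gc lam k e a) l (fun ω => (fl1 a (t ω), C ω)) (fun ω => (l ω, fl1 a (t ω), C ω)) P' π W := by
  have e1 : (P'.ex fun ω => gc lam k e a (π ω) (W ω)) =
      P'.ex (fun ω => (3 + lam) * Real.log (W ω).u2 + (1 - lam) * Real.log (W ω).u1) +
        k * P'.ex (fun ω => dsh (W ω) (e (π ω))) - 3 * a * Real.log 2 := by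
    unfold gc
    rw [P'.ex_sub, P'.ex_add, P'.ex_const_mul, P'.ex_const]
  unfold valX val gval
  rw [e1]
  ring

theorem XX_eq : XX c lam k La P l t C e L a =
    gsup La shp (ad c l t L a) (gc lam k e a) P l (fun ω => (fl1 a (t ω), C ω)) (fun ω => (l ω, fl1 a (t ω), C ω)) := by
  unfold XX gsup
  congr 1
  ext v
  constructor
  · rintro ⟨Ω', i, P', π, W, h1, h2, rfl⟩
    exact ⟨Ω', i, P', π, W, h1, h2, valX_eq P' π W⟩
  · rintro ⟨Ω', i, P', π, W, h1, h2, rfl⟩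
    exact ⟨Ω', i, P', π, W, h1, h2, (valX_eq P' π W).symm⟩

/-- a label on an extension -/
theorem le_XX (hl : 0 ≤ lam ∧ lam ≤ 1) (hk : 0 ≤ k) (hLa : 0 ≤ La) {Ω' : Type} [Fintype Ω'] {P' : Law Ω'}
    {π : Ω' → Ω} {W : Ω' → Cbx} (h1 : ∀ ω, P'.pr π ω = P.w ω)
    (h2 : ∀ ω, 0 < P'.w ω → LbOk c L a (W ω) (l (π ω)) (t (π ω))) :
    valX lam k La P' (fun ω => l (π ω)) (fun ω => t (π ω)) (fun ω => C (π ω)) a (fun ω => e (π ω)) W ≤
      XX c lam k La P l t C e L a := by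
  rw [valX_eq, XX_eq]
  exact gval_le_gsup hLa (gb hl hk) h1 h2

/-- a label on the space -/
theorem le_XX' (hl : 0 ≤ lam ∧ lam ≤ 1) (hk : 0 ≤ k) (hLa : 0 ≤ La) {W : Ω → Cbx}
    (h2 : ∀ ω, 0 < P.w ω → LbOk c L a (W ω) (l ω) (t ω)) :
    valX lam k La P l t C a e W ≤ XX c lam k La P l t C e L a :=
  le_XX (π := id) hl hk hLa (Stk.pr_id P) h2

theorem XX_near (hc : 0 ≤ c) (ha : a ≤ L) {η : ℝ} (hη : 0 < η) :
    ∃ (Ω' : Type) (_ : Fintype Ω') (P' : Law Ω') (π : Ω' → Ω) (W : Ω' → Cbx),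
      (∀ ω, P'.pr π ω = P.w ω) ∧ (∀ ω, 0 < P'.w ω → LbOk c L a (W ω) (l (π ω)) (t (π ω))) ∧
      XX c lam k La P l t C e L a - η ≤
        valX lam k La P' (fun ω => l (π ω)) (fun ω => t (π ω)) (fun ω => C (π ω)) a (fun ω => e (π ω)) W := by
  obtain ⟨Ω', i, P', π, W, h1, h2, h3⟩ := exists_near (Λ := La) (sh := shp) (g := gc lam k e a) (X := l)
    (Y := fun ω => (fl1 a (t ω), C ω)) (Z := fun ω => (l ω, fl1 a (t ω), C ω)) (ne (P := P) (l := l) (t := t) hc ha) hη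
  refine ⟨Ω', i, P', π, W, h1, h2, ?_⟩
  rw [valX_eq, XX_eq]
  exact h3

theorem XX_le (hc : 0 ≤ c) (ha : a ≤ L) {v : ℝ}
    (h : ∀ (Ω' : Type) [Fintype Ω'] (P' : Law Ω') (π : Ω' → Ω) (W : Ω' → Cbx), (∀ ω, P'.pr π ω = P.w ω) →
      (∀ ω, 0 < P'.w ω → LbOk c L a (W ω) (l (π ω)) (t (π ω))) →
      valX lam k La P' (fun ω => l (π ω)) (fun ω => t (π ω)) (fun ω => C (π ω)) a (fun ω => e (π ω)) W ≤ v) :
    XX c lam k La P l t C e L a ≤ v := by
  rw [XX_eq]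
  refine gsup_le (ne hc ha) fun Ω' _ P' π W h1 h2 => ?_
  rw [← valX_eq]
  exact h Ω' P' π W h1 h2

/-- invariance under extensions -/
theorem XX_ext {Ω' : Type} [Fintype Ω'] {P' : Law Ω'} {π : Ω' → Ω} (h : ∀ ω, P'.pr π ω = P.w ω) :
    XX c lam k La P' (fun ω => l (π ω)) (fun ω => t (π ω)) (fun ω => C (π ω)) (fun ω => e (π ω)) L a =
      XX c lam k La P l t C e L a := by
  rw [XX_eq, XX_eq]
  exact gsup_ext (Λ := La) (sh := shp) (Ad := ad c l t L a) (g := gc lam k e a) (X := l)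
    (Y := fun ω => (fl1 a (t ω), C ω)) (Z := fun ω => (l ω, fl1 a (t ω), C ω)) h

/-- the functional of the conditioned laws: given `(C, E)` it is the average -/
theorem XX_mix {V : Type} (E : Ω → V) (hl : 0 ≤ lam ∧ lam ≤ 1) (hk : 0 ≤ k) (hLa : 0 ≤ La) (hc : 0 ≤ c) (ha : a ≤ L) :
    XX c lam k La P l t (fun ω => (C ω, E ω)) e L a =
      ∑ z ∈ img E, P.pr E z * XX c lam k La (P.cond E z) l t C e L a := by
  have h1 := gsup_cond_sum (P := P) (X := l) (Y := fun ω => (fl1 a (t ω), C ω)) (Z := fun ω => (l ω, fl1 a (t ω), C ω))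
    E hLa (gb (c := c) (l := l) (t := t) (L := L) (a := a) (e := e) hl hk) (ne hc ha)
  simp only [XX_eq]
  rw [← h1]
  refine gsup_congr_var hLa (gb hl hk) (ne hc ha) ?_ ?_ ?_ ?_ ?_ ?_
  all_goals
    intro ω ω' _ _ e
    simp only [Prod.mk.injEq] at e ⊢
    tauto

end finite

end Vale.Agent.P106.U.H416
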