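import Vale.Agent.P106.U.H416.Cell
import Vale.Agent.P106.U.H416.Val

/-!
# P106 / U / H416 : the window inequality for labels of a deterministic shape

* `val_win` : `val(a + w, W) ≤ val(window, w, W') + 3 a log 2 + const(c)`.
* `XX_win` : `XX(window, 0) + 3 a log 2 ≤ XX(a)`.
* `Dd_win` : `Dd(window, w) = Dd(a + w) - Dd(a)`.
* `fixw` : `FIX` in a window.
-/

set_option autoImplicit false

namespace Vale.Agent.P106.U.H416

open Vale.Agent.P127 Vale.Agent.P127.Stk Vale.Agent.P127.U Vale.Agent.P106.W Vale.Agent.P106.K Vale.Agent.P106.U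
open Vale.Agent.P122.C2 (fn)

theorem wo_congr {a : ℕ} {l l' : Ry} {t t' : ℝ} (h : l = l') (ht : fl1 a t = fl1 a t') : wo a l t = wo a l' t' := by
  subst h
  unfold wo
  rw [bl_congr ht]

theorem wh_congr {a : ℕ} {l l' : Ry} {t t' : ℝ} (h : l = l') (ht : fl1 a t = fl1 a t') : wh a l t = wh a l' t' := by
  subst h
  unfold wh
  rw [bl_congr ht]

theorem wR_congr {a : ℕ} {l l' : Ry} {t t' : ℝ} (h : l = l') (ht : fl1 a t = fl1 a t') : wR a l t = wR a l' t' := by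
  subst h
  unfold wR
  rw [wo_congr rfl ht, wh_congr rfl ht, bl_congr ht]

theorem wR_inj {a : ℕ} {l l' : Ry} {t t' : ℝ} (ht : fl1 a t = fl1 a t') (ho : wo a l t = wo a l' t')
    (hh : wh a l t = wh a l' t') (h : wR a l t = wR a l' t') : l = l' := by
  unfold wR trC at h
  rw [ho, hh] at h
  exact bl_inj ht (trR_inj h)

theorem fl1_wt_iff {a w : ℕ} {t t' : ℝ} (h : fl1 a t = fl1 a t') :
    fl1 w (wt a t) = fl1 w (wt a t') ↔ fl1 (a + w) t = fl1 (a + w) t' := by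
  rw [fl1_wt, fl1_wt, h]
  constructor
  · intro e
    linarith
  · intro e
    rw [e]

section fin

variable {Ω : Type} [Fintype Ω] {γ : Type} {c lam k La : ℝ} {P : Law Ω} {l : Ω → Ry} {t : Ω → ℝ} {C : Ω → γ}
  {e : Ω → ℕ × ℕ} {L a w : ℕ} {W : Ω → Cbx}

/-- the letter of the window -/
noncomputable def wC (a : ℕ) (l : Ω → Ry) (t : Ω → ℝ) (C : Ω → γ) (ω : Ω) : γ × ℤ × (Fin 2 → ℤ) × ℤ :=
  (C ω, fl1 a (t ω), wo a (l ω) (t ω), wh a (l ω) (t ω))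

/-- the label in the window -/
noncomputable def wB (a w : ℕ) (l : Ω → Ry) (t : Ω → ℝ) (W : Ω → Cbx) (ω : Ω) : Cbx :=
  trB (fun k => 2 ^ w * (wo a (l ω) (t ω) k : ℝ)) (2 ^ w * (wh a (l ω) (t ω) : ℝ)) (W ω)

theorem val_win (hc : 0 ≤ c) (hS : SyOk P l t) (hW : ∀ ω, 0 < P.w ω → LbOk c L (a + w) (W ω) (l ω) (t ω)) :
    val lam P l t C (a + w) W ≤
      val lam P (fun ω => wR a (l ω) (t ω)) (fun ω => wt a (t ω)) (wC a l t C) w (wB a w l t W) + 3 * a * Real.log 2 +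
        3 * Real.log (2 * cM c + 3) := by
  have h1 := Stk.hc_le_add' P l (fun ω => (wo a (l ω) (t ω), wh a (l ω) (t ω))) (fun ω => (W ω, fl1 (a + w) (t ω), C ω))
  have h2 := hc_cell (P := P) (l := l) (t := t) (L := L) (a := a) (w := w) (W := W) hc (fun ω hω => (hS ω hω).1.2.1) hW
    (fun ω => (W ω, fl1 (a + w) (t ω), C ω)) (fun _ _ _ _ e => congrArg Prod.fst e)
    (fun _ _ _ _ e => congrArg (fun z => z.2.1) e)
  have h3 : Stk.hc P l (fun ω => ((wo a (l ω) (t ω), wh a (l ω) (t ω)), (W ω, fl1 (a + w) (t ω), C ω))) ≤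
      Stk.hc P (fun ω => wR a (l ω) (t ω)) (fun ω => (wB a w l t W ω, fl1 w (wt a (t ω)), wC a l t C ω)) := by
    refine (Stk.hc_mono_left P (X' := fun ω => wR a (l ω) (t ω)) ?_).trans (Stk.hc_mono_right P _ ?_)
    · intro ω ω' _ _ e
      simp only [Prod.mk.injEq] at e
      exact wR_inj (Apx.fl1_of_fl1 (Nat.le_add_right a w) e.2.2.2.1) e.2.1.1 e.2.1.2 e.1
    · intro ω ω' _ _ e
      simp only [Prod.mk.injEq] at e
      obtain ⟨⟨e1, e2⟩, e3, e4, e5⟩ := e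
      have e6 := Apx.fl1_of_fl1 (Nat.le_add_right a w) e4
      simp only [wB, wC, Prod.mk.injEq]
      refine ⟨?_, (fl1_wt_iff e6).2 e4, e5, e6, e1, e2⟩
      rw [e1, e2, e3]
  unfold val
  have h4 : (P.ex fun ω => (3 + lam) * Real.log (wB a w l t W ω).u2 + (1 - lam) * Real.log (wB a w l t W ω).u1) =
      P.ex fun ω => (3 + lam) * Real.log (W ω).u2 + (1 - lam) * Real.log (W ω).u1 := rfl
  rw [h4]
  push_cast
  linarith

theorem XX_win (hl : 0 ≤ lam ∧ lam ≤ 1) (hk : 0 ≤ k) (hLa : 0 ≤ La) (hc : 0 ≤ c) (ha : a ≤ L) :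
    XX c lam k La P (fun ω => wR a (l ω) (t ω)) (fun ω => wt a (t ω)) (wC a l t C) e (L - a) 0 + 3 * a * Real.log 2 ≤
      XX c lam k La P l t C e L a := by
  rw [← le_sub_iff_add_le]
  refine XX_le hc (Nat.zero_le _) fun Ω' _ P' π A h1 h2 => ?_
  rw [le_sub_iff_add_le]
  set A' : Ω' → Cbx := fun ω => trB (fun k => - (wo a (l (π ω)) (t (π ω)) k : ℝ)) (- (wh a (l (π ω)) (t (π ω)) : ℝ)) (A ω)
    with hA'
  have h3 : ∀ ω, 0 < P'.w ω → LbOk c L a (A' ω) (l (π ω)) (t (π ω)) := fun ω hω => lb_back ha (h2 ω hω)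
  refine le_trans ?_ (le_XX (C := C) (e := e) hl hk hLa h1 h3)
  have e1 : Stk.hc P' (fun ω => wR a (l (π ω)) (t (π ω))) (fun ω => (A ω, fl1 0 (wt a (t (π ω))), wC a l t C (π ω))) ≤
      Stk.hc P' (fun ω => l (π ω)) (fun ω => (A' ω, fl1 a (t (π ω)), C (π ω))) := by
    refine (Stk.hc_mono_left P' (X' := fun ω => l (π ω)) ?_).trans (Stk.hc_mono_right P' _ ?_)
    · intro ω ω' _ _ e
      simp only [Prod.mk.injEq, wC] at e
      exact wR_congr e.1 e.2.2.2.2.1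
    · intro ω ω' _ _ e
      simp only [Prod.mk.injEq, wC] at e ⊢
      obtain ⟨e1, e2, e3, e4, e5, e6⟩ := e
      refine ⟨?_, e4, e3⟩
      simp only [hA']
      rw [e1, e5, e6]
  have e2 : Stk.hc P' (fun ω => shp (A ω)) (fun ω => (wR a (l (π ω)) (t (π ω)), fl1 0 (wt a (t (π ω))), wC a l t C (π ω))) ≤
      Stk.hc P' (fun ω => shp (A' ω)) (fun ω => (l (π ω), fl1 a (t (π ω)), C (π ω))) := by
    refine Stk.hc_mono_right P' _ ?_
    intro ω ω' _ _ e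
    simp only [Prod.mk.injEq, wC] at e ⊢
    obtain ⟨e1, e2, e3, e4, e5, e6⟩ := e
    exact ⟨wR_inj e4 e5 e6 e1, e4, e3⟩
  have e3 := mul_le_mul_of_nonneg_left e2 hLa
  unfold valX val
  have h4 : (P'.ex fun ω => (3 + lam) * Real.log (A' ω).u2 + (1 - lam) * Real.log (A' ω).u1) =
      P'.ex fun ω => (3 + lam) * Real.log (A ω).u2 + (1 - lam) * Real.log (A ω).u1 := rfl
  have h5 : (P'.ex fun ω => dsh (A' ω) (e (π ω))) = P'.ex fun ω => dsh (A ω) (e (π ω)) := rfl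
  rw [h4, h5]
  push_cast
  linarith

theorem Dd_sub : Dd P l t C (a + w) - Dd P l t C a =
    w * Real.log 2 - Stk.hc P (fun ω => fl1 (a + w) (t ω)) (fun ω => (l ω, fl1 a (t ω), C ω)) := by
  have h1 := Stk.hc_pair P (fun ω => fl1 a (t ω)) (fun ω => fl1 (a + w) (t ω)) (fun ω => (l ω, C ω))
  have h2 : Stk.hc P (fun ω => (fl1 a (t ω), fl1 (a + w) (t ω))) (fun ω => (l ω, C ω)) =
      Stk.hc P (fun ω => fl1 (a + w) (t ω)) (fun ω => (l ω, C ω)) := by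
    refine Stk.hc_congr P ?_ ?_ (fun _ _ _ _ e => e) (fun _ _ _ _ e => e)
    · intro ω ω' _ _ e
      simp only [Prod.mk.injEq] at e ⊢
      exact ⟨Apx.fl1_of_fl1 (Nat.le_add_right a w) e.1, e.1⟩
    · intro ω ω' _ _ e
      simp only [Prod.mk.injEq] at e ⊢
      exact e.1.2
  have h3 : Stk.hc P (fun ω => fl1 (a + w) (t ω)) (fun ω => (fl1 a (t ω), l ω, C ω)) =
      Stk.hc P (fun ω => fl1 (a + w) (t ω)) (fun ω => (l ω, fl1 a (t ω), C ω)) := by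
    refine Stk.hc_congr P (fun _ _ _ _ e => congrArg Prod.fst e) (fun _ _ _ _ e => congrArg Prod.fst e) ?_ ?_
    all_goals
      intro ω ω' _ _ e
      simp only [Prod.mk.injEq] at e ⊢
      tauto
  unfold Dd
  rw [h2, h3] at h1
  push_cast
  linarith

theorem Dd_win : Dd P (fun ω => wR a (l ω) (t ω)) (fun ω => wt a (t ω)) (wC a l t C) w =
    Dd P l t C (a + w) - Dd P l t C a := by
  rw [Dd_sub]
  unfold Dd
  congr 1
  refine Stk.hc_congr P ?_ ?_ ?_ ?_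
  · intro ω ω' _ _ e
    simp only [Prod.mk.injEq, wC] at e
    exact (fl1_wt_iff e.2.2.2.1).2 e.1
  · intro ω ω' _ _ e
    simp only [Prod.mk.injEq, wC] at e
    exact (fl1_wt_iff e.2.2.2.1).1 e.1
  · intro ω ω' _ _ e
    simp only [Prod.mk.injEq, wC] at e ⊢
    exact ⟨wR_congr e.1 e.2.1, e.2.2, e.2.1, wo_congr e.1 e.2.1, wh_congr e.1 e.2.1⟩
  · intro ω ω' _ _ e
    simp only [Prod.mk.injEq, wC] at e ⊢
    exact ⟨wR_inj e.2.2.1 e.2.2.2.1 e.2.2.2.2 e.1, e.2.2.1, e.2.1⟩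

theorem syOk_win (hS : SyOk P l t) : SyOk P (fun ω => wR a (l ω) (t ω)) (fun ω => wt a (t ω)) := fun ω hω =>
  ⟨ryOk_wR (hS ω hω).1.2.1, wt_nonneg a (t ω), (wt_lt a (t ω)).le⟩

end fin

/-- **`FIX` in a window** -/
theorem fixw {c lam N k β : ℝ} (hc : 0 ≤ c) (hl : 0 ≤ lam ∧ lam ≤ 1) (hk : 0 ≤ k) (hF : FIX c lam N k β) {ε : ℝ}
    (hε : 0 < ε) : ∃ K : ℝ, ∀ (Ω : Type) [Fintype Ω] (γ : Type) (P : Law Ω) (l : Ω → Ry) (t : Ω → ℝ) (C : Ω → γ)
      (L a w : ℕ) (e0 : ℕ × ℕ) (W : Ω → Cbx), a + w ≤ L → SyOk P l t →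
      (∀ ω, 0 < P.w ω → LbOk c L (a + w) (W ω) (l ω) (t ω) ∧ (W ω).u2 = (1 / 2 : ℝ) ^ e0.1 ∧
        (W ω).u1 = (1 / 2 : ℝ) ^ e0.2) →
      val lam P l t C (a + w) W ≤
        XX c lam k 0 P l t C (fun _ => e0) L a + (β + ε) * w * Real.log 2 + K +
          N * (Dd P l t C (a + w) - Dd P l t C a) := by
  obtain ⟨K, hK⟩ := hF ε hε
  refine ⟨K + 3 * Real.log (2 * cM c + 3), fun Ω _ γ P l t C L a w e0 W haw hS hW => ?_⟩
  have h1 := val_win (lam := lam) (C := C) hc hS fun ω hω => (hW ω hω).1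
  have h2 := hK Ω _ P (fun ω => wR a (l ω) (t ω)) (fun ω => wt a (t ω)) (wC a l t C) (L - a) w e0 (wB a w l t W)
    (by omega) (syOk_win hS) fun ω hω => ⟨lb_win (hW ω hω).1, (hW ω hω).2.1, (hW ω hω).2.2⟩
  have h3 := XX_win (La := 0) (P := P) (l := l) (t := t) (C := C) (e := fun _ => e0) hl hk le_rfl hc
    (by omega : a ≤ L)
  rw [Dd_win] at h2
  linarith

end Vale.Agent.P106.U.H416
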