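import Vale.Agent.P106.U.H20.Defs

/-!
# P106 / U / H416 : labels with a price for the shape (helper61's TEXT S1, note 17579)

* `shp B = (u1, u2)`, `dsh B e` : distance (natural logarithms) from the shape of `B` to `(u1, u2) = (2^-e.2, 2^-e.1)`.
* `valX lam k La P l t C a e W` : `val` minus `k` times the distance to the shape `e`, plus `La H(shape | l, t_a, C)`.
* `XX` : supremum of `valX` over all extensions and labels of the level `a`.
* `FIX c lam N k β` : labels `W` of the level `s` of a deterministic shape `e`: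
  `val W ≤ XX(k, 0; e)(level 0) + (β + ε) s + K + N D(s)`.
-/

set_option autoImplicit false

namespace Vale.Agent.P106.U

open Vale.Agent.P127 Vale.Agent.P127.Stk Vale.Agent.P127.U Vale.Agent.P106.W Vale.Agent.P106.K

/-- the shape of a box -/
def shp (B : Cbx) : ℝ × ℝ := (B.u1, B.u2)

/-- distance from the shape of `B` to the shape `e = (b, R)` -/
noncomputable def dsh (B : Cbx) (e : ℕ × ℕ) : ℝ :=
  |Real.log B.u2 + e.1 * Real.log 2| + |Real.log B.u1 + e.2 * Real.log 2|

section finite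

variable {Ω : Type} [Fintype Ω] {γ : Type}

/-- the value of a random label of level `a`, with the price `k` of the distance of its shape to `e`, and the reward `La` for
the hidden shape -/
noncomputable def valX (lam k La : ℝ) (P : Law Ω) (l : Ω → Ry) (t : Ω → ℝ) (C : Ω → γ) (a : ℕ) (e : Ω → ℕ × ℕ)
    (W : Ω → Cbx) : ℝ :=
  val lam P l t C a W - k * P.ex (fun ω => dsh (W ω) (e ω)) +
    La * Stk.hc P (fun ω => shp (W ω)) (fun ω => (l ω, fl1 a (t ω), C ω))

/-- the values of all random labels of level `a`, on all extensions of `P` -/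
def xSet (c lam k La : ℝ) (P : Law Ω) (l : Ω → Ry) (t : Ω → ℝ) (C : Ω → γ) (e : Ω → ℕ × ℕ) (L a : ℕ) : Set ℝ :=
  {v | ∃ (Ω' : Type) (_ : Fintype Ω') (P' : Law Ω') (π : Ω' → Ω) (W : Ω' → Cbx),
    (∀ ω, P'.pr π ω = P.w ω) ∧ (∀ ω, 0 < P'.w ω → LbOk c L a (W ω) (l (π ω)) (t (π ω))) ∧
    v = valX lam k La P' (fun ω => l (π ω)) (fun ω => t (π ω)) (fun ω => C (π ω)) a (fun ω => e (π ω)) W}

/-- the functional `X(a)` with prices -/
noncomputable def XX (c lam k La : ℝ) (P : Law Ω) (l : Ω → Ry) (t : Ω → ℝ) (C : Ω → γ) (e : Ω → ℕ × ℕ) (L a : ℕ) : ℝ :=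
  sSup (xSet c lam k La P l t C e L a)

end finite

/-- **the inequality**: labels of a deterministic shape `e0`, class `c`, penalty `lam`, price `N`, price `k` of the shape,
rate `β` -/
def FIX (c lam N k β : ℝ) : Prop :=
  ∀ ε : ℝ, 0 < ε → ∃ K : ℝ, ∀ (Ω : Type) [Fintype Ω] (γ : Type) (P : Law Ω) (l : Ω → Ry) (t : Ω → ℝ) (C : Ω → γ)
    (L s : ℕ) (e0 : ℕ × ℕ) (W : Ω → Cbx), s ≤ L → SyOk P l t →
    (∀ ω, 0 < P.w ω → LbOk c L s (W ω) (l ω) (t ω) ∧ (W ω).u2 = (1 / 2 : ℝ) ^ e0.1 ∧ (W ω).u1 = (1 / 2 : ℝ) ^ e0.2) →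
    val lam P l t C s W ≤
      XX c lam k 0 P l t C (fun _ => e0) L 0 + (β + ε) * s * Real.log 2 + K + N * Dd P l t C s

end Vale.Agent.P106.U
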