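import Vale.Agent.P106.U.H416.F1L
import Vale.Agent.P106.U.H785.MtrF2
import Vale.Agent.P106.U.H122.MtrI
import Vale.Agent.P127.U.H736.Nonat

/-!
# P106 / U / H416 : F1+ for the young levels, kappa regime (helper416)

* `p2_Bad` : the exceptional event of 122's `hc_mtr_down` is that of the frozen path `fz k k` at `(k, b)`.
* `rk_low`, `chain` : precision and constant variables along clean levels.
* `near_mtr` : `mtr k b` given `mtr j b`, `j` later; error `sqrt (eK k)`.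
* `eK_sum` : the sum of the errors.
* **`f1k`** : the sum of the informations about `x k` (constant along clean levels), `E` = any function of `mtr i b`.
* `f1k_v`, `f1k_va` : `x` = digits of the direction; with digits of the curvature of the line.
-/

set_option autoImplicit false

namespace Vale.Agent.P106.U.H416.F1P

open Finset Vale.Agent.P127 Vale.Agent.P127.Stk Vale.Agent.P127.U Vale.Agent.P106.W
open Vale.Agent.P127.U.CellD (q2 rd Nb q2_pos q2_le q2_add fl1_fl1)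
open Vale.Agent.P106.U.Cell
open Vale.Agent.P106.U.S3 (Run lv At At' IdK IdP Pf LTh LDk mt exc kaL uL F2 F2o)
open Vale.Agent.P106.U.H785.Mtr (Mtd YI hy_mt)
open Vale.Agent.P106.U.H416.F1C

/-! ### the events -/

section bad

variable {Ω π : Type} (D : Mtd Ω π)

lemma fz_va (k b : ℕ) (ω : Ω) : (D.fz k k).va k b ω = (D.p1 k).va 0 b ω := by
  have hs : (D.fz k k).s k ω = (D.p1 k).s 0 ω := Mtd.fz_s D le_rfl ω
  have hF := Mtd.fz_Fk D (le_refl k) ω
  have hR : (D.fz k k).R k b = (D.p1 k).R 0 b := by rw [Mtd.fz_R D le_rfl, Mtd.p1_R]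
  have hb := Mtd.fz_bs D (le_refl k) b
  have hsl : (D.fz k k).sl k b ω = (D.p1 k).sl 0 b ω := by
    unfold Pth.sl
    rw [hF, hb]
    rfl
  have hFr : (D.fz k k).Fr k b ((D.fz k k).R k b - 3 * (D.fz k k).μ) ω =
      (D.p1 k).Fr 0 b ((D.p1 k).R 0 b - 3 * (D.p1 k).μ) ω := by
    unfold Pth.Fr
    rw [hF, hb, hsl, hR]
    rfl
  unfold Pth.va
  rw [hsl, hs, hFr]
  rfl

lemma fz_lv (k b : ℕ) : (D.fz k k).lv k b = (D.p1 k).lv 0 b := by
  have hR : (D.fz k k).R k b = (D.p1 k).R 0 b := by rw [Mtd.fz_R D le_rfl, Mtd.p1_R]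
  have ha : (D.fz k k).a k = (D.p1 k).a 0 := Mtd.fz_a D le_rfl
  unfold Pth.lv
  rw [ha, hR]
  rfl

/-- the event of two letters is that of the frozen path -/
lemma p2_Bad {k i b : ℕ} (h : k ≤ i) {c : ℝ} {ω : Ω} :
    (D.p2 k i h).Bad c 0 b ω ↔ (D.fz k k).Bad c k b ω := by
  have e : (D.p2 k i h).Bad c 0 b ω ↔ (D.p1 k).Bad c 0 b ω := Iff.rfl
  rw [e]
  unfold Pth.Bad
  rw [fz_va, fz_lv]
  exact Iff.rfl

end bad

lemma Nb_mono {n : ℕ} {z ε ε' : ℝ} (h0 : 0 ≤ ε) (h : ε ≤ ε') (hN : Nb n z ε) : Nb n z ε' := by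
  obtain ⟨y, h1, h2, h3⟩ := hN
  by_contra hn
  have hy : |y - z| ≤ ε' := by rw [abs_le]; constructor <;> linarith
  have hz : |z - ε - z| ≤ ε' := by rw [abs_le]; constructor <;> linarith
  exact h3 (Nb.eq hn hy hz)

/-! ### levels -/

section rk

variable {Ω : Type} [Fintype Ω] {τ υ π : Type} {R : Run Ω τ υ} {p : Run.Num} {K : ℝ} {B bS bV : ℕ} {F : Pf R π}
  {Vs Xs Bp : Finset ℕ}

/-- precision along young levels, at the a-steps -/
theorem rk_diag (hp : R.Path p) (hf : F2 R p K B bS bV F Vs Xs) {k j : ℕ} (hk : k ≤ R.n + p.J) (hj : j ≤ R.n + p.J)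
    (ak : R.IsA k) (aj : R.IsA j) (hkj : lv R k ≤ lv R j) (hV : ∀ u, lv R k ≤ u → u ≤ lv R j → u ∈ Vs) :
    R.C.rk j = R.C.rk k + (lv R j - lv R k) * R.m := by
  have key : ∀ n, ∀ j ≤ R.n + p.J, R.IsA j → lv R j = lv R k + n → (∀ u, lv R k ≤ u → u ≤ lv R j → u ∈ Vs) →
      R.C.rk j = R.C.rk k + n * R.m := by
    intro n
    induction n with
    | zero =>
      intro j hj aj h _
      rw [uniq_a hp hk hj ak aj (by omega)]
      omega
    | succ n ih =>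
      intro j hj aj h hV
      obtain ⟨e, he1, he2, he3⟩ := ex_a hp hj (lv R k + n) (by omega)
      have h1 := ih e (by omega) he2 he3 fun u h1 h2 => hV u h1 (by omega)
      have h2 : R.C.a j = R.C.a e + R.m := by
        rw [a_mul hp hj, a_mul hp (show e ≤ R.n + p.J by omega), h, he3]
        ring
      have h3 := hf.diag e j hj he2 aj h2 (Or.inr (hV _ (by omega) le_rfl))
      rw [h3, h1]
      ring
  have := key (lv R j - lv R k) j hj aj (by omega) hV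
  exact this

/-- precision along young levels, lower bound for all indices -/
theorem rk_low (hp : R.Path p) (hf : F2 R p K B bS bV F Vs Xs) {k j : ℕ} (hk : k ≤ R.n + p.J) (hj : j ≤ R.n + p.J)
    (hkj : lv R k < lv R j) (hV : ∀ u, lv R k ≤ u → u ≤ lv R j → u ∈ Vs) :
    R.C.rk k + (lv R j - lv R k - 1) * R.m ≤ R.C.rk j := by
  obtain ⟨e, he1, he2, he3⟩ := ex_a hp hj (lv R k) hkj
  obtain ⟨g, hg1, hg2, hg3⟩ := ex_a hp hj (lv R j - 1) (by omega)
  have h1 := le_of_lv hp (i := e) (j := k) hk he2 (by omega)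
  have h2 := rk_diag hp hf (k := e) (j := g) (by omega) (by omega) he2 hg2 (by omega)
    fun u h1 h2 => hV u (by omega) (by omega)
  have h3 := R.C.hk h1
  have h4 := R.C.hk hg1.le
  have h5 : lv R g - lv R e = lv R j - lv R k - 1 := by omega
  rw [h5] at h2
  omega

/-- the prefix letters -/
theorem pf_fn (hf : F2 R p K B bS bV F Vs Xs) {k j : ℕ} (hkj : k ≤ j) (hj : j ≤ R.n + p.J) :
    Fn R.Q (F.pf k) (F.pf j) := by
  induction j, hkj using Nat.le_induction with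
  | base => exact fun _ _ _ _ e => e
  | succ j _ ih => exact fun ω ω' p1 p2 e => ih (by omega) ω ω' p1 p2 (hf.pfH j (by omega) ω ω' p1 p2 e)

/-- a variable which is constant from level to level -/
theorem x_chain {r kd : ℕ → Prop} (hr : Rule R p r) {ξ : Type*} {x : ℕ → Ω → ξ}
    (hx : ∀ k ∈ IdS R Vs Xs kd r, ∀ j ∈ IdS R Vs Xs kd r, k < j → lv R j = lv R k + 1 → lv R k ∉ Bp → lv R j ∉ Bp →
      ∀ ω, 0 < R.Q.w ω → x j ω = x k ω) {k j : ℕ} (hk : k ∈ IdS R Vs Xs kd r) (hj : j ∈ IdS R Vs Xs kd r)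
    (hkj : lv R k ≤ lv R j) (hC : ∀ u, lv R k ≤ u → u ≤ lv R j → u ∈ Cl R (IdS R Vs Xs kd r) Bp) :
    ∀ ω, 0 < R.Q.w ω → x j ω = x k ω := by
  have key : ∀ n, ∀ j ∈ IdS R Vs Xs kd r, lv R j = lv R k + n →
      (∀ u, lv R k ≤ u → u ≤ lv R j → u ∈ Cl R (IdS R Vs Xs kd r) Bp) → ∀ ω, 0 < R.Q.w ω → x j ω = x k ω := by
    intro n
    induction n with
    | zero =>
      intro j hj h _ ω _
      rw [mem_IdS] at hj hk
      rw [hr.uniq j k hj.1.1 hk.1.1 hj.1.2 hk.1.2 hj.2.2.2.2 hk.2.2.2.2 (by omega)]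
    | succ n ih =>
      intro j hj h hC ω hω
      have h0 := Finset.mem_sdiff.1 (hC (lv R k + n) (by omega) (by omega))
      obtain ⟨e, he, he2⟩ := Finset.mem_image.1 h0.1
      have h1 := ih e he he2 (fun u h1 h2 => hC u h1 (by omega)) ω hω
      have hlt : e < j := by
        by_contra hc
        have := lv_mono (R := R) (i := j) (j := e) (by omega)
        omega
      rw [hx e he j hj hlt (by omega) (by rw [he2]; exact h0.2)
        (Finset.mem_sdiff.1 (hC (lv R j) (by omega) le_rfl)).2 ω hω, h1]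
  exact key (lv R j - lv R k) j hj (by omega) hC

end rk

/-! ### the near functions -/

section near

variable {Ω : Type} [Fintype Ω] {τ υ π : Type} {R : Run Ω τ υ} {p : Run.Num} {K K' c' g' gU : ℝ}
  {B bS bV μ : ℕ} {F : Pf R π} {Vs Xs Bp : Finset ℕ} {o : Fin 7 → ℝ} {o' : ℕ → ℝ}

/-- the errors of the index `k` -/
noncomputable def eK (R : Run Ω τ υ) (F : Pf R π) (μ : ℕ) (o : Fin 7 → ℝ) (o' : ℕ → ℝ) (K' : ℝ) (k : ℕ) : ℝ :=
  prE R.Q (((mt R F μ o o').fz k k).Bad K' k (R.m * R.b1)) +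
    (prE R.Q (fun ω => Nb (R.C.rk k - μ / 2) (kaL R k ω + o' 0) (K' * q2 (R.C.rk k))) +
      prE R.Q (fun ω => Nb (R.C.rk k - μ / 2) (uL R o k ω + o' 1) (K' * q2 (R.C.rk k))))

theorem eK_nonneg (k : ℕ) : 0 ≤ eK R F μ o o' K' k :=
  add_nonneg (prE_nonneg _ _) (add_nonneg (prE_nonneg _ _) (prE_nonneg _ _))

/-- constants -/
theorem cst (h1 : 1 ≤ K) (hK' : (100 * K) ^ 20 ≤ K') :
    640 * (8 * (4 * K)) ^ 7 ≤ K' ∧ 3 * (4 * K) ≤ K' ∧ 19 * (4 * K) ≤ K' := by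
  have a : (1 : ℝ) ≤ K ^ 13 := one_le_pow₀ h1
  have b : (1 : ℝ) ≤ K ^ 6 := one_le_pow₀ h1
  have e1 : (100 * K) ^ 20 = 100 ^ 20 * (K ^ 7 * K ^ 13) := by ring
  have e2 : K ^ 7 ≤ K ^ 7 * K ^ 13 := le_mul_of_one_le_right (by positivity) a
  have e3 : K ≤ K ^ 7 := by
    have : K ^ 7 = K * K ^ 6 := by ring
    rw [this]
    exact le_mul_of_one_le_right (by linarith) b
  have e4 : 640 * (8 * (4 * K)) ^ 7 = 640 * 32 ^ 7 * K ^ 7 := by ring
  have e5 : 0 ≤ K ^ 7 := by positivity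
  rw [e1] at hK'
  rw [e4]
  refine ⟨?_, ?_, ?_⟩ <;> nlinarith

theorem bdI_le (h1 : 1 ≤ K) (hK' : (100 * K) ^ 20 ≤ K') {k j : ℕ} (hkj : k ≤ j) :
    prE R.Q (H122.BdI (mt R F μ o o') (4 * K) k j (R.m * R.b1) hkj) ≤ eK R F μ o o' K' k := by
  obtain ⟨c1, c2, c3⟩ := cst h1 hK'
  have K0 : 0 ≤ 3 * (4 * K) := by linarith
  have q := q2_pos (R.C.rk k)
  refine le_trans (Vale.Agent.P127.U.Nonat.prE_mono_set R.Q (E' := fun ω =>
    ((mt R F μ o o').fz k k).Bad K' k (R.m * R.b1) ω ∨ (Nb (R.C.rk k - μ / 2) (kaL R k ω + o' 0) (K' * q2 (R.C.rk k)) ∨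
      Nb (R.C.rk k - μ / 2) (uL R o k ω + o' 1) (K' * q2 (R.C.rk k)))) ?_) ?_
  · intro ω _ h
    rcases h with h | h | h
    · exact Or.inl (Pth.Bad_mono c1 ((p2_Bad _ hkj).1 h))
    · refine Or.inr (Or.inl (Nb_mono (ε := 3 * (4 * K) * q2 (R.C.rk k)) (by positivity) ?_ h))
      exact mul_le_mul_of_nonneg_right c2 q.le
    · refine Or.inr (Or.inr (Nb_mono (ε := 19 * (4 * K) * q2 (R.C.rk k)) (by positivity) ?_ h))
      exact mul_le_mul_of_nonneg_right c3 q.le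
  · refine (Vale.Agent.P127.U.Nonat.prE_or_le R.Q _ _).trans ?_
    unfold eK
    have := Vale.Agent.P127.U.Nonat.prE_or_le R.Q
      (fun ω => Nb (R.C.rk k - μ / 2) (kaL R k ω + o' 0) (K' * q2 (R.C.rk k)))
      (fun ω => Nb (R.C.rk k - μ / 2) (uL R o k ω + o' 1) (K' * q2 (R.C.rk k)))
    linarith

/-- the constant -/
noncomputable def cF (K : ℝ) : ℝ := H122.cI (4 * K) ⌈641 * (4 * K) ^ 2⌉₊

theorem cF_nonneg (K : ℝ) : 0 ≤ cF K := by
  unfold cF H122.cI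
  have a : 0 ≤ Real.log ((2 * ⌈641 * (4 * K) ^ 2⌉₊ + 3 : ℕ) : ℝ) := Real.log_natCast_nonneg _
  have b : 0 ≤ Real.log (2 * H300.MK (8 * (4 * K)) + 3) := Real.log_nonneg (by
    have : (0 : ℝ) ≤ H300.MK (8 * (4 * K)) := Nat.cast_nonneg _
    linarith)
  linarith

variable (hok : R.Ok p K c' g' gU) (hf : F2 R p K B bS bV F Vs Xs) (h1 : 1 ≤ K)
  (hB : (100 * K) ^ 20 ≤ (B : ℝ)) (hr : 100 * (R.m * B) ≤ R.r0) (hμB : μ ≤ B) (hμ : μ ≤ R.C.μ)
  (hb : 8 * μ ≤ R.m * R.b1)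

include hok hf h1 hb

/-- the levels of two steps -/
theorem dn {k j d0 : ℕ} (hk : k ≤ R.n + p.J) (hj : j ≤ R.n + p.J) (kk : Kap R k) (kj : Kap R j)
    (hkj : lv R k + d0 ≤ lv R j) (hd : 2 * μ + R.m ≤ d0 * R.m) (hV : ∀ u, lv R k ≤ u → u ≤ lv R j → u ∈ Vs) :
    H122.Dn (mt R F μ o o') (4 * K) (YI R p Vs) k j (R.m * R.b1) := by
  have hp := hok.pth
  have m1 := hp.m1
  have d1 : 1 ≤ d0 := by
    by_contra hc
    have : d0 = 0 := by omega
    rw [this] at hd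
    omega
  have hlt : lv R k < lv R j := by omega
  have e1 := rk_low hp hf hk hj hlt hV
  have e2 : (d0 - 1) * R.m ≤ (lv R j - lv R k - 1) * R.m := Nat.mul_le_mul_right _ (by omega)
  have e3 : (d0 - 1) * R.m + R.m = d0 * R.m := by
    rw [← Nat.succ_mul]
    congr 1
    omega
  have e4 : R.C.a k + d0 * R.m ≤ R.C.a j := by
    rw [a_mul hp hk, a_mul hp hj, ← Nat.add_mul]
    exact Nat.mul_le_mul_right _ hkj
  have e5 : R.C.rk k + 2 * μ ≤ R.C.rk j := by omega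
  have kle : k ≤ j := by
    by_contra hc
    have := lv_mono (R := R) (i := j) (j := k) (by omega)
    omega
  have R1 : ∀ i, Kap R i → (mt R F μ o o').R i (R.m * R.b1) = (R.C.rk i - μ / 2) + R.m * R.b1 := by
    intro i hi
    show min ((R.C.rk i - μ / 2) + R.m * R.b1) (R.C.rf i) = _
    unfold Kap at hi
    omega
  refine ⟨by linarith, ⟨hk, hV _ le_rfl (by omega)⟩, ⟨hj, hV _ (by omega) le_rfl⟩, kle, ?_, ?_, ?_, hb, ?_⟩
  · show R.C.a k + 2 * μ ≤ R.C.a j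
    omega
  · show R.C.rk k + μ / 2 ≤ R.C.rk j
    omega
  · rw [R1 k kk, R1 j kj]
    show R.C.rk k - μ / 2 + R.m * R.b1 + μ ≤ _
    omega
  · rw [R1 k kk]
    show 8 * μ ≤ _
    omega

include hB hr hμB hμ

/-- **the cell `mtr k b` given `mtr j b`** -/
theorem near_mtr (hK' : (100 * K) ^ 20 ≤ K') {k j d0 : ℕ} (hk : k ≤ R.n + p.J) (hj : j ≤ R.n + p.J) (kk : Kap R k)
    (kj : Kap R j) (hkj : lv R k + d0 ≤ lv R j) (hd : 2 * μ + R.m ≤ d0 * R.m)
    (hV : ∀ u, lv R k ≤ u → u ≤ lv R j → u ∈ Vs) :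
    Stk.hc R.Q ((mt R F μ o o').mtr k (R.m * R.b1)) ((mt R F μ o o').mtr j (R.m * R.b1)) ≤
      cF K * Real.sqrt (eK R F μ o o' K' k) := by
  have H := dn (o := o) (o' := o') hok hf h1 hb hk hj kk kj hkj hd hV
  have h2 := H122.hc_mtr_down R.Q H (fun ω hω => hy_mt hok hf h1 hB hr hμB hμ hω) (M := ⌈641 * (4 * K) ^ 2⌉₊)
    (Nat.le_ceil _)
  refine (hc_mono_right R.Q _ ?_).trans (h2.trans ?_)
  · intro ω ω' p1 p2 e
    have e1 : F.pf j ω = F.pf j ω' := congrArg (fun x : H785.Mtr.Lt π × Pth.Dg => x.1.2.1) e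
    exact Prod.ext (pf_fn hf H.ij hj ω ω' p1 p2 e1) e
  · exact mul_le_mul_of_nonneg_left (Real.sqrt_le_sqrt (bdI_le h1 hK' H.ij)) (cF_nonneg K)

end near

/-! ### letters in the kappa regime -/

section lett

variable {Ω : Type} [Fintype Ω] {τ υ π : Type} {R : Run Ω τ υ} {μ : ℕ} {F : Pf R π} {o : Fin 7 → ℝ} {o' : ℕ → ℝ}
  {k i : ℕ} {ω ω' : Ω}

theorem LDk_iff (hk : Kap R k) :
    LDk ((mt R F μ o o').fz k k) (R.m * R.b1) k ω = LDk ((mt R F μ o o').fz k k) (R.m * R.b1) k ω' ↔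
      (mt R F μ o o').mtr k (R.m * R.b1) ω = (mt R F μ o o').mtr k (R.m * R.b1) ω' := by
  have hn : ¬ ((mt R F μ o o').fz k k).rf k ≤ R.m * R.b1 + ((mt R F μ o o').fz k k).rk k := by
    rw [Mtd.fz_rf _ le_rfl, Mtd.fz_rk _ le_rfl le_rfl]
    unfold Kap at hk
    show ¬ R.C.rf k ≤ R.m * R.b1 + (R.C.rk k - μ / 2)
    omega
  rw [← Mtd.fz_cell_iff (mt R F μ o o') (le_refl k)]
  unfold LDk
  rw [if_neg hn, if_neg hn, Prod.mk.injEq]
  exact ⟨fun h => h.1, fun h => ⟨h, rfl⟩⟩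

theorem LTh_of (hk : Kap R k) (hki : k ≤ i)
    (e1 : (mt R F μ o o').mtr k (R.m * R.b1) ω = (mt R F μ o o').mtr k (R.m * R.b1) ω')
    (e2 : (mt R F μ o o').mtr i (R.m * R.b1) ω = (mt R F μ o o').mtr i (R.m * R.b1) ω') :
    LTh ((mt R F μ o o').fz k k) (R.m * R.b1) i ω = LTh ((mt R F μ o o').fz k k) (R.m * R.b1) i ω' := by
  have hn : ¬ ((mt R F μ o o').fz k k).rf i ≤ R.m * R.b1 + ((mt R F μ o o').fz k k).rk i := by
    rw [Mtd.fz_rf _ hki, Mtd.fz_rk _ hki hki]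
    have := R.C.hf hki
    unfold Kap at hk
    show ¬ R.C.rf i ≤ R.m * R.b1 + (R.C.rk k - μ / 2)
    omega
  unfold LTh
  rw [if_neg hn, if_neg hn]
  refine Prod.ext ?_ rfl
  refine Prod.ext (congrArg (fun x : H785.Mtr.Lt π × Pth.Dg => x.1) e1) ?_
  show fl1 (R.C.a (max i k)) (R.C.t ω) = fl1 (R.C.a (max i k)) (R.C.t ω')
  rw [max_eq_left hki]
  exact congrArg (fun x : H785.Mtr.Lt π × Pth.Dg => x.1.1) e2

end lett

/-! ### the sum -/

theorem sum_sqrt_le {ι : Type*} (s : Finset ι) (f : ι → ℝ) (h : ∀ i ∈ s, 0 ≤ f i) :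
    ∑ i ∈ s, Real.sqrt (f i) ≤ Real.sqrt (s.card * ∑ i ∈ s, f i) := by
  refine Real.le_sqrt_of_sq_le ?_
  have h1 := sq_sum_le_card_mul_sum_sq (s := s) (f := fun i => Real.sqrt (f i))
  refine h1.trans (le_of_eq ?_)
  congr 1
  exact Finset.sum_congr rfl fun i hi => Real.sq_sqrt (h i hi)

section main

variable {Ω : Type} [Fintype Ω] {τ υ π : Type} {R : Run Ω τ υ} {p : Run.Num} {K K' c' g' gU : ℝ}
  {B bS bV μ : ℕ} {F : Pf R π} {Vs Xs Bp : Finset ℕ} {o : Fin 7 → ℝ} {o' : ℕ → ℝ}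

theorem exc_nonneg {τ : Type} (C : Pth Ω τ) (Q : Law Ω) (K : ℝ) (i b : ℕ) : 0 ≤ exc Q C K i b :=
  add_nonneg (add_nonneg (prE_nonneg _ _) (prE_nonneg _ _)) (prE_nonneg _ _)

theorem bad_le_exc {τ : Type} (C : Pth Ω τ) (Q : Law Ω) (K : ℝ) (i b : ℕ) : prE Q (C.Bad K i b) ≤ exc Q C K i b := by
  unfold exc
  have := prE_nonneg Q (H420.BadS C K i b)
  have := prE_nonneg Q (H300.BadR C K i b)
  linarith

/-- the sum of the errors -/
theorem eK_sum (ho : F2o R p B bS bV F Vs Xs μ K' o o') :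
    ∑ k ∈ IdK R Vs Xs, eK R F μ o o' K' k ≤ 2 * (K' ^ 2 * (R.n + p.J + 1) * q2 (μ / 4)) := by
  classical
  have h1 := ho.offK 0 (Nat.zero_le _)
  have h2 := ho.offL
  have h3 : ∑ k ∈ IdK R Vs Xs, (prE R.Q (fun ω => Nb (R.C.rk k - μ / 2) (kaL R k ω + o' 0) (K' * q2 (R.C.rk k))) +
      prE R.Q (fun ω => Nb (R.C.rk k - μ / 2) (uL R o k ω + o' 1) (K' * q2 (R.C.rk k)))) ≤
      ∑ k ∈ range (R.n + 1), (prE R.Q (fun ω => Nb (R.C.rk k - μ / 2) (kaL R k ω + o' 0) (K' * q2 (R.C.rk k))) +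
      prE R.Q (fun ω => Nb (R.C.rk k - μ / 2) (uL R o k ω + o' 1) (K' * q2 (R.C.rk k)))) := by
    refine Finset.sum_le_sum_of_subset_of_nonneg (fun k hk => ?_) fun k _ _ =>
      add_nonneg (prE_nonneg _ _) (prE_nonneg _ _)
    have := Finset.mem_Icc.1 (Finset.mem_filter.1 hk).1
    exact Finset.mem_range.2 (by omega)
  have h4 : ∑ k ∈ IdK R Vs Xs, prE R.Q (((mt R F μ o o').fz k k).Bad K' k (R.m * R.b1)) ≤
      ∑ k ∈ IdK R Vs Xs, (exc R.Q ((mt R F μ o o').fz k k) K' k (R.m * R.b1) +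
        exc R.Q ((mt R F μ o o').fz k k) K' k bV + ∑ i ∈ At' R p B 0 k, exc R.Q ((mt R F μ o o').fz k k) K' i (R.m * R.b1)) := by
    refine Finset.sum_le_sum fun k _ => ?_
    have a1 := bad_le_exc ((mt R F μ o o').fz k k) R.Q K' k (R.m * R.b1)
    have a2 := exc_nonneg ((mt R F μ o o').fz k k) R.Q K' k bV
    have a3 : 0 ≤ ∑ i ∈ At' R p B 0 k, exc R.Q ((mt R F μ o o').fz k k) K' i (R.m * R.b1) :=
      Finset.sum_nonneg fun i _ => exc_nonneg _ _ _ _ _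
    linarith
  unfold eK
  rw [Finset.sum_add_distrib]
  push_cast at h1
  have e : K' ^ 2 * (0 + 1) ^ 2 * ((R.n : ℝ) + p.J + 1) * q2 (μ / 4) = K' ^ 2 * (R.n + p.J + 1) * q2 (μ / 4) := by ring
  rw [e] at h1
  linarith

theorem card_IdK : ((IdK R Vs Xs).card : ℝ) ≤ R.n + p.J + 1 := by
  classical
  have h : (IdK R Vs Xs).card ≤ R.n := by
    refine (Finset.card_filter_le _ _).trans ?_
    rw [Nat.card_Icc]
    omega
  have : ((IdK R Vs Xs).card : ℝ) ≤ R.n := by exact_mod_cast h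
  have : (0 : ℝ) ≤ p.J := Nat.cast_nonneg _
  linarith

theorem sqrt_q2 (μ : ℕ) : Real.sqrt (2 * q2 (μ / 4)) ≤ 2 * q2 (μ / 8) := by
  have q := q2_pos (μ / 8)
  rw [Real.sqrt_le_left (by positivity)]
  have h1 : q2 (μ / 4) ≤ q2 (μ / 8 + μ / 8) := q2_le (by omega)
  rw [q2_add] at h1
  nlinarith

theorem sq_sum (hK0 : 0 ≤ K') (ho : F2o R p B bS bV F Vs Xs μ K' o o') :
    ∑ k ∈ IdK R Vs Xs, Real.sqrt (eK R F μ o o' K' k) ≤ 2 * (K' * (R.n + p.J + 1) * q2 (μ / 8)) := by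
  have h1 := sum_sqrt_le (IdK R Vs Xs) (fun k => eK R F μ o o' K' k) fun k _ => eK_nonneg k
  have h2 := eK_sum ho
  have h3 : ((IdK R Vs Xs).card : ℝ) ≤ R.n + p.J + 1 := card_IdK
  set N : ℝ := R.n + p.J + 1 with hN
  have N0 : 0 ≤ N := by positivity
  have q4 := q2_pos (μ / 4)
  have h4 : ((IdK R Vs Xs).card : ℝ) * ∑ k ∈ IdK R Vs Xs, eK R F μ o o' K' k ≤ (K' * N) ^ 2 * (2 * q2 (μ / 4)) := by
    have := mul_le_mul h3 h2 (Finset.sum_nonneg fun k _ => eK_nonneg k) N0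
    calc _ ≤ N * (2 * (K' ^ 2 * N * q2 (μ / 4))) := this
      _ = _ := by ring
  refine h1.trans ((Real.sqrt_le_sqrt h4).trans ?_)
  rw [Real.sqrt_mul (sq_nonneg _), Real.sqrt_sq (by positivity)]
  calc K' * N * Real.sqrt (2 * q2 (μ / 4)) ≤ K' * N * (2 * q2 (μ / 8)) :=
        mul_le_mul_of_nonneg_left (sqrt_q2 μ) (by positivity)
    _ = _ := by ring

/-- along young levels the kappa regime stays -/
theorem kd_kap (hp : R.Path p) (hf : F2 R p K B bS bV F Vs Xs) (hB1 : 1 ≤ B) (k j : ℕ) (hk : 1 ≤ k) (hkj : k ≤ j)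
    (hj : j ≤ R.n) (h : ∀ i, k ≤ i → i ≤ j → lv R i ∈ Vs ∧ lv R i ∉ Xs) (hk2 : Kap R k) : Kap R j := by
  refine (kap_const (F := F) (B := B) hp hB1 hkj (by omega) fun i h1 h2 => ?_).1 hk2
  rcases hf.reg i (by omega) (by omega) (h i h1 h2).1 (h i h1 h2).2 with h3 | h3
  · left
    have m1 := hp.m1
    have e1 := hf.loS
    have e2 := hf.loV
    have e3 : 1 ≤ R.m * B := Nat.mul_pos m1 hB1
    have e4 : R.m * (R.b1 + B) = R.m * R.b1 + R.m * B := by ring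
    unfold Kap
    omega
  · exact Or.inr h3

variable (hok : R.Ok p K c' g' gU) (hf : F2 R p K B bS bV F Vs Xs) (h1 : 1 ≤ K)
  (hB : (100 * K) ^ 20 ≤ (B : ℝ)) (hr : 100 * (R.m * B) ≤ R.r0) (hμB : μ ≤ B) (hμ : μ ≤ R.C.μ)
  (hb : 8 * μ ≤ R.m * R.b1)

include hok hf h1 hb hB hr hμB hμ

open Classical in
/-- **F1+, young levels, kappa regime** : `x k` is constant from level to level, `E k i` a function of `mtr i b` -/
theorem f1k (hK' : (100 * K) ^ 20 ≤ K') (ho : F2o R p B bS bV F Vs Xs μ K' o o') {r : ℕ → Prop} (hrule : Rule R p r)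
    {d d0 : ℕ} (hd : 2 * μ + R.m ≤ d0 * R.m) (hX : Xs ⊆ Bp) (hE : Ex Vs ⊆ Bp) {ξ γ : Type*} (x : ℕ → Ω → ξ)
    (E : ℕ → ℕ → Ω → γ) {M : ℝ} (hM0 : 0 ≤ M)
    (hM : ∀ k ∈ IdS R Vs Xs (Kap R) r, Stk.hc R.Q (x k) ((mt R F μ o o').mtr k (R.m * R.b1)) ≤ M)
    (hx : ∀ k ∈ IdS R Vs Xs (Kap R) r, ∀ j ∈ IdS R Vs Xs (Kap R) r, k < j → lv R j = lv R k + 1 → lv R k ∉ Bp →
      lv R j ∉ Bp → ∀ ω, 0 < R.Q.w ω → x j ω = x k ω)
    (hEf : ∀ k ∈ IdS R Vs Xs (Kap R) r, ∀ i ∈ At' R p B d k, Fn R.Q (E k i) ((mt R F μ o o').mtr i (R.m * R.b1))) :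
    ∑ k ∈ IdS R Vs Xs (Kap R) r, ∑ i ∈ At' R p B d k, mi R.Q (x k) (E k i)
      (fun ω => (LDk ((mt R F μ o o').fz k k) (R.m * R.b1) k ω, LTh ((mt R F μ o o').fz k k) (R.m * R.b1) i ω)) ≤
      M * (Bp.card + 2 * ((d + d0 : ℕ) : ℝ) * (Bp.card + 1)) + 4 * cF K * (K' * (R.n + p.J + 1) * q2 (μ / 8)) := by
  have hp := hok.pth
  have m1 := hp.m1
  have hB1 : 1 ≤ B := by
    by_contra hc
    have h0 : B = 0 := by omega
    rw [h0] at hB
    have : (1 : ℝ) ≤ (100 * K) ^ 20 := one_le_pow₀ (by linarith)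
    norm_num at hB
    linarith
  have hK0 : 0 ≤ K' := by
    have : (1 : ℝ) ≤ (100 * K) ^ 20 := one_le_pow₀ (by linarith)
    linarith
  have cf := cF_nonneg K
  set D := mt R F μ o o' with hD
  set b := R.m * R.b1 with hbd
  set S := IdS R Vs Xs (Kap R) r with hS
  have hd0 : 1 ≤ d0 := by
    by_contra hc
    have : d0 = 0 := by omega
    rw [this] at hd
    omega
  have SK : ∀ k ∈ S, k ∈ IdK R Vs Xs := fun k hk => by
    rw [hS, mem_IdS] at hk
    exact Finset.mem_filter.2 ⟨Finset.mem_Icc.2 hk.1, hk.2.1, hk.2.2.1, hk.2.2.2.1⟩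
  have SKap : ∀ k ∈ S, Kap R k := fun k hk => by
    rw [hS, mem_IdS] at hk
    exact hk.2.2.2.1
  have Sn : ∀ k ∈ S, 1 ≤ k ∧ k ≤ R.n := fun k hk => by
    rw [hS, mem_IdS] at hk
    exact hk.1
  set nr : ℕ → ℝ := fun k => cF K * (Real.sqrt (eK R F μ o o' K' k) +
    ∑ i ∈ (At' R p B d k).filter (fun i => i ∈ IdK R Vs Xs), Real.sqrt (eK R F μ o o' K' i)) with hnr
  have s0 : ∀ k, 0 ≤ ∑ i ∈ (At' R p B d k).filter (fun i => i ∈ IdK R Vs Xs), Real.sqrt (eK R F μ o o' K' i) :=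
    fun k => Finset.sum_nonneg fun _ _ => Real.sqrt_nonneg _
  have main := sum_core (B := B) (d := d) (d' := d + d0) hp hrule (kd_kap hp hf hB1) hX hE
    (fun k => LDk (D.fz k k) b k) (fun k i => LTh (D.fz k k) b i) E (fun k => D.mtr k b) x (nr := nr) hM0
    (fun k hk => ⟨fun ω ω' _ _ e => (LDk_iff (SKap k hk)).2 e, fun ω ω' _ _ e => (LDk_iff (SKap k hk)).1 e⟩)
    hM (fun k _ => mul_nonneg cf (add_nonneg (Real.sqrt_nonneg _) (s0 k))) ?_
  · refine main.trans (add_le_add le_rfl ?_)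
    -- the sum of the errors
    rw [hnr, ← Finset.mul_sum, Finset.sum_add_distrib]
    have t1 : ∑ k ∈ S, Real.sqrt (eK R F μ o o' K' k) ≤ ∑ k ∈ IdK R Vs Xs, Real.sqrt (eK R F μ o o' K' k) :=
      Finset.sum_le_sum_of_subset_of_nonneg SK fun _ _ _ => Real.sqrt_nonneg _
    have t2 : ∑ k ∈ S, ∑ i ∈ (At' R p B d k).filter (fun i => i ∈ IdK R Vs Xs), Real.sqrt (eK R F μ o o' K' i) ≤
        ∑ i ∈ IdK R Vs Xs, Real.sqrt (eK R F μ o o' K' i) := by
      rw [Finset.sum_comm' (t' := IdK R Vs Xs) (s' := fun i => S.filter fun k => i ∈ At' R p B d k) ?_]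
      · refine Finset.sum_le_sum fun i _ => ?_
        rw [Finset.sum_const, nsmul_eq_mul]
        have hc : (S.filter fun k => i ∈ At' R p B d k).card ≤ 1 := by
          rw [Finset.card_le_one]
          intro k hk k' hk'
          rw [Finset.mem_filter] at hk hk'
          have g1 := (Finset.mem_filter.1 hk.2).2.2.2.2.1
          have g2 := (Finset.mem_filter.1 hk'.2).2.2.2.2.1
          have f1 := mem_IdS.1 hk.1
          have f2 := mem_IdS.1 hk'.1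
          refine hrule.uniq k k' f1.1.1 f2.1.1 f1.1.2 f2.1.2 f1.2.2.2.2 f2.2.2.2.2 ?_
          unfold lv
          rw [show R.C.a k = R.C.a k' by omega]
        have hc' : ((S.filter fun k => i ∈ At' R p B d k).card : ℝ) ≤ 1 := by exact_mod_cast hc
        have := Real.sqrt_nonneg (eK R F μ o o' K' i)
        nlinarith
      · intro k i
        simp only [Finset.mem_filter]
        tauto
    have t3 := sq_sum hK0 ho
    have t4 := mul_le_mul_of_nonneg_left (add_le_add (t1.trans t3) (t2.trans t3)) cf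
    refine t4.trans (le_of_eq ?_)
    ring
  · intro k hk j hj hkj hlv hcl
    have cl : ∀ u, lv R k ≤ u → u ≤ lv R j → u ∈ Vs ∧ u ∉ Xs := by
      intro u h1 h2
      have g := Finset.mem_sdiff.1 (hcl u h1 h2)
      obtain ⟨e, he, rfl⟩ := Finset.mem_image.1 g.1
      exact ⟨(mem_IdS.1 he).2.1, (mem_IdS.1 he).2.2.1⟩
    have hjn : j ≤ R.n + p.J := by
      have := (Sn j hj).2
      omega
    have hkn : k ≤ R.n + p.J := by omega
    have nk : Stk.hc R.Q (D.mtr k b) (D.mtr j b) ≤ cF K * Real.sqrt (eK R F μ o o' K' k) :=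
      near_mtr hok hf h1 hB hr hμB hμ hb hK' hkn hjn (SKap k hk) (SKap j hj) (d0 := d0) (by omega) hd
        fun u h1 h2 => (cl u h1 h2).1
    refine ⟨x_chain hrule hx hk hj (by omega) hcl, ?_, ?_⟩
    · refine nk.trans (mul_le_mul_of_nonneg_left ?_ cf)
      have := s0 k
      linarith
    · intro i hi
      have hA := (Finset.mem_filter.1 hi).2
      have hin : i ≤ R.n + p.J := hA.2.2.1
      have hki : k < i := hA.1
      have li : lv R i = lv R k + d := by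
        have e1 := a_mul hp hin
        have e2 := a_mul hp hkn
        have e3 := hA.2.2.2.1
        rw [e1, e2, ← Nat.add_mul] at e3
        exact Nat.eq_of_mul_eq_mul_right m1 e3
      have hij : i < j := by
        by_contra hc
        have := lv_mono (R := R) (i := j) (j := i) (by omega)
        omega
      have k1 := (Sn k hk).1
      have jn := (Sn j hj).2
      have hcli : ∀ e, k ≤ e → e ≤ j → lv R e ∈ Vs ∧ lv R e ∉ Xs := fun e h1 h2 =>
        cl _ (lv_mono (R := R) h1) (lv_mono (R := R) h2)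
      have kai : Kap R i := kd_kap hp hf hB1 k i k1 hki.le (by omega) (fun e h1 h2 => hcli e h1 (by omega)) (SKap k hk)
      have iK : i ∈ IdK R Vs Xs :=
        Finset.mem_filter.2 ⟨Finset.mem_Icc.2 ⟨by omega, by omega⟩, (hcli i hki.le hij.le).1, (hcli i hki.le hij.le).2, kai⟩
      have ni : Stk.hc R.Q (D.mtr i b) (D.mtr j b) ≤ cF K * Real.sqrt (eK R F μ o o' K' i) :=
        near_mtr hok hf h1 hB hr hμB hμ hb hK' hin hjn kai (SKap j hj) (d0 := d0) (by omega) hd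
          fun u h1 h2 => (cl u (by omega) h2).1
      have g1 : Stk.hc R.Q (fun ω => (E k i ω, (LDk (D.fz k k) b k ω, LTh (D.fz k k) b i ω))) (D.mtr j b) ≤
          Stk.hc R.Q (fun ω => (D.mtr i b ω, D.mtr k b ω)) (D.mtr j b) := by
        refine hc_mono_left R.Q ?_
        intro ω ω' p1 p2 e
        simp only [Prod.mk.injEq] at e
        obtain ⟨⟨e1, e2⟩, _⟩ := e
        refine Prod.ext (hEf k hk i hi ω ω' p1 p2 e1) (Prod.ext ((LDk_iff (SKap k hk)).2 e2) ?_)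
        exact LTh_of (SKap k hk) hki.le e2 e1
      have g2 := hc_pair R.Q (D.mtr i b) (D.mtr k b) (D.mtr j b)
      have g3 : Stk.hc R.Q (D.mtr k b) (fun ω => (D.mtr i b ω, D.mtr j b ω)) ≤ Stk.hc R.Q (D.mtr k b) (D.mtr j b) :=
        hc_mono_right R.Q _ fun ω ω' _ _ e => (Prod.mk.inj e).2
      have g4 : Real.sqrt (eK R F μ o o' K' i) ≤
          ∑ i ∈ (At' R p B d k).filter (fun i => i ∈ IdK R Vs Xs), Real.sqrt (eK R F μ o o' K' i) :=
        Finset.single_le_sum (f := fun i => Real.sqrt (eK R F μ o o' K' i)) (fun _ _ => Real.sqrt_nonneg _)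
          (Finset.mem_filter.2 ⟨hi, iK⟩)
      have g5 := mul_le_mul_of_nonneg_left g4 cf
      show _ ≤ cF K * (Real.sqrt (eK R F μ o o' K' k) + _)
      rw [mul_add]
      linarith

end main

end Vale.Agent.P106.U.H416.F1P
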