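import Vale.Agent.P106.U.H416.Win1
import Vale.Agent.P106.U.H61.Mac
import Vale.Agent.P127.U.Lam.HEnt

/-!
# P106 / U / H416 : `PWinX` and `PAbs` (helper61's TEXT S1 (2)), with constant error
-/

set_option autoImplicit false

namespace Vale.Agent.P106.U.H416

open Vale.Agent.P127 Vale.Agent.P127.Stk Vale.Agent.P127.U Vale.Agent.P106.W Vale.Agent.P106.K Vale.Agent.P106.U

section ent

variable {Ω : Type} [Fintype Ω]

/-- entropy of a natural number given another one -/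
theorem hc_int_le (P : Law Ω) {M : ℝ} (hM : 1 ≤ M) (x y : Ω → ℕ) :
    Stk.hc P x y ≤ Real.log 2 / M * P.ex (fun ω => |(x ω : ℝ) - y ω|) + (Real.log M + 2 + Real.log 2) := by
  have h1 : Stk.hc P x y ≤ Stk.hc P (fun ω => (((x ω : ℤ) - y ω).natAbs, decide (x ω ≤ y ω))) y := by
    refine Stk.hc_mono_left P ?_
    intro ω ω' _ _ e
    simp only [Prod.mk.injEq, decide_eq_decide] at e
    obtain ⟨⟨e1, e2⟩, e3⟩ := e
    rw [e3] at e1 e2
    by_cases h : x ω ≤ y ω'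
    · have h' := e2.1 h
      omega
    · have h' : ¬ x ω' ≤ y ω' := fun q => h (e2.2 q)
      omega
  have h2 := Apx.hc_pair_le P (fun ω => ((x ω : ℤ) - y ω).natAbs) (fun ω => decide (x ω ≤ y ω)) y
  have h3 := HEnt.hc_nat_le P hM (fun ω => ((x ω : ℤ) - y ω).natAbs) y
  have h4 : Stk.hc P (fun ω => decide (x ω ≤ y ω)) y ≤ Real.log 2 := by
    have := Stk.hc_le_log P (fun ω => decide (x ω ≤ y ω)) y 2 fun ω _ =>
      ⟨Finset.univ, by simp, fun _ _ _ => Finset.mem_univ _⟩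
    exact_mod_cast this
  have h5 : P.ex (fun ω => ((((x ω : ℤ) - y ω).natAbs : ℕ) : ℝ)) = P.ex (fun ω => |(x ω : ℝ) - y ω|) := by
    refine P.ex_congr fun ω _ => ?_
    rw [Nat.cast_natAbs]
    push_cast
    rfl
  rw [h5] at h3
  linarith

/-- entropy of a shape given another one -/
theorem hc_shp_le (P : Law Ω) {M : ℝ} (hM : 1 ≤ M) (x y : Ω → ℕ × ℕ) :
    Stk.hc P x y ≤ Real.log 2 / M * P.ex (fun ω => |((x ω).1 : ℝ) - (y ω).1| + |((x ω).2 : ℝ) - (y ω).2|) +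
      2 * (Real.log M + 2 + Real.log 2) := by
  have h1 := Apx.hc_pair_le P (fun ω => (x ω).1) (fun ω => (x ω).2) y
  have h2 := hc_int_le P hM (fun ω => (x ω).1) (fun ω => (y ω).1)
  have h3 := hc_int_le P hM (fun ω => (x ω).2) (fun ω => (y ω).2)
  have h4 : Stk.hc P (fun ω => (x ω).1) y ≤ Stk.hc P (fun ω => (x ω).1) (fun ω => (y ω).1) :=
    Stk.hc_mono_right P _ fun _ _ _ _ e => congrArg Prod.fst e
  have h5 : Stk.hc P (fun ω => (x ω).2) y ≤ Stk.hc P (fun ω => (x ω).2) (fun ω => (y ω).2) :=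
    Stk.hc_mono_right P _ fun _ _ _ _ e => congrArg Prod.snd e
  rw [P.ex_add, mul_add]
  have h6 : Stk.hc P x y = Stk.hc P (fun ω => ((x ω).1, (x ω).2)) y := rfl
  rw [h6]
  linarith

end ent

section shape

variable {c : ℝ} {L a : ℕ}

/-- the shape of a label -/
theorem exists_shape {Ω : Type} [Fintype Ω] {P : Law Ω} {l : Ω → Ry} {t : Ω → ℝ} {W : Ω → Cbx}
    (h : ∀ ω, 0 < P.w ω → LbOk c L a (W ω) (l ω) (t ω)) :
    ∃ e : Ω → ℕ × ℕ, ∀ ω, 0 < P.w ω → (W ω).u2 = (1 / 2 : ℝ) ^ (e ω).1 ∧ (W ω).u1 = (1 / 2 : ℝ) ^ (e ω).2 := by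
  classical
  have h1 : ∀ ω, ∃ e : ℕ × ℕ, 0 < P.w ω → (W ω).u2 = (1 / 2 : ℝ) ^ e.1 ∧ (W ω).u1 = (1 / 2 : ℝ) ^ e.2 := by
    intro ω
    by_cases hω : 0 < P.w ω
    · obtain ⟨b, R, h1, h2, -⟩ := (h ω hω).sh
      exact ⟨(b, R), fun _ => ⟨h1, h2⟩⟩
    · exact ⟨(0, 0), fun h => absurd h hω⟩
  choose e he using h1
  exact ⟨e, he⟩

theorem half_inj {m n : ℕ} (h : (1 / 2 : ℝ) ^ m = (1 / 2 : ℝ) ^ n) : m = n := by
  have := pow_right_injective₀ (by norm_num : (0:ℝ) < 1 / 2) (by norm_num : (1 / 2 : ℝ) ≠ 1) h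
  exact this

theorem shp_inj {B B' : Cbx} {x x' : ℕ × ℕ} (h : B.u2 = (1 / 2 : ℝ) ^ x.1 ∧ B.u1 = (1 / 2 : ℝ) ^ x.2)
    (h' : B'.u2 = (1 / 2 : ℝ) ^ x'.1 ∧ B'.u1 = (1 / 2 : ℝ) ^ x'.2) (e : shp B = shp B') : x = x' := by
  unfold shp at e
  simp only [Prod.mk.injEq] at e
  rw [h.1, h.2, h'.1, h'.2] at e
  exact Prod.ext (half_inj e.2) (half_inj e.1)

theorem shp_of {B B' : Cbx} {x x' : ℕ × ℕ} (h : B.u2 = (1 / 2 : ℝ) ^ x.1 ∧ B.u1 = (1 / 2 : ℝ) ^ x.2)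
    (h' : B'.u2 = (1 / 2 : ℝ) ^ x'.1 ∧ B'.u1 = (1 / 2 : ℝ) ^ x'.2) (e : x = x') : shp B = shp B' := by
  unfold shp
  rw [h.1, h.2, h'.1, h'.2, e]

theorem dsh_eq {B : Cbx} {x e : ℕ × ℕ} (h : B.u2 = (1 / 2 : ℝ) ^ x.1 ∧ B.u1 = (1 / 2 : ℝ) ^ x.2) :
    dsh B e = Real.log 2 * (|(e.1 : ℝ) - x.1| + |(e.2 : ℝ) - x.2|) := by
  unfold dsh
  have hlog : 0 < Real.log 2 := Real.log_pos (by norm_num)
  rw [h.1, h.2, log_half, log_half]
  have e1 : -(x.1 * Real.log 2) + e.1 * Real.log 2 = Real.log 2 * ((e.1 : ℝ) - x.1) := by ring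
  have e2 : -(x.2 * Real.log 2) + e.2 * Real.log 2 = Real.log 2 * ((e.2 : ℝ) - x.2) := by ring
  rw [e1, e2, abs_mul, abs_mul, abs_of_pos hlog]
  ring

theorem dsh_tri {A B : Cbx} {x e : ℕ × ℕ} (h : B.u2 = (1 / 2 : ℝ) ^ x.1 ∧ B.u1 = (1 / 2 : ℝ) ^ x.2) :
    dsh A e ≤ dsh A x + dsh B e := by
  have h1 := dsh_eq (e := e) h
  rw [h1]
  unfold dsh
  have hlog : 0 < Real.log 2 := Real.log_pos (by norm_num)
  have a1 := abs_add_le (Real.log A.u2 + x.1 * Real.log 2) (Real.log 2 * ((e.1 : ℝ) - x.1))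
  have a2 := abs_add_le (Real.log A.u1 + x.2 * Real.log 2) (Real.log 2 * ((e.2 : ℝ) - x.2))
  rw [abs_mul (Real.log 2), abs_of_pos hlog] at a1 a2
  have e1 : Real.log A.u2 + x.1 * Real.log 2 + Real.log 2 * ((e.1 : ℝ) - x.1) = Real.log A.u2 + e.1 * Real.log 2 := by
    ring
  have e2 : Real.log A.u1 + x.2 * Real.log 2 + Real.log 2 * ((e.2 : ℝ) - x.2) = Real.log A.u1 + e.2 * Real.log 2 := by
    ring
  rw [e1] at a1
  rw [e2] at a2
  linarith

end shape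

section fin

variable {Ω : Type} [Fintype Ω] {γ : Type} {c lam k La : ℝ} {P : Law Ω} {l : Ω → Ry} {t : Ω → ℝ} {C : Ω → γ}
  {e : Ω → ℕ × ℕ} {L a w : ℕ} {W : Ω → Cbx}

theorem XX_congr_e {e' : Ω → ℕ × ℕ} (h : ∀ ω, 0 < P.w ω → e ω = e' ω) :
    XX c lam k La P l t C e L a = XX c lam k La P l t C e' L a := by
  rw [XX_eq, XX_eq]
  refine H127.gsup_congr (fun _ _ _ => Iff.rfl) fun ω hω B _ => ?_
  unfold gc
  rw [h ω hω]

/-- **one step, random shape** : `x` the shape of `W` -/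
theorem step_shape {N β ε K : ℝ} (hc : 0 ≤ c) (hl : 0 ≤ lam ∧ lam ≤ 1) (hk : 0 ≤ k)
    (hK : ∀ (Ω : Type) [Fintype Ω] (γ : Type) (P : Law Ω) (l : Ω → Ry) (t : Ω → ℝ) (C : Ω → γ)
      (L a w : ℕ) (e0 : ℕ × ℕ) (W : Ω → Cbx), a + w ≤ L → SyOk P l t →
      (∀ ω, 0 < P.w ω → LbOk c L (a + w) (W ω) (l ω) (t ω) ∧ (W ω).u2 = (1 / 2 : ℝ) ^ e0.1 ∧
        (W ω).u1 = (1 / 2 : ℝ) ^ e0.2) →
      val lam P l t C (a + w) W ≤
        XX c lam k 0 P l t C (fun _ => e0) L a + (β + ε) * w * Real.log 2 + K +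
          N * (Dd P l t C (a + w) - Dd P l t C a))
    (haw : a + w ≤ L) (hS : SyOk P l t) (hW : ∀ ω, 0 < P.w ω → LbOk c L (a + w) (W ω) (l ω) (t ω))
    (x : Ω → ℕ × ℕ) (hx : ∀ ω, 0 < P.w ω → (W ω).u2 = (1 / 2 : ℝ) ^ (x ω).1 ∧ (W ω).u1 = (1 / 2 : ℝ) ^ (x ω).2) :
    val lam P l t C (a + w) W ≤
      XX c lam k 0 P l t (fun ω => (C ω, x ω)) x L a + (β + ε) * w * Real.log 2 + K +
        N * (w * Real.log 2 - Stk.hc P (fun ω => fl1 (a + w) (t ω)) (fun ω => (x ω, (l ω, fl1 a (t ω), C ω)))) := by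
  classical
  -- the conditioned laws
  have hz : ∀ z ∈ img x, P.pr x z * val lam (P.cond x z) l t C (a + w) W ≤
      P.pr x z * (XX c lam k 0 (P.cond x z) l t C x L a + (β + ε) * w * Real.log 2 + K +
        N * (w * Real.log 2 - Stk.hc (P.cond x z) (fun ω => fl1 (a + w) (t ω)) (fun ω => (l ω, fl1 a (t ω), C ω)))) := by
    intro z _
    rcases (P.pr_nonneg x z).eq_or_lt with h0 | h0
    · rw [← h0, zero_mul, zero_mul]
    refine mul_le_mul_of_nonneg_left ?_ h0.le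
    have hs : ∀ ω, 0 < (P.cond x z).w ω → 0 < P.w ω := fun ω hω => JSB.cond_supp P x z hω
    have hs' : ∀ ω, 0 < (P.cond x z).w ω → x ω = z := fun ω hω => JSB.cond_supp' P x z h0 hω
    have h1 := hK Ω γ (P.cond x z) l t C L a w z W haw (fun ω hω => hS ω (hs ω hω)) fun ω hω => by
      have h2 := hx ω (hs ω hω)
      rw [hs' ω hω] at h2
      exact ⟨hW ω (hs ω hω), h2⟩
    have h3 : XX c lam k 0 (P.cond x z) l t C (fun _ => z) L a = XX c lam k 0 (P.cond x z) l t C x L a :=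
      XX_congr_e fun ω hω => (hs' ω hω).symm
    rw [h3, Dd_sub] at h1
    exact h1
  have hsum := Finset.sum_le_sum hz
  -- left side
  have e1 : ∑ z ∈ img x, P.pr x z * val lam (P.cond x z) l t C (a + w) W =
      Stk.hc P l (fun ω => ((W ω, fl1 (a + w) (t ω), C ω), x ω)) + 3 * (a + w : ℕ) * Real.log 2 -
        P.ex fun ω => (3 + lam) * Real.log (W ω).u2 + (1 - lam) * Real.log (W ω).u1 := by
    rw [JSB.hc_cond_sum P l (fun ω => (W ω, fl1 (a + w) (t ω), C ω)) x,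
      ← H127.ex_cond_sum P (fun ω => (3 + lam) * Real.log (W ω).u2 + (1 - lam) * Real.log (W ω).u1) x]
    have e2 : (3 * ((a + w : ℕ) : ℝ) * Real.log 2) = ∑ z ∈ img x, P.pr x z * (3 * ((a + w : ℕ) : ℝ) * Real.log 2) := by
      rw [← Finset.sum_mul, P.sum_pr_image x, one_mul]
    rw [e2, ← Finset.sum_add_distrib, ← Finset.sum_sub_distrib]
    refine Finset.sum_congr rfl fun z _ => ?_
    unfold val
    ring
  have e3 : Stk.hc P l (fun ω => ((W ω, fl1 (a + w) (t ω), C ω), x ω)) =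
      Stk.hc P l (fun ω => (W ω, fl1 (a + w) (t ω), C ω)) := by
    refine Stk.hc_congr P (fun _ _ _ _ e => congrArg Prod.fst e) (fun _ _ _ _ e => congrArg Prod.fst e) ?_ ?_
    · intro ω ω' p p' e
      simp only [Prod.mk.injEq] at e ⊢
      refine ⟨e, ?_⟩
      exact shp_inj (hx ω p) (hx ω' p') (by rw [e.1])
    · intro ω ω' _ _ e
      exact congrArg Prod.fst e
  -- right side
  have e4 := XX_mix (c := c) (lam := lam) (k := k) (La := 0) (P := P) (l := l) (t := t) (C := C) (e := x) (L := L) (a := a)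
    x hl hk le_rfl hc (by omega)
  have e5 := JSB.hc_cond_sum P (fun ω => fl1 (a + w) (t ω)) (fun ω => (l ω, fl1 a (t ω), C ω)) x
  have e6 : Stk.hc P (fun ω => fl1 (a + w) (t ω)) (fun ω => ((l ω, fl1 a (t ω), C ω), x ω)) =
      Stk.hc P (fun ω => fl1 (a + w) (t ω)) (fun ω => (x ω, (l ω, fl1 a (t ω), C ω))) := by
    refine Stk.hc_congr P (fun _ _ _ _ e => congrArg Prod.fst e) (fun _ _ _ _ e => congrArg Prod.fst e) ?_ ?_
    all_goals
      intro ω ω' _ _ e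
      simp only [Prod.mk.injEq] at e ⊢
      tauto
  have e7 : ∑ z ∈ img x, P.pr x z * (XX c lam k 0 (P.cond x z) l t C x L a + (β + ε) * w * Real.log 2 + K +
      N * (w * Real.log 2 - Stk.hc (P.cond x z) (fun ω => fl1 (a + w) (t ω)) (fun ω => (l ω, fl1 a (t ω), C ω)))) =
      XX c lam k 0 P l t (fun ω => (C ω, x ω)) x L a + (β + ε) * w * Real.log 2 + K +
        N * (w * Real.log 2 - Stk.hc P (fun ω => fl1 (a + w) (t ω)) (fun ω => (x ω, (l ω, fl1 a (t ω), C ω)))) := by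
    have f1 : ∀ z : ℕ × ℕ, P.pr x z * (XX c lam k 0 (P.cond x z) l t C x L a + (β + ε) * w * Real.log 2 + K +
        N * (w * Real.log 2 - Stk.hc (P.cond x z) (fun ω => fl1 (a + w) (t ω)) (fun ω => (l ω, fl1 a (t ω), C ω)))) =
        P.pr x z * XX c lam k 0 (P.cond x z) l t C x L a + ((β + ε) * w * Real.log 2 + K + N * (w * Real.log 2)) * P.pr x z -
          N * (P.pr x z * Stk.hc (P.cond x z) (fun ω => fl1 (a + w) (t ω)) (fun ω => (l ω, fl1 a (t ω), C ω))) := by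
      intro z
      ring
    simp only [f1]
    rw [Finset.sum_sub_distrib, Finset.sum_add_distrib, ← Finset.mul_sum, ← Finset.mul_sum, P.sum_pr_image x, ← e4, ← e5, e6]
    ring
  rw [e1, e3, e7] at hsum
  exact hsum

end fin

/-- **WIN** with constant error -/
theorem pWinX : PWinX := by
  intro lam N k La β hl0 hl1 hk hN hLa _ hF c hc ε hε
  have hc0 : 0 ≤ c := by linarith
  obtain ⟨K, hK⟩ := fixw hc0 ⟨hl0, hl1⟩ hk.le (hF c hc) hε
  have hLa0 : 0 ≤ La := hN.trans hLa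
  set M : ℝ := max 1 (2 * La / k) with hM
  have hM1 : 1 ≤ M := le_max_left _ _
  have hM0 : 0 < M := by linarith
  have hM2 : La * (1 / M) ≤ k / 2 := by
    have h1 : 2 * La / k ≤ M := le_max_right _ _
    rw [div_le_iff₀ hk] at h1
    rw [mul_one_div, div_le_iff₀ hM0]
    linarith
  refine ⟨K + 1 + La * (2 * (Real.log M + 2 + Real.log 2)), fun Ω _ γ P l t C e L a w haw hS => ?_⟩
  have haL : a ≤ L := by omega
  refine XX_le hc0 haw fun Ω' _ P' π W h1 h2 => ?_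
  set l' : Ω' → Ry := fun ω => l (π ω) with hl'
  set t' : Ω' → ℝ := fun ω => t (π ω) with ht'
  set C' : Ω' → γ := fun ω => C (π ω) with hC'
  set e' : Ω' → ℕ × ℕ := fun ω => e (π ω) with he'
  have hS' : SyOk P' l' t' := fun ω hω => hS (π ω) (H127.supp_ext h1 hω)
  obtain ⟨x, hx⟩ := exists_shape h2
  have s1 := step_shape (C := C') hc0 ⟨hl0, hl1⟩ hk.le hK haw hS' h2 x hx
  -- a nearly optimal label of the level `a`
  obtain ⟨Ω'', _, P'', π', A, g1, g2, g3⟩ := XX_near (c := c) (lam := lam) (k := k) (La := 0) (P := P') (l := l') (t := t')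
    (C := fun ω => (C' ω, x ω)) (e := x) hc0 haL (show (0:ℝ) < 1 by norm_num)
  have hpr : ∀ ω, P''.pr (fun ω => π (π' ω)) ω = P.w ω := by
    intro ω
    have := Stk.pr_law_aux P'' P' π' g1 π ω
    rw [← h1 ω, ← this]
    rfl
  have s2 := le_XX (lam := lam) (k := k / 2) (La := La) (C := C) (e := e) (P := P) (l := l) (t := t) (P' := P'')
    (π := fun ω => π (π' ω)) (W := A) ⟨hl0, hl1⟩ (by linarith) hLa0 hpr g2
  refine le_trans ?_ (add_le_add_left (add_le_add_left (add_le_add_left s2 _) _) _)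
  set l2 : Ω'' → Ry := fun ω => l (π (π' ω)) with hl2
  set t2 : Ω'' → ℝ := fun ω => t (π (π' ω)) with ht2
  set C2 : Ω'' → γ := fun ω => C (π (π' ω)) with hC2
  set e2 : Ω'' → ℕ × ℕ := fun ω => e (π (π' ω)) with he2
  set x2 : Ω'' → ℕ × ℕ := fun ω => x (π' ω) with hx2
  -- everything on `P''`
  have hx2' : ∀ ω, 0 < P''.w ω → (W (π' ω)).u2 = (1 / 2 : ℝ) ^ (x2 ω).1 ∧ (W (π' ω)).u1 = (1 / 2 : ℝ) ^ (x2 ω).2 :=
    fun ω hω => hx (π' ω) (H127.supp_ext g1 hω)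
  obtain ⟨y, hy⟩ := exists_shape g2
  -- (1) value of `A`
  have a1 : Stk.hc P'' l2 (fun ω => (A ω, fl1 a (t2 ω), (C2 ω, x2 ω))) ≤
      Stk.hc P'' l2 (fun ω => (A ω, fl1 a (t2 ω), C2 ω)) := by
    refine Stk.hc_mono_right P'' _ fun ω ω' _ _ e => ?_
    simp only [Prod.mk.injEq] at e ⊢
    exact ⟨e.1, e.2.1, e.2.2.1⟩
  -- (2) triangle
  have a2 : P''.ex (fun ω => dsh (A ω) (e2 ω)) ≤ P''.ex (fun ω => dsh (A ω) (x2 ω)) + P'.ex (fun ω => dsh (W ω) (e' ω)) := by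
    have b1 : P''.ex (fun ω => dsh (W (π' ω)) (e2 ω)) = P'.ex (fun ω => dsh (W ω) (e' ω)) :=
      Stk.ex_law_aux P'' P' π' g1 (fun ω => dsh (W ω) (e' ω))
    rw [← b1, ← P''.ex_add]
    exact P''.ex_mono fun ω hω => dsh_tri (hx2' ω hω)
  -- (3) entropies
  set E1 : ℝ := Stk.hc P' x (fun ω => (l' ω, fl1 (a + w) (t' ω), C' ω)) with hE1
  set E0 : ℝ := Stk.hc P' x (fun ω => (l' ω, fl1 a (t' ω), C' ω)) with hE0
  have a3 : Stk.hc P' (fun ω => shp (W ω)) (fun ω => (l' ω, fl1 (a + w) (t' ω), C' ω)) ≤ E1 := by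
    refine Stk.hc_mono_left P' fun ω ω' p p' e => ?_
    simp only [Prod.mk.injEq] at e
    exact shp_of (hx ω p) (hx ω' p') e.1
  have a4 : Stk.hc P' (fun ω => fl1 (a + w) (t' ω)) (fun ω => (l' ω, fl1 a (t' ω), C' ω)) -
      Stk.hc P' (fun ω => fl1 (a + w) (t' ω)) (fun ω => (x ω, (l' ω, fl1 a (t' ω), C' ω))) = E0 - E1 := by
    have b1 := Stk.mi_symm P' (fun ω => fl1 (a + w) (t' ω)) x (fun ω => (l' ω, fl1 a (t' ω), C' ω))
    have b2 : Stk.hc P' x (fun ω => (fl1 (a + w) (t' ω), (l' ω, fl1 a (t' ω), C' ω))) = E1 := by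
      refine Stk.hc_congr P' (fun _ _ _ _ e => congrArg Prod.fst e) (fun _ _ _ _ e => congrArg Prod.fst e) ?_ ?_
      · intro ω ω' _ _ e
        simp only [Prod.mk.injEq] at e ⊢
        exact ⟨e.2.1, e.1, Apx.fl1_of_fl1 (Nat.le_add_right a w) e.2.1, e.2.2⟩
      · intro ω ω' _ _ e
        simp only [Prod.mk.injEq] at e ⊢
        exact ⟨e.2.1, e.1, e.2.2.2⟩
    unfold Stk.mi at b1
    rw [b2] at b1
    exact b1
  have a5 : E1 ≤ E0 := by
    refine Stk.hc_mono_right P' _ fun ω ω' _ _ e => ?_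
    simp only [Prod.mk.injEq] at e ⊢
    exact ⟨e.1, Apx.fl1_of_fl1 (Nat.le_add_right a w) e.2.1, e.2.2⟩
  have a6 : E0 ≤ Stk.hc P'' (fun ω => shp (A ω)) (fun ω => (l2 ω, fl1 a (t2 ω), C2 ω)) +
      (1 / M * P''.ex (fun ω => dsh (A ω) (x2 ω)) + 2 * (Real.log M + 2 + Real.log 2)) := by
    have b0 : Stk.hc P'' x2 (fun ω => (l2 ω, fl1 a (t2 ω), C2 ω)) = E0 :=
      Stk.hc_of_law P'' P' π' g1 x (fun ω => (l' ω, fl1 a (t' ω), C' ω))
    have b1 := Stk.hc_le_add' P'' x2 (fun ω => shp (A ω)) (fun ω => (l2 ω, fl1 a (t2 ω), C2 ω))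
    have b2 : Stk.hc P'' x2 (fun ω => (shp (A ω), (l2 ω, fl1 a (t2 ω), C2 ω))) ≤ Stk.hc P'' x2 y := by
      refine Stk.hc_mono_right P'' _ fun ω ω' p p' e => ?_
      simp only [Prod.mk.injEq] at e
      exact shp_inj (hy ω p) (hy ω' p') e.1
    have b3 := hc_shp_le P'' hM1 x2 y
    have b4 : P''.ex (fun ω => dsh (A ω) (x2 ω)) =
        Real.log 2 * P''.ex (fun ω => |((x2 ω).1 : ℝ) - (y ω).1| + |((x2 ω).2 : ℝ) - (y ω).2|) := by
      rw [← P''.ex_const_mul]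
      exact P''.ex_congr fun ω hω => dsh_eq (hy ω hω)
    rw [b4]
    rw [b0] at b1
    have b5 : 1 / M * (Real.log 2 * P''.ex (fun ω => |((x2 ω).1 : ℝ) - (y ω).1| + |((x2 ω).2 : ℝ) - (y ω).2|)) =
        Real.log 2 / M * P''.ex (fun ω => |((x2 ω).1 : ℝ) - (y ω).1| + |((x2 ω).2 : ℝ) - (y ω).2|) := by
      ring
    rw [b5]
    linarith
  have a7 : 0 ≤ P''.ex (fun ω => dsh (A ω) (x2 ω)) := by
    have := P''.ex_mono (f := fun _ => (0:ℝ)) (g := fun ω => dsh (A ω) (x2 ω)) (fun ω _ => dsh_nonneg _ _)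
    rwa [P''.ex_const] at this
  -- the value of `W` on `P'`, and of `A`
  have v1 : valX lam (k / 2) La P' l' t' C' (a + w) e' W = val lam P' l' t' C' (a + w) W -
      k / 2 * P'.ex (fun ω => dsh (W ω) (e' ω)) +
      La * Stk.hc P' (fun ω => shp (W ω)) (fun ω => (l' ω, fl1 (a + w) (t' ω), C' ω)) := rfl
  have v2 : valX lam (k / 2) La P'' l2 t2 C2 a e2 A = val lam P'' l2 t2 C2 a A -
      k / 2 * P''.ex (fun ω => dsh (A ω) (e2 ω)) +
      La * Stk.hc P'' (fun ω => shp (A ω)) (fun ω => (l2 ω, fl1 a (t2 ω), C2 ω)) := rfl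
  have v3 : valX lam k 0 P'' l2 t2 (fun ω => (C2 ω, x2 ω)) a x2 A ≤ val lam P'' l2 t2 C2 a A -
      k * P''.ex (fun ω => dsh (A ω) (x2 ω)) := by
    unfold valX val
    linarith
  have v4 : XX c lam k 0 P' l' t' (fun ω => (C' ω, x ω)) x L a ≤ valX lam k 0 P'' l2 t2 (fun ω => (C2 ω, x2 ω)) a x2 A + 1 := by
    linarith [g3]
  have v5 : Dd P l t C (a + w) - Dd P l t C a = w * Real.log 2 -
      Stk.hc P' (fun ω => fl1 (a + w) (t' ω)) (fun ω => (l' ω, fl1 a (t' ω), C' ω)) := by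
    rw [Dd_sub]
    congr 1
    exact (Stk.hc_of_law P' P π h1 (fun ω => fl1 (a + w) (t ω)) (fun ω => (l ω, fl1 a (t ω), C ω))).symm
  show valX lam (k / 2) La P' l' t' C' (a + w) e' W ≤ valX lam (k / 2) La P'' l2 t2 C2 a e2 A +
    (β + ε) * w * Real.log 2 + N * (Dd P l t C (a + w) - Dd P l t C a) + (K + 1 + La * (2 * (Real.log M + 2 + Real.log 2)))
  rw [v1, v2, v5]
  -- final computation
  set H0 : ℝ := Stk.hc P' (fun ω => fl1 (a + w) (t' ω)) (fun ω => (l' ω, fl1 a (t' ω), C' ω)) with hH0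
  set H1 : ℝ := Stk.hc P' (fun ω => fl1 (a + w) (t' ω)) (fun ω => (x ω, (l' ω, fl1 a (t' ω), C' ω))) with hH1
  set SA : ℝ := Stk.hc P'' (fun ω => shp (A ω)) (fun ω => (l2 ω, fl1 a (t2 ω), C2 ω)) with hSA
  set SW : ℝ := Stk.hc P' (fun ω => shp (W ω)) (fun ω => (l' ω, fl1 (a + w) (t' ω), C' ω)) with hSW
  set DA : ℝ := P''.ex (fun ω => dsh (A ω) (x2 ω)) with hDA
  set DW : ℝ := P'.ex (fun ω => dsh (W ω) (e' ω)) with hDW
  set DE : ℝ := P''.ex (fun ω => dsh (A ω) (e2 ω)) with hDE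
  have c1 : N * (w * Real.log 2 - H1) = N * (w * Real.log 2 - H0) + N * (E0 - E1) := by
    rw [← a4]
    ring
  have c2 : La * SW + N * (E0 - E1) ≤ La * E0 := by
    have d1 : La * SW ≤ La * E1 := mul_le_mul_of_nonneg_left a3 hLa0
    have d2 : 0 ≤ (La - N) * (E0 - E1) := mul_nonneg (by linarith only [hLa]) (by linarith only [a5])
    have d3 : (La - N) * (E0 - E1) = La * E0 - La * E1 - N * (E0 - E1) := by ring
    linarith only [d1, d2, d3]
  have c3 : La * E0 ≤ La * SA + (k / 2) * DA + La * (2 * (Real.log M + 2 + Real.log 2)) := by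
    have d1 := mul_le_mul_of_nonneg_left a6 hLa0
    have d2 : La * (1 / M) * DA ≤ (k / 2) * DA := mul_le_mul_of_nonneg_right hM2 a7
    have d3 : La * (SA + (1 / M * DA + 2 * (Real.log M + 2 + Real.log 2))) =
        La * SA + La * (1 / M) * DA + La * (2 * (Real.log M + 2 + Real.log 2)) := by ring
    linarith only [d1, d2, d3]
  have c4 : (k / 2) * DE ≤ (k / 2) * DA + (k / 2) * DW := by
    have d1 := mul_le_mul_of_nonneg_left a2 (by linarith only [hk] : 0 ≤ k / 2)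
    have d2 : k / 2 * (DA + DW) = k / 2 * DA + k / 2 * DW := by ring
    linarith only [d1, d2]
  linarith only [s1, v3, v4, c1, c2, c3, c4]

/-- the reward of the shape is absorbed by half of the penalty -/
theorem pAbs : PAbs := by
  intro c lam k La hc hl0 hl1 hk hLa
  have hc0 : 0 ≤ c := by linarith
  set M : ℝ := max 1 (2 * La / k) with hM
  have hM1 : 1 ≤ M := le_max_left _ _
  have hM0 : 0 < M := by linarith
  have hM2 : La * (1 / M) ≤ k / 2 := by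
    have h1 : 2 * La / k ≤ M := le_max_right _ _
    rw [div_le_iff₀ hk] at h1
    rw [mul_one_div, div_le_iff₀ hM0]
    linarith
  refine ⟨La * (2 * (Real.log M + 2 + Real.log 2)), fun Ω _ γ P l t C e0 L a ha _ => ?_⟩
  refine XX_le hc0 ha fun Ω' _ P' π W h1 h2 => ?_
  have s2 := le_XX (lam := lam) (k := k / 2) (La := 0) (C := C) (e := fun _ => e0) (P := P) (l := l) (t := t) (P' := P')
    (π := π) (W := W) ⟨hl0, hl1⟩ (by linarith) le_rfl h1 h2
  refine le_trans ?_ (add_le_add_left s2 _)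
  obtain ⟨x, hx⟩ := exists_shape h2
  have b1 : Stk.hc P' (fun ω => shp (W ω)) (fun ω => (l (π ω), fl1 a (t (π ω)), C (π ω))) ≤ Stk.hc P' x (fun _ => e0) := by
    refine (Stk.hc_mono_left P' (X' := x) fun ω ω' p p' e => ?_).trans (Stk.hc_mono_right P' _ fun _ _ _ _ _ => rfl)
    simp only [Prod.mk.injEq] at e
    exact shp_of (hx ω p) (hx ω' p') e.1
  have b3 := hc_shp_le P' hM1 x (fun _ => e0)
  have b4 : P'.ex (fun ω => dsh (W ω) e0) =
      Real.log 2 * P'.ex (fun ω => |((x ω).1 : ℝ) - e0.1| + |((x ω).2 : ℝ) - e0.2|) := by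
    rw [← P'.ex_const_mul]
    refine P'.ex_congr fun ω hω => ?_
    rw [dsh_eq (hx ω hω), abs_sub_comm (e0.1 : ℝ), abs_sub_comm (e0.2 : ℝ)]
  have a7 : 0 ≤ P'.ex (fun ω => dsh (W ω) e0) := by
    have := P'.ex_mono (f := fun _ => (0:ℝ)) (g := fun ω => dsh (W ω) e0) (fun ω _ => dsh_nonneg _ _)
    rwa [P'.ex_const] at this
  have b5 : Real.log 2 / M * P'.ex (fun ω => |((x ω).1 : ℝ) - e0.1| + |((x ω).2 : ℝ) - e0.2|) =
      1 / M * P'.ex (fun ω => dsh (W ω) e0) := by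
    rw [b4]
    ring
  rw [b5] at b3
  have d1 := mul_le_mul_of_nonneg_left (b1.trans b3) hLa
  have d2 : La * (1 / M) * P'.ex (fun ω => dsh (W ω) e0) ≤ (k / 2) * P'.ex (fun ω => dsh (W ω) e0) :=
    mul_le_mul_of_nonneg_right hM2 a7
  unfold valX
  nlinarith

end Vale.Agent.P106.U.H416
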