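import Vale.Agent.P106.U.H416.PairW

/-!
# P106 / U / H416 : transfer of the unknown curvature from `given G` to `given D`

`D` is a function of `G` outside an event of probability `η`.  If given every value of `G` the sets `{b | K a b}` (intervals of the
curvature around an arbitrary centre) have mass `≤ 1 - c`, then given `D`, outside an event of probability `4 η / c`, they have
mass `≤ 1 - c / 2`.
-/

set_option autoImplicit false

namespace Vale.Agent.P106.U.H416.PairW

open Finset Vale.Agent.P127 Vale.Agent.P127.Stk Vale.Agent.P127.U.Pin Vale.Agent.P127.U.Mic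
open Vale.Agent.P106.TV Vale.Agent.P106.U.H683

variable {Ω : Type} [Fintype Ω] {T U I : Type*}

theorem ind_split (P : Law Ω) (A B C : Ω → Prop) :
    P.ex (fun ω => Law.ind (A ω ∧ B ω)) ≤
      P.ex (fun ω => Law.ind (A ω ∧ C ω)) + P.ex (fun ω => Law.ind (B ω ∧ ¬ C ω)) := by
  rw [← P.ex_add]
  refine P.ex_mono fun ω _ => ?_
  have n1 := ind_nonneg (A ω ∧ C ω)
  have n2 := ind_nonneg (B ω ∧ ¬ C ω)
  by_cases h : A ω ∧ B ω
  · rw [Law.ind_of h]
    by_cases hC : C ω
    · rw [Law.ind_of (p := A ω ∧ C ω) ⟨h.1, hC⟩]; linarith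
    · rw [Law.ind_of (p := B ω ∧ ¬ C ω) ⟨h.2, hC⟩]; linarith
  · rw [Law.ind_not h]; linarith

/-- the defect of the value `d` -/
noncomputable def dft (P : Law Ω) (D : Ω → U) (G : Ω → T) (F : T → U) (d : U) : ℝ :=
  P.ex (fun ω => Law.ind (F (G ω) = d ∧ ¬ D ω = d)) +
    P.ex (fun ω => Law.ind (D ω = d ∧ ¬ F (G ω) = d))

theorem dft_nonneg (P : Law Ω) (D : Ω → U) (G : Ω → T) (F : T → U) (d : U) :
    0 ≤ dft P D G F d :=
  add_nonneg (P.ex_nonneg fun _ _ => ind_nonneg _) (P.ex_nonneg fun _ _ => ind_nonneg _)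

theorem sum_ind_le (P : Law Ω) (f : Ω → U) (g : Ω → U) (s : Finset U) :
    ∑ d ∈ s, P.ex (fun ω => Law.ind (f ω = d ∧ ¬ g ω = d)) ≤
      P.ex (fun ω => Law.ind (¬ f ω = g ω)) := by
  classical
  have h1 : ∑ d ∈ s, P.ex (fun ω => Law.ind (f ω = d ∧ ¬ g ω = d)) =
      P.ex (fun ω => ∑ d ∈ s, Law.ind (f ω = d ∧ ¬ g ω = d)) := by
    unfold Law.ex
    rw [Finset.sum_comm]
    exact Finset.sum_congr rfl fun ω _ => by rw [Finset.mul_sum]
  rw [h1]
  refine P.ex_mono fun ω _ => ?_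
  by_cases h : f ω = g ω
  · rw [Law.ind_not (not_not.2 h)]
    refine le_of_eq (Finset.sum_eq_zero fun d _ => ?_)
    exact Law.ind_not fun hd => hd.2 (h ▸ hd.1)
  · rw [Law.ind_of h]
    by_cases hs : f ω ∈ s
    · rw [Finset.sum_eq_single (f ω)]
      · exact ind_le_one _
      · intro d _ hd
        exact Law.ind_not fun hd' => hd hd'.1.symm
      · intro hs'
        exact absurd hs hs'
    · rw [Finset.sum_eq_zero]
      · exact zero_le_one
      · intro d hd
        exact Law.ind_not fun hd' => hs (hd'.1 ▸ hd)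

/-- one value of `D` -/
theorem cond_le (P : Law Ω) (D : Ω → U) (G : Ω → T) (F : T → U) (B : Ω → Prop) {c : ℝ}
    (hc0 : 0 ≤ c) (hc1 : c ≤ 1)
    (h : ∀ ω, 0 < P.w ω → (P.cond G (G ω)).ex (fun b => Law.ind (B b)) ≤ 1 - c)
    {d : U} (hd : 0 < P.pr D d) :
    (P.cond D d).ex (fun b => Law.ind (B b)) ≤ 1 - c + dft P D G F d / P.pr D d := by
  rw [cond_ex_ind P D B hd]
  rw [div_le_iff₀ hd, add_mul, div_mul_cancel₀ _ hd.ne']
  -- the part where `F (G) = d`
  have e1 : P.ex (fun ω => Law.ind (B ω ∧ F (G ω) = d)) ≤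
      (1 - c) * P.ex (fun ω => Law.ind (F (G ω) = d)) := by
    rw [← ex_cond P G (fun ω => Law.ind (B ω ∧ F (G ω) = d)), ← P.ex_const_mul]
    refine P.ex_mono fun ω hω => ?_
    by_cases hF : F (G ω) = d
    · rw [Law.ind_of hF, mul_one]
      refine le_trans (Law.ex_mono _ fun b _ => ind_mono fun hb => hb.1) (h ω hω)
    · rw [Law.ind_not hF, mul_zero]
      refine le_of_eq ?_
      have : (P.cond G (G ω)).ex (fun b => Law.ind (B b ∧ F (G b) = d)) =
          (P.cond G (G ω)).ex (fun _ => 0) := by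
        refine Law.ex_congr _ fun b hb => ?_
        have h1 := (cond_supp P G (P.pr_pos G hω) hb).1
        exact Law.ind_not fun h2 => hF (by rw [← h1]; exact h2.2)
      rw [this, Law.ex_const]
  have e2 := ind_split P B (fun ω => D ω = d) (fun ω => F (G ω) = d)
  have e3 : P.ex (fun ω => Law.ind (F (G ω) = d)) ≤
      P.pr D d + P.ex (fun ω => Law.ind (F (G ω) = d ∧ ¬ D ω = d)) := by
    rw [Law.pr_eq_ex, ← P.ex_add]
    refine P.ex_mono fun ω _ => ?_
    have n1 := ind_nonneg (D ω = d)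
    have n2 := ind_nonneg (F (G ω) = d ∧ ¬ D ω = d)
    by_cases h1 : F (G ω) = d
    · rw [Law.ind_of h1]
      by_cases h2 : D ω = d
      · rw [Law.ind_of h2]; linarith
      · rw [Law.ind_of (p := F (G ω) = d ∧ ¬ D ω = d) ⟨h1, h2⟩]; linarith
    · rw [Law.ind_not h1]; linarith
  have e4 : 0 ≤ P.ex (fun ω => Law.ind (F (G ω) = d ∧ ¬ D ω = d)) :=
    P.ex_nonneg fun _ _ => ind_nonneg _
  have e5 := mul_le_mul_of_nonneg_left e3 (sub_nonneg.2 hc1)
  have e6 : (1 - c) * P.ex (fun ω => Law.ind (F (G ω) = d ∧ ¬ D ω = d)) ≤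
      P.ex (fun ω => Law.ind (F (G ω) = d ∧ ¬ D ω = d)) :=
    mul_le_of_le_one_left e4 (by linarith)
  unfold dft
  have e7 := e2.trans (add_le_add_left (e1.trans e5) _)
  rw [mul_add] at e7
  linarith

/-- **TRANSFER** : all the sets `B i` (arbitrary index set) have mass `≤ 1 - c` given every value of `G`; then outside an event of
probability `4 η / c` all of them have mass `≤ 1 - c / 2` given `D` -/
theorem atom_off (P : Law Ω) (D : Ω → U) (G : Ω → T) (F : T → U) (B : I → Ω → Prop) {c η : ℝ}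
    (hc0 : 0 < c) (hc1 : c ≤ 1)
    (h : ∀ i ω, 0 < P.w ω → (P.cond G (G ω)).ex (fun b => Law.ind (B i b)) ≤ 1 - c)
    (hη : P.ex (fun ω => Law.ind (¬ D ω = F (G ω))) ≤ η) :
    P.ex (fun ω => Law.ind (¬ ∀ i, (P.cond D (D ω)).ex (fun b => Law.ind (B i b)) ≤ 1 - c / 2)) ≤
      4 * η / c := by
  classical
  let X : Ω → ℝ := fun ω => dft P D G F (D ω) / P.pr D (D ω)
  have hX : P.ex X ≤ 2 * η := by
    have e1 : P.ex X = ∑ d ∈ img D, P.pr D d * (dft P D G F d / P.pr D d) :=
      P.ex_comp D (fun d => dft P D G F d / P.pr D d)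
    have e2 : ∑ d ∈ img D, P.pr D d * (dft P D G F d / P.pr D d) ≤
        ∑ d ∈ img D, dft P D G F d := by
      refine Finset.sum_le_sum fun d _ => ?_
      rcases (P.pr_nonneg D d).eq_or_lt with h0 | h0
      · rw [← h0, zero_mul]
        exact dft_nonneg _ _ _ _ _
      · rw [mul_div_cancel₀ _ h0.ne']
    have e3 : ∑ d ∈ img D, dft P D G F d ≤ 2 * η := by
      unfold dft
      rw [Finset.sum_add_distrib]
      have e4 := sum_ind_le P (fun ω => F (G ω)) D (img D)
      have e5 := sum_ind_le P D (fun ω => F (G ω)) (img D)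
      have e6 : P.ex (fun ω => Law.ind (¬ F (G ω) = D ω)) ≤ η := by
        refine le_trans (P.ex_mono fun ω _ => ?_) hη
        exact ind_mono fun (h' : ¬ F (G ω) = D ω) (h'' : D ω = F (G ω)) => h' h''.symm
      linarith
    rw [e1]
    exact e2.trans e3
  have hm := markov_ind P X (c / 2) (by linarith)
    (fun ω _ => div_nonneg (dft_nonneg _ _ _ _ _) (P.pr_nonneg _ _))
  refine le_trans (P.ex_mono fun ω hω => ind_mono ?_) (hm.trans ?_)
  · intro hcon hXω
    refine hcon fun i => ?_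
    have := cond_le P D G F (B i) hc0.le hc1 (h i) (P.pr_pos D hω)
    simp only [X] at hXω
    linarith
  · rw [div_le_iff₀ (by linarith)]
    have : 4 * η / c * (c / 2) = 2 * η := by field_simp; ring
    rw [this]
    exact hX

/-- the form used by `weight` : `K a b` -/
theorem atom_pair (P : Law Ω) (D : Ω → U) (G : Ω → T) (F : T → U) (K : Ω → Ω → Prop) {c η : ℝ}
    (hc0 : 0 < c) (hc1 : c ≤ 1)
    (h : ∀ a ω, 0 < P.w ω → (P.cond G (G ω)).ex (fun b => Law.ind (K a b)) ≤ 1 - c)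
    (hη : P.ex (fun ω => Law.ind (¬ D ω = F (G ω))) ≤ η) :
    P.ex (fun ω => Law.ind (¬ (P.cond D (D ω)).ex (fun a => (P.cond D (D ω)).ex fun b =>
      Law.ind (K a b)) ≤ 1 - c / 2)) ≤ 4 * η / c := by
  refine le_trans (P.ex_mono fun ω _ => ind_mono ?_) (atom_off P D G F K hc0 hc1 h hη)
  intro hcon hall
  exact hcon (mass_pair _ K fun a _ => hall a)

end Vale.Agent.P106.U.H416.PairW
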