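import Vale.Agent.P106.U.H416.Tr

/-!
# P106 / U / H416 : the cell of a window is known up to a constant from a label of a finer level
-/

set_option autoImplicit false

namespace Vale.Agent.P106.U.H416

open Vale.Agent.P127 Vale.Agent.P127.Stk Vale.Agent.P127.U Vale.Agent.P106.W Vale.Agent.P106.K Vale.Agent.P106.U
open Vale.Agent.P122.C2 (fn)

theorem sub_abs_le {x y p c : ℝ} (h : |x - p| ≤ c) (h' : |y - p| ≤ c) : |x - y| ≤ 2 * c := by
  have a := abs_le.1 h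
  have b := abs_le.1 h'
  rw [abs_le]
  constructor <;> linarith

theorem div_abs_le {P x c : ℝ} (hP : 1 ≤ P) (h : |P * x| ≤ c) : |x| ≤ c := by
  rw [abs_mul, abs_of_nonneg (by linarith)] at h
  have := abs_nonneg x
  nlinarith

theorem cell_near {a w : ℕ} {c : ℝ} (hc : 0 ≤ c) {B : Cbx} {l l' : Ry} {t t' : ℝ} (hs : ∀ k, |l.s k| ≤ 1)
    (hs' : ∀ k, |l'.s k| ≤ 1) (hu0 : 0 ≤ B.u2) (hu : B.u2 ≤ 1) (h : Bin c B 0 (bl (a + w) l t))
    (h' : Bin c B 0 (bl (a + w) l' t')) (ht : fl1 (a + w) t = fl1 (a + w) t') :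
    (∀ k, |(bl a l t).y k - (bl a l' t').y k| ≤ 4 * c) ∧
    |((bl a l t).z + ∑ k, (bl a l t).y k * (bl a l t).s k) - ((bl a l' t').z + ∑ k, (bl a l' t').y k * (bl a l' t').s k)| ≤
      2 * c + 4 * c * (1 + c) + 1 := by
  have ht' : fl1 a t = fl1 a t' := Apx.fl1_of_fl1 (Nat.le_add_right a w) ht
  rw [← bl_bl] at h h'
  have hq : qa w (wt a t) = qa w (wt a t') := by
    rw [qa_wt, qa_wt, Apx.qa_congr ht, Apx.qa_congr ht']
  have hq0 : 0 ≤ qa w (wt a t) := by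
    have h1 : (0 : ℤ) ≤ fl1 w (wt a t) := Int.floor_nonneg.2 (mul_nonneg (by positivity) (wt_nonneg a t))
    unfold qa
    exact div_nonneg (by exact_mod_cast h1) (by positivity)
  have hq1 : qa w (wt a t) ≤ 1 := (Apx.qa_le w _).trans (wt_lt a t).le
  set m := bl a l t with hm
  set m' := bl a l' t' with hm'
  have hsm : ∀ k, |m.s k| ≤ 1 := hs
  have hsm' : ∀ k, |m'.s k| ≤ 1 := hs'
  set q := qa w (wt a t) with hqd
  have hP : (1 : ℝ) ≤ 2 ^ w := one_le_pow₀ (by norm_num)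
  set Q : ℝ := 2 ^ w with hQ
  obtain ⟨a1, a2, a3, -, -⟩ := h
  obtain ⟨b1, b2, b3, -, -⟩ := h'
  have hcu : c * B.u2 ≤ c := by nlinarith
  have hcu2 : c * max (B.u2 ^ 2) 0 ≤ c := by
    rw [max_eq_left (by positivity)]
    have : B.u2 ^ 2 ≤ 1 := pow_le_one₀ hu0 hu
    nlinarith
  -- the position at the finer level
  have ey : ∀ k, (bl w m (wt a t)).y k = Q * (m.y k + q * m.s k) := fun _ => rfl
  have ey' : ∀ k, (bl w m' (wt a t')).y k = Q * (m'.y k + q * m'.s k) := by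
    intro k
    rw [hq]
    rfl
  have es : ∀ k, (bl w m (wt a t)).s k = m.s k := fun _ => rfl
  have es' : ∀ k, (bl w m' (wt a t')).s k = m'.s k := fun _ => rfl
  have ez : (bl w m (wt a t)).z = Q * (m.z - q * (∑ k, m.s k ^ 2) / 2) := rfl
  have ez' : (bl w m' (wt a t')).z = Q * (m'.z - q * (∑ k, m'.s k ^ 2) / 2) := by
    rw [hq]
    rfl
  have dy : ∀ k, |(m.y k + q * m.s k) - (m'.y k + q * m'.s k)| ≤ 2 * c := by
    intro k
    refine div_abs_le hP ?_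
    have h1 := sub_abs_le ((a1 k).trans hcu) ((b1 k).trans hcu)
    rw [ey, ey', ← mul_sub] at h1
    exact h1
  have ds : ∀ k, |m.s k - m'.s k| ≤ 2 * c := by
    intro k
    have h1 := sub_abs_le ((a2 k).trans hcu) ((b2 k).trans hcu)
    rwa [es, es'] at h1
  refine ⟨fun k => ?_, ?_⟩
  · have h1 := dy k
    have h2 : |q * (m.s k - m'.s k)| ≤ 2 * c := by
      rw [abs_mul, abs_of_nonneg hq0]
      have := ds k
      have := abs_nonneg (m.s k - m'.s k)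
      nlinarith
    have a := abs_le.1 h1
    have b := abs_le.1 h2
    rw [abs_le]
    constructor <;> nlinarith
  · have h3 := sub_abs_le (a3.trans hcu2) (b3.trans hcu2)
    simp only [ey, ey', es, es', ez, ez', Fin.sum_univ_two] at h3
    simp only [Fin.sum_univ_two]
    have h4 : |(m.z - q * (m.s 0 ^ 2 + m.s 1 ^ 2) / 2 + ((m.y 0 + q * m.s 0) * (m.s 0 - B.v 0) +
        (m.y 1 + q * m.s 1) * (m.s 1 - B.v 1))) - (m'.z - q * (m'.s 0 ^ 2 + m'.s 1 ^ 2) / 2 +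
        ((m'.y 0 + q * m'.s 0) * (m'.s 0 - B.v 0) + (m'.y 1 + q * m'.s 1) * (m'.s 1 - B.v 1)))| ≤ 2 * c := by
      refine div_abs_le hP (le_of_eq_of_le ?_ h3)
      congr 1
      ring
    have hv : ∀ k, |B.v k| ≤ 1 + c := by
      intro k
      have h5 := abs_le.1 ((a2 k).trans hcu)
      rw [es] at h5
      have h6 := abs_le.1 (hsm k)
      rw [abs_le]
      constructor <;> linarith
    have h7 : ∀ k, |((m.y k + q * m.s k) - (m'.y k + q * m'.s k)) * B.v k| ≤ 2 * c * (1 + c) := by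
      intro k
      rw [abs_mul]
      exact mul_le_mul (dy k) (hv k) (abs_nonneg _) (by linarith)
    have h8 : ∀ k, 0 ≤ m.s k ^ 2 ∧ m.s k ^ 2 ≤ 1 := fun k => ⟨sq_nonneg _, by
      rw [← sq_abs]
      exact pow_le_one₀ (abs_nonneg _) (hsm k)⟩
    have h8' : ∀ k, 0 ≤ m'.s k ^ 2 ∧ m'.s k ^ 2 ≤ 1 := fun k => ⟨sq_nonneg _, by
      rw [← sq_abs]
      exact pow_le_one₀ (abs_nonneg _) (hsm' k)⟩
    have h9 : |q * ((m.s 0 ^ 2 + m.s 1 ^ 2) - (m'.s 0 ^ 2 + m'.s 1 ^ 2)) / 2| ≤ 1 := by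
      have c0 := h8 0
      have c1 := h8 1
      have c0' := h8' 0
      have c1' := h8' 1
      have h10 : |(m.s 0 ^ 2 + m.s 1 ^ 2) - (m'.s 0 ^ 2 + m'.s 1 ^ 2)| ≤ 2 := by
        rw [abs_le]
        constructor <;> linarith
      rw [abs_div, abs_mul, abs_of_nonneg hq0, abs_of_pos (by norm_num : (0:ℝ) < 2)]
      have := abs_nonneg ((m.s 0 ^ 2 + m.s 1 ^ 2) - (m'.s 0 ^ 2 + m'.s 1 ^ 2))
      rw [div_le_iff₀ (by norm_num)]
      nlinarith
    have d0 := abs_le.1 (h7 0)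
    have d1 := abs_le.1 (h7 1)
    have d2 := abs_le.1 h4
    have d3 := abs_le.1 h9
    have key : (m.z + (m.y 0 * m.s 0 + m.y 1 * m.s 1)) - (m'.z + (m'.y 0 * m'.s 0 + m'.y 1 * m'.s 1)) =
        ((m.z - q * (m.s 0 ^ 2 + m.s 1 ^ 2) / 2 + ((m.y 0 + q * m.s 0) * (m.s 0 - B.v 0) +
        (m.y 1 + q * m.s 1) * (m.s 1 - B.v 1))) - (m'.z - q * (m'.s 0 ^ 2 + m'.s 1 ^ 2) / 2 +
        ((m'.y 0 + q * m'.s 0) * (m'.s 0 - B.v 0) + (m'.y 1 + q * m'.s 1) * (m'.s 1 - B.v 1)))) +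
        ((m.y 0 + q * m.s 0) - (m'.y 0 + q * m'.s 0)) * B.v 0 + ((m.y 1 + q * m.s 1) - (m'.y 1 + q * m'.s 1)) * B.v 1 -
        q * ((m.s 0 ^ 2 + m.s 1 ^ 2) - (m'.s 0 ^ 2 + m'.s 1 ^ 2)) / 2 := by ring
    rw [key, abs_le]
    constructor <;> linarith

/-- a bound for the number of cells -/
noncomputable def cM (c : ℝ) : ℕ := ⌈4 * c + (2 * c + 4 * c * (1 + c) + 1)⌉₊

theorem cM_le {c : ℝ} (hc : 0 ≤ c) : 4 * c ≤ cM c ∧ 2 * c + 4 * c * (1 + c) + 1 ≤ cM c := by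
  have h := Nat.le_ceil (4 * c + (2 * c + 4 * c * (1 + c) + 1))
  unfold cM
  constructor
  · nlinarith [mul_nonneg hc hc]
  · linarith

section fin

variable {Ω : Type} [Fintype Ω]

theorem hc_cell {T : Type*} {P : Law Ω} {l : Ω → Ry} {t : Ω → ℝ} {L a w : ℕ} {W : Ω → Cbx} {c : ℝ} (hc : 0 ≤ c)
    (hs : ∀ ω, 0 < P.w ω → ∀ k, |(l ω).s k| ≤ 1) (hW : ∀ ω, 0 < P.w ω → LbOk c L (a + w) (W ω) (l ω) (t ω))
    (Y : Ω → T) (h1 : Fn P W Y) (h2 : Fn P (fun ω => fl1 (a + w) (t ω)) Y) :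
    Stk.hc P (fun ω => (wo a (l ω) (t ω), wh a (l ω) (t ω))) Y ≤ 3 * Real.log (2 * cM c + 3) := by
  have key : ∀ ω ω', 0 < P.w ω → 0 < P.w ω' → Y ω = Y ω' →
      (∀ k, |(bl a (l ω) (t ω)).y k - (bl a (l ω') (t ω')).y k| ≤ cM c * (1 / 2 : ℝ) ^ 0) ∧
      |((bl a (l ω) (t ω)).z + ∑ k, (bl a (l ω) (t ω)).y k * (bl a (l ω) (t ω)).s k) -
        ((bl a (l ω') (t ω')).z + ∑ k, (bl a (l ω') (t ω')).y k * (bl a (l ω') (t ω')).s k)| ≤
        cM c * (1 / 2 : ℝ) ^ 0 := by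
    intro ω ω' p p' e
    have e1 := h1 ω ω' p p' e
    have e2 := h2 ω ω' p p' e
    have g := hW ω p
    have g' := hW ω' p'
    obtain ⟨⟨b, R, u2, -, -, -⟩, -, -, i1⟩ := g
    have i2 := g'.inn
    rw [← e1] at i2
    have hu0 : 0 ≤ (W ω).u2 := by rw [u2]; positivity
    have hu1 : (W ω).u2 ≤ 1 := by
      rw [u2]
      exact pow_le_one₀ (by norm_num) (by norm_num)
    have h5 := cell_near hc (hs ω p) (hs ω' p') hu0 hu1 i1 i2 e2
    have h6 := cM_le hc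
    rw [pow_zero, mul_one]
    exact ⟨fun k => (h5.1 k).trans h6.1, h5.2.trans h6.2⟩
  have e1 : (fun ω => wo a (l ω) (t ω)) = fun ω => fl 0 (bl a (l ω) (t ω)).y := by
    funext ω k
    simp [wo, fl]
  have e2 : (fun ω => wh a (l ω) (t ω)) =
      fun ω => fl1 0 ((bl a (l ω) (t ω)).z + ∑ k, (bl a (l ω) (t ω)).y k * (bl a (l ω) (t ω)).s k) := by
    funext ω
    simp [wh, fl1]
  have a1 := Apx.hc_pair_le P (fun ω => wo a (l ω) (t ω)) (fun ω => wh a (l ω) (t ω)) Y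
  have a2 : Stk.hc P (fun ω => wo a (l ω) (t ω)) Y ≤ 2 * Real.log (2 * cM c + 3) := by
    rw [e1]
    have := Apx.hc_fl_apx P 0 (cM c) (fun ω => (bl a (l ω) (t ω)).y) Y fun ω ω' p p' e i => (key ω ω' p p' e).1 i
    simpa using this
  have a3 : Stk.hc P (fun ω => wh a (l ω) (t ω)) Y ≤ Real.log (2 * cM c + 3) := by
    rw [e2]
    exact Apx.hc_fl1_apx P 0 (cM c) _ Y fun ω ω' p p' e => (key ω ω' p p' e).2
  linarith

end fin

end Vale.Agent.P106.U.H416
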