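import Mathlib

/-!
# P106 / U / H416 : the algebra of the pair M-step (four directions, one curvature)

`tri e₀ a₀ e₁ a₁ e₂ a₂` : the size of the commutator of the motions `0 → 1` and `0 → 2` (letters: direction `e`, curvature `a`).
Four directions which are pairwise `s` apart: if all the commutators based at `0` are small then the four curvatures are equal up to
`36 s⁻⁵` times their maximum (`quad_le`).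
-/

set_option autoImplicit false

namespace Vale.Agent.P106.U.H416.Cyc

/-- the commutator of the motions `0 → 1`, `0 → 2` (without the factor of the two times) -/
def tri (e₀ a₀ e₁ a₁ e₂ a₂ : ℝ) : ℝ :=
  a₀ * (e₁ - e₂) * (2 * e₀ - e₁ - e₂) + a₁ * (e₂ - e₀) * (2 * e₁ - e₂ - e₀) + a₂ * (e₀ - e₁) * (2 * e₂ - e₀ - e₁)

/-- the commutator is the alternating sum of `ψ i j = (a i - a j) (e i - e j) ^ 2` over `{0, 1} × {0, 2}` -/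
theorem tri_eq (e₀ a₀ e₁ a₁ e₂ a₂ : ℝ) :
    tri e₀ a₀ e₁ a₁ e₂ a₂ = (a₀ - a₂) * (e₀ - e₂) ^ 2 + (a₁ - a₀) * (e₁ - e₀) ^ 2 - (a₁ - a₂) * (e₁ - e₂) ^ 2 := by
  unfold tri
  ring

theorem tri_swap (e₀ a₀ e₁ a₁ e₂ a₂ : ℝ) : tri e₀ a₀ e₂ a₂ e₁ a₁ = - tri e₀ a₀ e₁ a₁ e₂ a₂ := by
  unfold tri
  ring

/-- the identity: the curvature difference times the determinant -/
theorem key (e₀ a₀ e₁ a₁ e₂ a₂ e₃ a₃ : ℝ) :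
    6 * ((e₁ - e₂) * (e₂ - e₃) * (e₃ - e₁)) * ((e₂ - e₀) * (e₃ - e₀)) * (a₁ - a₀) =
      tri e₀ a₀ e₁ a₁ e₂ a₂ * ((e₃ - e₀) * (2 * (e₃ - e₀) - (e₁ - e₀)) * (2 * (e₂ - e₀) - (e₃ - e₀))) -
        tri e₀ a₀ e₁ a₁ e₃ a₃ * ((e₂ - e₀) * (2 * (e₂ - e₀) - (e₁ - e₀)) * (2 * (e₃ - e₀) - (e₂ - e₀))) +
        tri e₀ a₀ e₂ a₂ e₃ a₃ * ((e₁ - e₀) * (2 * (e₂ - e₀) - (e₁ - e₀)) * (2 * (e₃ - e₀) - (e₁ - e₀))) := by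
  unfold tri
  ring

/-- **quantitative form** : `|e| ≤ 1`, pairwise distances `≥ s`, the three commutators based at `0` at most `t` -/
theorem quad_le {e₀ a₀ e₁ a₁ e₂ a₂ e₃ a₃ s t : ℝ} (hs : 0 < s) (h0 : |e₀| ≤ 1) (h1 : |e₁| ≤ 1) (h2 : |e₂| ≤ 1)
    (h3 : |e₃| ≤ 1) (h20 : s ≤ |e₂ - e₀|) (h30 : s ≤ |e₃ - e₀|) (h12 : s ≤ |e₁ - e₂|)
    (h23 : s ≤ |e₂ - e₃|) (h31 : s ≤ |e₃ - e₁|) (t1 : |tri e₀ a₀ e₁ a₁ e₂ a₂| ≤ t)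
    (t2 : |tri e₀ a₀ e₁ a₁ e₃ a₃| ≤ t) (t3 : |tri e₀ a₀ e₂ a₂ e₃ a₃| ≤ t) :
    s ^ 5 * |a₁ - a₀| ≤ 36 * t := by
  have ht : 0 ≤ t := (abs_nonneg _).trans t1
  have hd : ∀ x y : ℝ, |x| ≤ 1 → |y| ≤ 1 → |x - y| ≤ 2 := fun x y hx hy => by
    have := abs_sub x y
    linarith
  have b1 := hd _ _ h1 h0
  have b2 := hd _ _ h2 h0
  have b3 := hd _ _ h3 h0
  have c6 : ∀ x y : ℝ, |x| ≤ 2 → |y| ≤ 2 → |2 * x - y| ≤ 6 := fun x y hx hy => by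
    have h := abs_sub (2 * x) y
    rw [abs_mul, abs_of_pos (by norm_num : (0 : ℝ) < 2)] at h
    linarith
  have p72 : ∀ x y z u v : ℝ, |x| ≤ 2 → |y| ≤ 2 → |z| ≤ 2 → |u| ≤ 2 → |v| ≤ 2 →
      |x * (2 * y - z) * (2 * u - v)| ≤ 72 := fun x y z u v hx hy hz hu hv => by
    rw [abs_mul, abs_mul]
    have e1 : |x| * |2 * y - z| ≤ 2 * 6 := mul_le_mul hx (c6 y z hy hz) (abs_nonneg _) (by norm_num)
    have e2 : |x| * |2 * y - z| * |2 * u - v| ≤ (2 * 6) * 6 :=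
      mul_le_mul e1 (c6 u v hu hv) (abs_nonneg _) (by norm_num)
    linarith
  have k := congrArg abs (key e₀ a₀ e₁ a₁ e₂ a₂ e₃ a₃)
  have hL : |6 * ((e₁ - e₂) * (e₂ - e₃) * (e₃ - e₁)) * ((e₂ - e₀) * (e₃ - e₀)) * (a₁ - a₀)| ≥
      6 * s ^ 5 * |a₁ - a₀| := by
    simp only [abs_mul]
    rw [abs_of_pos (by norm_num : (0 : ℝ) < 6)]
    have e1 : s * s ≤ |e₁ - e₂| * |e₂ - e₃| := mul_le_mul h12 h23 hs.le (abs_nonneg _)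
    have e2 : s * s * s ≤ |e₁ - e₂| * |e₂ - e₃| * |e₃ - e₁| := mul_le_mul e1 h31 hs.le (by positivity)
    have e3 : s * s ≤ |e₂ - e₀| * |e₃ - e₀| := mul_le_mul h20 h30 hs.le (abs_nonneg _)
    have e4 : (s * s * s) * (s * s) ≤ |e₁ - e₂| * |e₂ - e₃| * |e₃ - e₁| * (|e₂ - e₀| * |e₃ - e₀|) :=
      mul_le_mul e2 e3 (by positivity) (by positivity)
    have e5 := mul_le_mul_of_nonneg_right e4 (abs_nonneg (a₁ - a₀))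
    have e6 : s ^ 5 = (s * s * s) * (s * s) := by ring
    rw [e6]
    nlinarith
  have hR : |tri e₀ a₀ e₁ a₁ e₂ a₂ * ((e₃ - e₀) * (2 * (e₃ - e₀) - (e₁ - e₀)) * (2 * (e₂ - e₀) - (e₃ - e₀))) -
        tri e₀ a₀ e₁ a₁ e₃ a₃ * ((e₂ - e₀) * (2 * (e₂ - e₀) - (e₁ - e₀)) * (2 * (e₃ - e₀) - (e₂ - e₀))) +
        tri e₀ a₀ e₂ a₂ e₃ a₃ * ((e₁ - e₀) * (2 * (e₂ - e₀) - (e₁ - e₀)) * (2 * (e₃ - e₀) - (e₁ - e₀)))| ≤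
      3 * (t * 72) := by
    refine (abs_add_le _ _).trans ?_
    have g1 := abs_sub (tri e₀ a₀ e₁ a₁ e₂ a₂ * ((e₃ - e₀) * (2 * (e₃ - e₀) - (e₁ - e₀)) * (2 * (e₂ - e₀) - (e₃ - e₀))))
      (tri e₀ a₀ e₁ a₁ e₃ a₃ * ((e₂ - e₀) * (2 * (e₂ - e₀) - (e₁ - e₀)) * (2 * (e₃ - e₀) - (e₂ - e₀))))
    have q1 : |tri e₀ a₀ e₁ a₁ e₂ a₂ * ((e₃ - e₀) * (2 * (e₃ - e₀) - (e₁ - e₀)) * (2 * (e₂ - e₀) - (e₃ - e₀)))| ≤
        t * 72 := by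
      rw [abs_mul]
      exact mul_le_mul t1 (p72 _ _ _ _ _ b3 b3 b1 b2 b3) (abs_nonneg _) ht
    have q2 : |tri e₀ a₀ e₁ a₁ e₃ a₃ * ((e₂ - e₀) * (2 * (e₂ - e₀) - (e₁ - e₀)) * (2 * (e₃ - e₀) - (e₂ - e₀)))| ≤
        t * 72 := by
      rw [abs_mul]
      exact mul_le_mul t2 (p72 _ _ _ _ _ b2 b2 b1 b3 b2) (abs_nonneg _) ht
    have q3 : |tri e₀ a₀ e₂ a₂ e₃ a₃ * ((e₁ - e₀) * (2 * (e₂ - e₀) - (e₁ - e₀)) * (2 * (e₃ - e₀) - (e₁ - e₀)))| ≤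
        t * 72 := by
      rw [abs_mul]
      exact mul_le_mul t3 (p72 _ _ _ _ _ b1 b2 b1 b3 b1) (abs_nonneg _) ht
    linarith
  rw [k] at hL
  linarith

end Vale.Agent.P106.U.H416.Cyc
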