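import Mathlib

/-!
# P106 / U / H416 : telescoping over the levels (helper416)

`Xt G`, `Nt G` : last / first levels of the runs of a finite set `G` of levels.
`tele` : terms `T v ≤ M` on `A`, and `T v ≤ f v - f (v + d) + nr v` if `[v, v + d]` is in `G`; then the sum over `A` is
`≤ M (#(A \ G) + 2 d #Xt G) + Σ nr`.
-/

set_option autoImplicit false

namespace Vale.Agent.P106.U.H416.F1C

open Finset

/-- exits -/
def Xt (G : Finset ℕ) : Finset ℕ := G.filter fun v => v + 1 ∉ G

/-- entrances -/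
def Nt (G : Finset ℕ) : Finset ℕ := G.filter fun v => v = 0 ∨ v - 1 ∉ G

theorem card_Nt (G : Finset ℕ) : (Nt G).card = (Xt G).card := by
  have h1 : (G.filter fun v => v + 1 ∉ G).card + (G.filter fun v => ¬ v + 1 ∉ G).card = G.card :=
    Finset.card_filter_add_card_filter_not _
  have h2 : (G.filter fun v => v = 0 ∨ v - 1 ∉ G).card + (G.filter fun v => ¬ (v = 0 ∨ v - 1 ∉ G)).card = G.card :=
    Finset.card_filter_add_card_filter_not _
  have h3 : (G.filter fun v => ¬ v + 1 ∉ G).card = (G.filter fun v => ¬ (v = 0 ∨ v - 1 ∉ G)).card := by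
    refine Finset.card_bij (fun v _ => v + 1) ?_ ?_ ?_
    · intro v hv
      rw [Finset.mem_filter] at hv ⊢
      push Not at hv ⊢
      exact ⟨hv.2, by omega, by simpa using hv.1⟩
    · intro a _ b _ h
      omega
    · intro b hb
      rw [Finset.mem_filter] at hb
      push Not at hb
      refine ⟨b - 1, ?_, by omega⟩
      rw [Finset.mem_filter]
      push Not
      exact ⟨hb.2.2, by rw [show b - 1 + 1 = b by omega]; exact hb.1⟩
  unfold Nt Xt
  omega

theorem exit_between {G : Finset ℕ} {v u : ℕ} (hv : v ∈ G) (hvu : v ≤ u) (hu : u ∉ G) :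
    ∃ e ∈ Xt G, v ≤ e ∧ e < u := by
  by_contra hc
  push Not at hc
  refine hu ?_
  have key : ∀ j, v + j ≤ u → v + j ∈ G := by
    intro j
    induction j with
    | zero => exact fun _ => hv
    | succ j ih =>
      intro hj
      have h1 := ih (by omega)
      by_contra h2
      have h3 : v + j ∈ Xt G := Finset.mem_filter.2 ⟨h1, h2⟩
      have := hc _ h3 (by omega)
      omega
  have := key (u - v) (by omega)
  rwa [show v + (u - v) = u by omega] at this

theorem entr_between {G : Finset ℕ} {u d : ℕ} (hu : u ∈ G) (h : ¬ (d ≤ u ∧ ∀ w, u - d ≤ w → w ≤ u → w ∈ G)) :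
    ∃ e ∈ Nt G, e ≤ u ∧ u < e + d := by
  by_contra hc
  push Not at hc
  refine h ?_
  have key : ∀ j, j ≤ d → j ≤ u ∧ u - j ∈ G := by
    intro j
    induction j with
    | zero => exact fun _ => ⟨Nat.zero_le _, by simpa using hu⟩
    | succ j ih =>
      intro hj
      obtain ⟨h1, h2⟩ := ih (by omega)
      have h3 : u - j ∉ Nt G := fun h3 => by
        have := hc _ h3 (by omega)
        omega
      unfold Nt at h3
      rw [Finset.mem_filter] at h3
      push Not at h3
      obtain ⟨h4, h5⟩ := h3 h2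
      exact ⟨by omega, by rwa [show u - (j + 1) = u - j - 1 by omega]⟩
  refine ⟨(key d le_rfl).1, fun w h1 h2 => ?_⟩
  have := (key (u - w) (by omega)).2
  rwa [show u - (u - w) = w by omega] at this

open Classical in
/-- **telescoping** -/
theorem tele {A G : Finset ℕ} {d : ℕ} {T f nr : ℕ → ℝ} {M : ℝ} (hM : 0 ≤ M) (hGA : G ⊆ A)
    (hT : ∀ v ∈ A, T v ≤ M) (f0 : ∀ v, 0 ≤ f v) (fM : ∀ v ∈ G, f v ≤ M) (n0 : ∀ v ∈ A, 0 ≤ nr v)
    (hG : ∀ v, (∀ u, v ≤ u → u ≤ v + d → u ∈ G) → T v ≤ f v - f (v + d) + nr v) :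
    ∑ v ∈ A, T v ≤ M * (((A \ G).card : ℝ) + 2 * d * (Xt G).card) + ∑ v ∈ A, nr v := by
  set H := A.filter fun v => ∀ u, v ≤ u → u ≤ v + d → u ∈ G with hH
  have HG : ∀ v ∈ H, v ∈ G := fun v hv => (Finset.mem_filter.1 hv).2 v le_rfl (by omega)
  -- the bad levels
  have c1 : ((A.filter fun v => ¬ ∀ u, v ≤ u → u ≤ v + d → u ∈ G).card : ℝ) ≤ (A \ G).card + d * (Xt G).card := by
    have h1 : (A.filter fun v => ¬ ∀ u, v ≤ u → u ≤ v + d → u ∈ G) ⊆
        (A \ G) ∪ (Xt G ×ˢ range d).image fun x => x.1 - x.2 := by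
      intro v hv
      rw [Finset.mem_filter] at hv
      rw [Finset.mem_union]
      by_cases hvG : v ∈ G
      · right
        have h2 := hv.2
        push Not at h2
        obtain ⟨u, hu1, hu2, hu3⟩ := h2
        obtain ⟨e, he, h4, h5⟩ := exit_between hvG hu1 hu3
        rw [Finset.mem_image]
        refine ⟨(e, e - v), Finset.mem_product.2 ⟨he, Finset.mem_range.2 (show e - v < d by omega)⟩, ?_⟩
        show e - (e - v) = v
        omega
      · left
        exact Finset.mem_sdiff.2 ⟨hv.1, hvG⟩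
    have h2 := (Finset.card_le_card h1).trans (Finset.card_union_le _ _)
    have h3 : ((Xt G ×ˢ range d).image fun x => x.1 - x.2).card ≤ d * (Xt G).card := by
      refine Finset.card_image_le.trans ?_
      rw [Finset.card_product, Finset.card_range, mul_comm]
    have h4 : (A.filter fun v => ¬ ∀ u, v ≤ u → u ≤ v + d → u ∈ G).card ≤ (A \ G).card + d * (Xt G).card := by
      omega
    exact_mod_cast h4
  -- the levels without predecessor
  have c2 : ((H.filter fun v => ¬ (d ≤ v ∧ v - d ∈ H)).card : ℝ) ≤ d * (Xt G).card := by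
    have h1 : (H.filter fun v => ¬ (d ≤ v ∧ v - d ∈ H)) ⊆ (Nt G ×ˢ range d).image fun x => x.1 + x.2 := by
      intro v hv
      rw [Finset.mem_filter] at hv
      obtain ⟨e, he, h4, h5⟩ := entr_between (G := G) (d := d) (HG v hv.1) (by
        intro hc
        refine hv.2 ⟨hc.1, Finset.mem_filter.2 ⟨hGA (hc.2 _ le_rfl (by omega)), fun u h1 h2 => ?_⟩⟩
        exact hc.2 u h1 (by have := hc.1; omega))
      rw [Finset.mem_image]
      refine ⟨(e, v - e), Finset.mem_product.2 ⟨he, Finset.mem_range.2 (show v - e < d by omega)⟩, ?_⟩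
      show e + (v - e) = v
      omega
    have h3 : ((Nt G ×ˢ range d).image fun x => x.1 + x.2).card ≤ d * (Xt G).card := by
      refine Finset.card_image_le.trans ?_
      rw [Finset.card_product, Finset.card_range, mul_comm, card_Nt]
    exact_mod_cast (Finset.card_le_card h1).trans h3
  have s1 : ∑ v ∈ A, T v = ∑ v ∈ H, T v + ∑ v ∈ A.filter (fun v => ¬ ∀ u, v ≤ u → u ≤ v + d → u ∈ G), T v :=
    (Finset.sum_filter_add_sum_filter_not A _ _).symm
  have s2 : ∑ v ∈ A.filter (fun v => ¬ ∀ u, v ≤ u → u ≤ v + d → u ∈ G), T v ≤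
      M * ((A \ G).card + d * (Xt G).card) := by
    refine (Finset.sum_le_card_nsmul _ _ M fun v hv => hT v (Finset.mem_filter.1 hv).1).trans ?_
    rw [nsmul_eq_mul, mul_comm]
    exact mul_le_mul_of_nonneg_left c1 hM
  have s3 : ∑ v ∈ H, T v ≤ ∑ v ∈ H, f v - ∑ v ∈ H, f (v + d) + ∑ v ∈ H, nr v := by
    rw [← Finset.sum_sub_distrib, ← Finset.sum_add_distrib]
    exact Finset.sum_le_sum fun v hv => hG v (Finset.mem_filter.1 hv).2
  have s4 : ∑ v ∈ H, nr v ≤ ∑ v ∈ A, nr v :=
    Finset.sum_le_sum_of_subset_of_nonneg (Finset.filter_subset _ _) fun v hv _ => n0 v hv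
  have s5 : ∑ v ∈ H, f v = ∑ v ∈ H.filter (fun v => d ≤ v ∧ v - d ∈ H), f v +
      ∑ v ∈ H.filter (fun v => ¬ (d ≤ v ∧ v - d ∈ H)), f v := (Finset.sum_filter_add_sum_filter_not H _ _).symm
  have s6 : ∑ v ∈ H.filter (fun v => ¬ (d ≤ v ∧ v - d ∈ H)), f v ≤ M * (d * (Xt G).card) := by
    refine (Finset.sum_le_card_nsmul _ _ M fun v hv => fM v (HG v (Finset.mem_filter.1 hv).1)).trans ?_
    rw [nsmul_eq_mul, mul_comm]
    exact mul_le_mul_of_nonneg_left c2 hM
  have s7 : ∑ v ∈ H.filter (fun v => d ≤ v ∧ v - d ∈ H), f v ≤ ∑ v ∈ H, f (v + d) := by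
    have e : ∑ v ∈ H, f (v + d) = ∑ v ∈ H.image (fun v => v + d), f v :=
      (Finset.sum_image fun a _ b _ h => by simpa using h).symm
    rw [e]
    refine Finset.sum_le_sum_of_subset_of_nonneg ?_ fun v _ _ => f0 v
    intro v hv
    rw [Finset.mem_filter] at hv
    rw [Finset.mem_image]
    exact ⟨v - d, hv.2.2, by have := hv.2.1; omega⟩
  have : M * (((A \ G).card : ℝ) + 2 * d * (Xt G).card) =
      M * ((A \ G).card + d * (Xt G).card) + M * (d * (Xt G).card) := by ring
  rw [this]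
  linarith

end Vale.Agent.P106.U.H416.F1C
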