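import Vale.Agent.P106.U.H416.F1C
import Vale.Agent.P106.U.S3.F2

/-!
# P106 / U / H416 : levels of the path of the record (helper416)

* `lv_mul`, `a_step`, `next_a`, `uniq_a` : levels and a-steps.
* `kap_const` : the regime does not change along young levels.
* `Rule` : one index per level (`r = IsA`: the last index, `r = fun k => IsA (k - 1)`: the first one); `ruleA`, `ruleF`.
* `sum_core` : the sum of the informations over the pairs of F2, over the indices of a rule.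
-/

set_option autoImplicit false

namespace Vale.Agent.P106.U.H416.F1P

open Finset Vale.Agent.P127 Vale.Agent.P127.Stk Vale.Agent.P127.U Vale.Agent.P106.W
open Vale.Agent.P106.U.S3 (Run lv At At' IdK IdP Pf)
open Vale.Agent.P106.U.H416.F1C

variable {Ω : Type} [Fintype Ω] {τ υ π : Type} {R : Run Ω τ υ} {p : Run.Num}

section lev

variable (hp : R.Path p)

include hp

theorem a_mul {i : ℕ} (hi : i ≤ R.n + p.J) : R.C.a i = lv R i * R.m := by
  have m1 := hp.m1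
  have key : ∀ i, i ≤ R.n + p.J → R.m ∣ R.C.a i := by
    intro i
    induction i with
    | zero => intro _; rw [hp.a0]; exact dvd_zero _
    | succ i ih =>
      intro hi
      have h1 := ih (by omega)
      rcases hp.stp i (by omega) with ⟨h, _, _⟩ | ⟨h, _, _⟩ | ⟨h, _, _⟩
      · rw [h]; exact Dvd.dvd.add h1 (dvd_refl _)
      · rw [h]; exact h1
      · rw [h]; exact h1
  obtain ⟨c, hc⟩ := key i hi
  unfold lv
  rw [hc, Nat.mul_div_cancel_left _ m1, mul_comm]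

omit hp in
theorem lv_mono {i j : ℕ} (hij : i ≤ j) : lv R i ≤ lv R j := Nat.div_le_div_right (R.C.ha hij)

theorem lv_lt {i j : ℕ} (hi : i ≤ R.n + p.J) (hj : j ≤ R.n + p.J) : R.C.a i < R.C.a j ↔ lv R i < lv R j := by
  have m1 := hp.m1
  rw [a_mul hp hi, a_mul hp hj]
  exact ⟨fun h => Nat.lt_of_mul_lt_mul_right h, fun h => Nat.mul_lt_mul_of_pos_right h m1⟩

theorem lv_succ {i : ℕ} (hi : i + 1 ≤ R.n + p.J) (ha : R.IsA i) : lv R (i + 1) = lv R i + 1 := by
  have m1 := hp.m1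
  have h1 := a_mul hp hi
  have h2 := a_mul hp (show i ≤ R.n + p.J by omega)
  unfold Run.IsA at ha
  rw [h1, h2] at ha
  have : lv R (i + 1) * R.m = (lv R i + 1) * R.m := by rw [ha]; ring
  exact Nat.eq_of_mul_eq_mul_right m1 this

/-- an a-step is the last index of its level -/
theorem le_of_lv {i j : ℕ} (hj : j ≤ R.n + p.J) (ha : R.IsA i) (h : lv R j ≤ lv R i) : j ≤ i := by
  by_contra hc
  push Not at hc
  have h1 := lv_succ hp (i := i) (by omega) ha
  have h2 := lv_mono (R := R) (i := i + 1) (j := j) (by omega)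
  omega

theorem uniq_a {i j : ℕ} (hi : i ≤ R.n + p.J) (hj : j ≤ R.n + p.J) (ha : R.IsA i) (hb : R.IsA j) (h : lv R j = lv R i) :
    i = j :=
  le_antisymm (le_of_lv hp hi hb h.ge) (le_of_lv hp hj ha h.le)

/-- the a-steps of the lower levels exist -/
theorem ex_a {i : ℕ} (hi : i ≤ R.n + p.J) : ∀ v, v < lv R i → ∃ j < i, R.IsA j ∧ lv R j = v := by
  induction i with
  | zero =>
    intro v hv
    unfold lv at hv
    rw [hp.a0] at hv
    simp at hv
  | succ i ih =>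
    intro v hv
    have h1 := ih (by omega)
    have ei := a_mul hp (show i ≤ R.n + p.J by omega)
    have ei1 := a_mul hp hi
    rcases hp.stp i (by omega) with ⟨h, _, _⟩ | ⟨h, _, _⟩ | ⟨h, _, _⟩
    · have h2 := lv_succ hp hi h
      rcases Nat.lt_or_ge v (lv R i) with h3 | h3
      · obtain ⟨j, hj, hj2⟩ := h1 v h3
        exact ⟨j, by omega, hj2⟩
      · exact ⟨i, by omega, h, by omega⟩
    · have h2 : lv R (i + 1) = lv R i := by unfold lv; rw [h]
      obtain ⟨j, hj, hj2⟩ := h1 v (by omega)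
      exact ⟨j, by omega, hj2⟩
    · have h2 : lv R (i + 1) = lv R i := by unfold lv; rw [h]
      obtain ⟨j, hj, hj2⟩ := h1 v (by omega)
      exact ⟨j, by omega, hj2⟩

theorem ex_a' {i : ℕ} (hi : i ≤ R.n + p.J) (ha : R.IsA i) {v : ℕ} (hv : v ≤ lv R i) :
    ∃ j ≤ i, R.IsA j ∧ lv R j = v := by
  rcases hv.lt_or_eq with h | h
  · obtain ⟨j, hj, hj2⟩ := ex_a hp hi v h
    exact ⟨j, hj.le, hj2⟩
  · exact ⟨i, le_rfl, ha, h.symm⟩

end lev

/-! ### regime -/

/-- kappa regime at `k` -/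
def Kap (R : Run Ω τ υ) (k : ℕ) : Prop := R.m * R.b1 + R.C.rk k < R.C.rf k

/-- deep phi regime at `k` -/
def Phi (R : Run Ω τ υ) (F : Pf R π) (B k : ℕ) : Prop := R.C.rf k + 2 * (R.m * B) ≤ R.m * R.b1 + F.rk0 k

section reg

variable {F : Pf R π} {B : ℕ} (hp : R.Path p) (hB : 1 ≤ B)

include hp hB

omit hB in
theorem not_both {k : ℕ} (h1 : Kap R k) (h2 : Phi R F B k) : False := by
  have m1 := hp.m1
  unfold Kap at h1
  unfold Phi at h2
  have := F.l0 k
  omega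

omit hB in
theorem step_rk {k : ℕ} (hk : k < R.n + p.J) : R.C.rk (k + 1) ≤ R.C.rk k + R.m := by
  rcases hp.stp k hk with ⟨_, _, h⟩ | ⟨_, _, h⟩ | ⟨_, _, h⟩ <;> omega

omit hB in
theorem step_rf {k : ℕ} (hk : k < R.n + p.J) : R.C.rf (k + 1) ≤ R.C.rf k + R.m := by
  rcases hp.stp k hk with ⟨_, h, _⟩ | ⟨_, h, _⟩ | ⟨_, h, _⟩ <;> omega

theorem no_KP {k : ℕ} (hk : k < R.n + p.J) (h1 : Kap R k) (h2 : Phi R F B (k + 1)) : False := by
  have m1 := hp.m1
  have h3 := step_rk hp hk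
  have h4 := R.C.hf (Nat.le_succ k)
  have h5 := F.l0 (k + 1)
  have h6 : R.m ≤ R.m * B := Nat.le_mul_of_pos_right _ hB
  unfold Kap at h1
  unfold Phi at h2
  have h7 : R.C.rf k ≤ R.C.rf (k + 1) := h4
  omega

theorem no_PK {k : ℕ} (hk : k < R.n + p.J) (h1 : Phi R F B k) (h2 : Kap R (k + 1)) : False := by
  have m1 := hp.m1
  have h3 := step_rf hp hk
  have h4 := R.C.hk (Nat.le_succ k)
  have h5 := F.l0 k
  have h6 : R.m ≤ R.m * B := Nat.le_mul_of_pos_right _ hB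
  unfold Kap at h2
  unfold Phi at h1
  have h7 : R.C.rk k ≤ R.C.rk (k + 1) := h4
  omega

/-- **the regime does not change** -/
theorem kap_const {k j : ℕ} (hk : k ≤ j) (hj : j ≤ R.n + p.J) (h : ∀ i, k ≤ i → i ≤ j → Kap R i ∨ Phi R F B i) :
    (Kap R k → Kap R j) ∧ (Phi R F B k → Phi R F B j) := by
  induction j, hk using Nat.le_induction with
  | base => exact ⟨id, id⟩
  | succ j hkj ih =>
    obtain ⟨h1, h2⟩ := ih (by omega) fun i h1 h2 => h i h1 (by omega)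
    have h3 := h (j + 1) (by omega) le_rfl
    constructor
    · intro h4
      rcases h3 with h3 | h3
      · exact h3
      · exact (no_KP hp hB (by omega) (h1 h4) h3).elim
    · intro h4
      rcases h3 with h3 | h3
      · exact (no_PK hp hB (by omega) (h2 h4) h3).elim
      · exact h3

end reg

/-! ### rules -/

/-- one index per level -/
structure Rule (R : Run Ω τ υ) (p : Run.Num) (r : ℕ → Prop) : Prop where
  uniq : ∀ i j, 1 ≤ i → 1 ≤ j → i ≤ R.n → j ≤ R.n → r i → r j → lv R i = lv R j → i = j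
  next : ∀ i j, 1 ≤ i → i < j → j ≤ R.n → r i → r j → lv R i < lv R j → ∃ k, i < k ∧ k ≤ j ∧ r k ∧ lv R k = lv R i + 1

theorem ruleA (hp : R.Path p) : Rule R p R.IsA where
  uniq := fun i j _ _ h3 h4 h5 h6 h7 => uniq_a hp (by omega) (by omega) h5 h6 h7.symm
  next := fun i j h1 h2 h3 h4 h5 h6 => by
    obtain ⟨k, hk, hk2, hk3⟩ := ex_a' hp (show j ≤ R.n + p.J by omega) h5 (v := lv R i + 1) (by omega)
    refine ⟨k, ?_, hk, hk2, hk3⟩
    by_contra hc
    have := lv_mono (R := R) (i := k) (j := i) (by omega)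
    omega

theorem ruleF (hp : R.Path p) : Rule R p (fun k => R.IsA (k - 1)) where
  uniq := fun i j h1 h2 h3 h4 h5 h6 h7 => by
    have e1 := lv_succ hp (i := i - 1) (by omega) h5
    have e2 := lv_succ hp (i := j - 1) (by omega) h6
    rw [show i - 1 + 1 = i by omega] at e1
    rw [show j - 1 + 1 = j by omega] at e2
    have := uniq_a hp (i := i - 1) (j := j - 1) (by omega) (by omega) h5 h6 (by omega)
    omega
  next := fun i j h1 h2 h3 h4 h5 h6 => by
    obtain ⟨k, hk, hk2, hk3⟩ := ex_a hp (show j ≤ R.n + p.J by omega) (lv R i) h6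
    have e1 := lv_succ hp (i := k) (by omega) hk2
    have e2 := le_of_lv hp (i := k) (j := i) (by omega) hk2 hk3.ge
    exact ⟨k + 1, by omega, by omega, by simpa using hk2, by omega⟩

/-! ### the sum -/

open Classical in
/-- indices of a kind of young levels, along a rule -/
noncomputable def IdS (R : Run Ω τ υ) (Vs Xs : Finset ℕ) (kd r : ℕ → Prop) : Finset ℕ :=
  (Icc 1 R.n).filter fun k => lv R k ∈ Vs ∧ lv R k ∉ Xs ∧ kd k ∧ r k

/-- exits of the young levels -/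
def Ex (Vs : Finset ℕ) : Finset ℕ := Vs.filter fun v => v + 1 ∉ Vs

/-- clean levels of `S` -/
def Cl (R : Run Ω τ υ) (S Bp : Finset ℕ) : Finset ℕ := (S.image (lv R)) \ Bp

section sum

variable {r kd : ℕ → Prop} {Vs Xs Bp : Finset ℕ}

theorem mem_IdS {k : ℕ} : k ∈ IdS R Vs Xs kd r ↔ (1 ≤ k ∧ k ≤ R.n) ∧ lv R k ∈ Vs ∧ lv R k ∉ Xs ∧ kd k ∧ r k := by
  classical
  unfold IdS
  rw [Finset.mem_filter, Finset.mem_Icc]

/-- few exits -/
theorem xt_le (hr : Rule R p r)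
    (hkd : ∀ k j, 1 ≤ k → k ≤ j → j ≤ R.n → (∀ i, k ≤ i → i ≤ j → lv R i ∈ Vs ∧ lv R i ∉ Xs) → kd k → kd j)
    (hX : Xs ⊆ Bp) (hE : Ex Vs ⊆ Bp) : (Xt (Cl R (IdS R Vs Xs kd r) Bp)).card ≤ Bp.card + 1 := by
  classical
  set G := Cl R (IdS R Vs Xs kd r) Bp with hG
  have h0 : ((Xt G).filter fun v => v + 1 ∈ Bp).card + ((Xt G).filter fun v => ¬ v + 1 ∈ Bp).card = (Xt G).card :=
    Finset.card_filter_add_card_filter_not _
  have h1 : ((Xt G).filter fun v => v + 1 ∈ Bp).card ≤ Bp.card :=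
    Finset.card_le_card_of_injOn (fun v => v + 1) (fun v hv => (Finset.mem_filter.1 hv).2)
      (fun a _ b _ h => by simpa using h)
  have key : ∀ v v', v ∈ (Xt G).filter (fun v => ¬ v + 1 ∈ Bp) → v' ∈ (Xt G).filter (fun v => ¬ v + 1 ∈ Bp) →
      v < v' → False := by
    intro v v' hv hv' hlt
    rw [Finset.mem_filter] at hv hv'
    have g1 := Finset.mem_filter.1 hv.1
    have g2 := Finset.mem_sdiff.1 g1.1
    have g3 := Finset.mem_sdiff.1 (Finset.mem_filter.1 hv'.1).1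
    obtain ⟨k, hk, rfl⟩ := Finset.mem_image.1 g2.1
    obtain ⟨k', hk', rfl⟩ := Finset.mem_image.1 g3.1
    rw [mem_IdS] at hk hk'
    have hkk : k < k' := by
      by_contra hc
      have := lv_mono (R := R) (i := k') (j := k) (by omega)
      omega
    obtain ⟨j, hj1, hj2, hj3, hj4⟩ := hr.next k k' hk.1.1 hkk hk'.1.2 hk.2.2.2.2 hk'.2.2.2.2 hlt
    have hV : lv R k + 1 ∈ Vs := by
      by_contra hc
      exact g2.2 (hE (Finset.mem_filter.2 ⟨hk.2.1, hc⟩))
    have hXs : lv R k + 1 ∉ Xs := fun hc => hv.2 (hX hc)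
    refine g1.2 (Finset.mem_sdiff.2 ⟨Finset.mem_image.2 ⟨j, mem_IdS.2 ⟨⟨by omega, by omega⟩, ?_, ?_, ?_, hj3⟩, hj4⟩, hv.2⟩)
    · rw [hj4]; exact hV
    · rw [hj4]; exact hXs
    · refine hkd k j hk.1.1 hj1.le (by omega) (fun i h1 h2 => ?_) hk.2.2.2.1
      have e1 := lv_mono (R := R) h1
      have e2 := lv_mono (R := R) h2
      rcases Nat.lt_or_ge (lv R k) (lv R i) with h3 | h3
      · have : lv R i = lv R k + 1 := by omega
        rw [this]
        exact ⟨hV, hXs⟩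
      · have : lv R i = lv R k := by omega
        rw [this]
        exact ⟨hk.2.1, hk.2.2.1⟩
  have h2 : ((Xt G).filter fun v => ¬ v + 1 ∈ Bp).card ≤ 1 := by
    rw [Finset.card_le_one]
    intro a ha b hb
    rcases lt_trichotomy a b with h | h | h
    · exact (key a b ha hb h).elim
    · exact h
    · exact (key b a hb ha h).elim
  omega

/-- at most one later a-step -/
theorem sum_At_le (hp : R.Path p) {B d k : ℕ} {g : ℕ → ℝ} {C : ℝ} (hC : 0 ≤ C) (h : ∀ i ∈ At' R p B d k, g i ≤ C) :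
    ∑ i ∈ At' R p B d k, g i ≤ C := by
  classical
  have h1 : (At' R p B d k).card ≤ 1 := by
    rw [Finset.card_le_one]
    intro i hi j hj
    have hi := (Finset.mem_filter.1 hi).2
    have hj := (Finset.mem_filter.1 hj).2
    refine uniq_a hp hi.2.2.1 hj.2.2.1 hi.2.2.2.2 hj.2.2.2.2 ?_
    unfold lv
    rw [hi.2.2.2.1, hj.2.2.2.1]
  refine (Finset.sum_le_card_nsmul _ _ C h).trans ?_
  rw [nsmul_eq_mul]
  have : ((At' R p B d k).card : ℝ) ≤ 1 := by exact_mod_cast h1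
  nlinarith

/-- `H(x|G) - H(Y|G) ≤ H(x|Y)` -/
theorem hc_gen (P : Law Ω) {ξ η γ : Type*} (x : Ω → ξ) (Y : Ω → η) (G : Ω → γ) :
    Stk.hc P x G - Stk.hc P Y G ≤ Stk.hc P x Y := by
  have f1 := mi_le_hc' P x Y G
  unfold mi at f1
  have f2 : Stk.hc P x (fun ω => (Y ω, G ω)) ≤ Stk.hc P x Y :=
    hc_mono_right P _ fun ω ω' _ _ e => by
      simp only [Prod.mk.injEq] at e
      exact e.1
  linarith

/-- **the sum over the pairs** -/
theorem sum_core (hp : R.Path p) (hr : Rule R p r)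
    (hkd : ∀ k j, 1 ≤ k → k ≤ j → j ≤ R.n → (∀ i, k ≤ i → i ≤ j → lv R i ∈ Vs ∧ lv R i ∉ Xs) → kd k → kd j)
    (hX : Xs ⊆ Bp) (hE : Ex Vs ⊆ Bp) {B d d' : ℕ} {α β γ δ ξ : Type*} (D : ℕ → Ω → α) (Θ : ℕ → ℕ → Ω → β)
    (E : ℕ → ℕ → Ω → γ) (G : ℕ → Ω → δ) (x : ℕ → Ω → ξ) {nr : ℕ → ℝ} {M : ℝ} (hM0 : 0 ≤ M)
    (hDG : ∀ k ∈ IdS R Vs Xs kd r, Fn R.Q (D k) (G k) ∧ Fn R.Q (G k) (D k))
    (hM : ∀ k ∈ IdS R Vs Xs kd r, Stk.hc R.Q (x k) (G k) ≤ M) (n0 : ∀ k ∈ IdS R Vs Xs kd r, 0 ≤ nr k)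
    (hN : ∀ k ∈ IdS R Vs Xs kd r, ∀ j ∈ IdS R Vs Xs kd r, k ≤ j → lv R j = lv R k + d' →
      (∀ u, lv R k ≤ u → u ≤ lv R j → u ∈ Cl R (IdS R Vs Xs kd r) Bp) →
      (∀ ω, 0 < R.Q.w ω → x j ω = x k ω) ∧ Stk.hc R.Q (G k) (G j) ≤ nr k ∧
      ∀ i ∈ At' R p B d k, Stk.hc R.Q (fun ω => (E k i ω, (D k ω, Θ k i ω))) (G j) ≤ nr k) :
    ∑ k ∈ IdS R Vs Xs kd r, ∑ i ∈ At' R p B d k, mi R.Q (x k) (E k i) (fun ω => (D k ω, Θ k i ω)) ≤
      M * (Bp.card + 2 * d' * (Bp.card + 1)) + ∑ k ∈ IdS R Vs Xs kd r, nr k := by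
  classical
  set S := IdS R Vs Xs kd r with hS
  have inj : ∀ k ∈ S, ∀ j ∈ S, lv R k = lv R j → k = j := by
    intro k hk j hj h
    rw [hS, mem_IdS] at hk hj
    exact hr.uniq k j hk.1.1 hj.1.1 hk.1.2 hj.1.2 hk.2.2.2.2 hj.2.2.2.2 h
  -- the index of a level
  set κ : ℕ → ℕ := fun v => if h : ∃ k ∈ S, lv R k = v then h.choose else 0 with hκ
  have κ1 : ∀ v, v ∈ S.image (lv R) → κ v ∈ S ∧ lv R (κ v) = v := by
    intro v hv
    have h := Finset.mem_image.1 hv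
    simp only [hκ, dif_pos h]
    exact h.choose_spec
  have κ2 : ∀ k ∈ S, κ (lv R k) = k := fun k hk => by
    obtain ⟨h1, h2⟩ := κ1 (lv R k) (Finset.mem_image_of_mem _ hk)
    exact inj _ h1 _ hk h2
  have conv : ∀ g : ℕ → ℝ, ∑ k ∈ S, g k = ∑ v ∈ S.image (lv R), g (κ v) := fun g => by
    rw [Finset.sum_image (fun a ha b hb h => inj a ha b hb h)]
    exact Finset.sum_congr rfl fun k hk => by rw [κ2 k hk]
  set t : ℕ → ℕ → ℝ := fun k i => mi R.Q (x k) (E k i) (fun ω => (D k ω, Θ k i ω)) with ht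
  have tM : ∀ k ∈ S, ∀ i, t k i ≤ M := by
    intro k hk i
    refine (mi_le_hc R.Q _ _ _).trans ((hc_mono_right R.Q _ ?_).trans (hM k hk))
    intro ω ω' p1 p2 e
    simp only [Prod.mk.injEq] at e
    exact (hDG k hk).2 ω ω' p1 p2 e.1
  rw [conv fun k => ∑ i ∈ At' R p B d k, t k i, conv nr]
  have main := tele (A := S.image (lv R)) (G := Cl R S Bp) (d := d')
    (T := fun v => ∑ i ∈ At' R p B d (κ v), t (κ v) i) (f := fun v => Stk.hc R.Q (x (κ v)) (G (κ v)))
    (nr := fun v => nr (κ v)) hM0 Finset.sdiff_subset ?_ ?_ ?_ ?_ ?_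
  · refine main.trans ?_
    have c1 : ((S.image (lv R) \ Cl R S Bp).card : ℝ) ≤ Bp.card := by
      have : S.image (lv R) \ Cl R S Bp ⊆ Bp := by
        intro v hv
        rw [Finset.mem_sdiff] at hv
        by_contra hc
        exact hv.2 (Finset.mem_sdiff.2 ⟨hv.1, hc⟩)
      exact_mod_cast Finset.card_le_card this
    have c2 : ((Xt (Cl R S Bp)).card : ℝ) ≤ Bp.card + 1 := by
      have := xt_le (Xs := Xs) (Bp := Bp) hr hkd hX hE
      exact_mod_cast this
    have d0 : (0 : ℝ) ≤ 2 * d' := by positivity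
    have := mul_le_mul_of_nonneg_left (add_le_add c1 (mul_le_mul_of_nonneg_left c2 d0)) hM0
    linarith
  · intro v hv
    exact sum_At_le hp hM0 fun i _ => tM _ (κ1 v hv).1 i
  · intro v
    exact hc_nonneg _ _ _
  · intro v hv
    exact hM _ (κ1 v (Finset.mem_sdiff.1 hv).1).1
  · intro v hv
    exact n0 _ (κ1 v hv).1
  · intro v hv
    obtain ⟨k1, k2⟩ := κ1 v (Finset.mem_sdiff.1 (hv v le_rfl (by omega))).1
    obtain ⟨j1, j2⟩ := κ1 (v + d') (Finset.mem_sdiff.1 (hv (v + d') (by omega) le_rfl)).1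
    have hkj : κ v ≤ κ (v + d') := by
      rcases Nat.eq_zero_or_pos d' with h | h
      · rw [h, Nat.add_zero]
      · by_contra hc
        have := lv_mono (R := R) (i := κ (v + d')) (j := κ v) (by omega)
        omega
    obtain ⟨n1, n2, n3⟩ := hN (κ v) k1 (κ (v + d')) j1 hkj (by rw [j2, k2]) (by
      rw [j2, k2]
      exact hv)
    have e1 : Stk.hc R.Q (x (κ (v + d'))) (G (κ (v + d'))) = Stk.hc R.Q (x (κ v)) (G (κ (v + d'))) :=
      hc_congr R.Q (fun ω ω' p1 p2 e => by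
          simp only [Prod.mk.injEq] at e
          rw [n1 ω p1, n1 ω' p2]
          exact e.1)
        (fun ω ω' p1 p2 e => by
          simp only [Prod.mk.injEq] at e
          rw [← n1 ω p1, ← n1 ω' p2]
          exact e.1)
        (fun _ _ _ _ e => e) (fun _ _ _ _ e => e)
    rw [e1]
    refine sum_At_le hp ?_ fun i hi => ?_
    · have := hc_gen R.Q (x (κ v)) (G (κ v)) (G (κ (v + d')))
      linarith
    · have g1 := hc_gen R.Q (x (κ v)) (fun ω => (E (κ v) i ω, (D (κ v) ω, Θ (κ v) i ω))) (G (κ (v + d')))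
      have g2 := n3 i hi
      have g3 : Stk.hc R.Q (x (κ v)) (fun ω => (D (κ v) ω, Θ (κ v) i ω)) ≤ Stk.hc R.Q (x (κ v)) (G (κ v)) := by
        refine hc_mono_right R.Q _ ?_
        intro ω ω' p1 p2 e
        simp only [Prod.mk.injEq] at e
        exact (hDG _ k1).2 ω ω' p1 p2 e.1
      show mi R.Q (x (κ v)) (E (κ v) i) (fun ω => (D (κ v) ω, Θ (κ v) i ω)) ≤ _
      unfold mi
      linarith

end sum

end Vale.Agent.P106.U.H416.F1P
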