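import Vale.Agent.P106.U.H416.F1P
import Vale.Agent.P106.U.H958.FzSum
import Vale.Agent.P106.U.H833.Zon

/-!
# P106 / U / H416 : F1+ for the young levels, deep phi regime (helper416)

* `rf_adv` : the precision of the own slope advances.
* `near_p` : cells, letters of the pair `(k, i)` given `mtr j b`, `j` later.
* `mi_two` : one information against two levels.
* **`f1p`** : the sum of the informations about one variable over a family of pairs.
-/

set_option autoImplicit false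

namespace Vale.Agent.P106.U.H416.F1P

open Finset Vale.Agent.P127 Vale.Agent.P127.Stk Vale.Agent.P127.U Vale.Agent.P106.W
open Vale.Agent.P127.U.CellD (q2 rd Nb q2_pos q2_le q2_add fl1_fl1)
open Vale.Agent.P106.U.Cell
open Vale.Agent.P106.U.S3 (Run lv At At' IdK IdP Pf LTh LDk mt mt0 exc kaL uL F2 F2o)
open Vale.Agent.P106.U.H785.Mtr (Mtd YI hy_mt)
open Vale.Agent.P106.U.H416.F1C

section lev

variable {Ω : Type} [Fintype Ω] {τ υ π : Type} {R : Run Ω τ υ} {p : Run.Num}

/-- **the precision of the own slope advances** along the phi regime -/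
theorem rf_adv (hp : R.Path p) (hx : R.m * R.b1 ≤ p.B₁) {i : ℕ} : ∀ (q : ℕ) {j : ℕ}, i ≤ j → j ≤ R.n →
    lv R i + q * p.J ≤ lv R j → (∀ t, i ≤ t → t < j → R.C.rf t ≤ R.m * R.b1 + R.C.rk t) →
    R.C.rf i + q * R.m ≤ R.C.rf j := by
  intro q
  induction q with
  | zero =>
    intro j hij hj _ _
    have := R.C.hf hij
    omega
  | succ q ih =>
    intro j hij hj hl hph
    have hJ := hp.J1
    have e0 : (q + 1) * p.J = q * p.J + p.J := by ring
    rw [e0] at hl
    obtain ⟨e, he1, he2, he3⟩ := ex_a hp (i := j) (by omega) (lv R i + q * p.J) (by omega)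
    have hie : i ≤ e := le_of_lv hp (i := e) (j := i) (by omega) he2 (by omega)
    have h1 := ih hie (by omega) (by omega) fun t h1 h2 => hph t h1 (by omega)
    have h2 : R.C.a e + p.J * R.m ≤ R.C.a j := by
      rw [a_mul hp (i := e) (by omega), a_mul hp (i := j) (by omega), ← Nat.add_mul]
      exact Nat.mul_le_mul_right _ (by omega)
    have h3 := hp.stop e (by omega)
    have h4 := hph e hie he1
    have h5 := hp.rK
    have h6 : R.C.rf e < R.C.rf j := by
      rcases hp.advF e j he1.le hj h2 with h | h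
      · exact h
      · omega
    have e1 := H833.lev_f hp (i := e) (by omega)
    have e2 := H833.lev_f hp (i := j) (by omega)
    rw [e1, e2] at h6
    have h7 : R.m * H833.fN R e < R.m * H833.fN R j := by omega
    have h8 := Nat.lt_of_mul_lt_mul_left h7
    have h9 : R.m * (H833.fN R e + 1) ≤ R.m * H833.fN R j := Nat.mul_le_mul_left _ h8
    have e3 : R.m * (H833.fN R e + 1) = R.m * H833.fN R e + R.m := by ring
    have e4 : (q + 1) * R.m = q * R.m + R.m := by ring
    rw [e4]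
    omega

end lev

section near

variable {Ω : Type} [Fintype Ω] {τ υ π : Type} {R : Run Ω τ υ} {p : Run.Num} {K K' c' g' gU : ℝ}
  {B bS bV μ : ℕ} {F : Pf R π} {Vs Xs : Finset ℕ} {o : Fin 7 → ℝ} {o' : ℕ → ℝ}

/-- indices of the levels `P0` : young, deep phi regime -/
structure PL (R : Run Ω τ υ) (F : Pf R π) (B : ℕ) (Vs Xs P0 : Finset ℕ) : Prop where
  id : ∀ t, t ≤ R.n → lv R t ∈ P0 → t ∈ IdP R F B Vs Xs
  top : ∀ u ∈ P0, u < lv R R.n

/-- numbers: `d0` blocks of time are enough -/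
structure DN (R : Run Ω τ υ) (p : Run.Num) (μ d0 : ℕ) : Prop where
  two : 2 * μ + R.m ≤ d0 * R.m
  fou : ∃ q, 4 * μ ≤ q * R.m ∧ q * p.J ≤ d0

variable (hok : R.Ok p K c' g' gU) (hf : F2 R p K B bS bV F Vs Xs) (h1 : 1 ≤ K)
  (hB : (100 * K) ^ 20 ≤ (B : ℝ)) (hr : 100 * (R.m * B) ≤ R.r0) (hμB : μ ≤ B) (hμ : μ ≤ R.C.μ)
  (hb : 8 * μ ≤ R.m * R.b1) (hK' : (100 * K) ^ 20 ≤ K')

include hok hf h1 hb hB hr hμB hμ hK'

/-- **the pair `(k, i)` given the cell at a later index** -/
theorem near_p (hx : R.m * R.b1 ≤ p.B₁) (h5 : 5 * μ ≤ R.m * B) {P0 : Finset ℕ} (hP : PL R F B Vs Xs P0) {d0 : ℕ}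
    (hd : DN R p μ d0) {k i j : ℕ} (hki : k ≤ i) (hiB : i ≤ k + B) (hij : i ≤ j) (hj : j ≤ R.n)
    (hl : lv R i + d0 ≤ lv R j) (hV : ∀ u, lv R k ≤ u → u ≤ lv R j → u ∈ P0) :
    Stk.hc R.Q (fun ω => (((mt0 R F μ o o').fz k k).cell i (R.m * R.b1) ω,
      (LDk ((mt0 R F μ o o').fz k k) (R.m * R.b1) k ω, LTh ((mt0 R F μ o o').fz k k) (R.m * R.b1) i ω)))
      ((mt0 R F μ o o').mtr j (R.m * R.b1)) ≤
      H958.cF K * H958.nF R (mt0 R F μ o o') μ o o' K' k i (R.m * R.b1) := by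
  classical
  have hp := hok.pth
  have m1 := hp.m1
  obtain ⟨t1, q, q1, q2'⟩ := hd
  have lki := lv_mono (R := R) hki
  have lij := lv_mono (R := R) hij
  have md : ∀ t, k ≤ t → t ≤ j → t ∈ IdP R F B Vs Xs := fun t h1 h2 =>
    hP.id t (h2.trans hj) (hV _ (lv_mono (R := R) h1) (lv_mono (R := R) h2))
  have mV : ∀ u, lv R k ≤ u → u ≤ lv R j → u ∈ Vs := by
    intro u h1 h2
    by_cases h3 : u = lv R j
    · rw [h3]
      exact (Finset.mem_filter.1 (md j (by omega) le_rfl)).2.1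
    · obtain ⟨e, he1, he2, he3⟩ := ex_a hp (i := j) (by omega) u (by omega)
      have hke : k ≤ e := le_of_lv hp (i := e) (j := k) (by omega) he2 (by omega)
      rw [← he3]
      exact (Finset.mem_filter.1 (md e hke he1.le)).2.1
  have fk := (Finset.mem_filter.1 (md k le_rfl (by omega))).2.2.2
  have hS := H958.lvP (μ := μ) hok hf hr hμB h5 (b := R.m * R.b1) fk hki hiB (by omega)
  have hd1 : 1 ≤ d0 := by
    by_contra hc
    have : d0 = 0 := by omega
    rw [this] at t1
    omega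
  have hrk := rk_low hp hf (k := k) (j := j) (by omega) (by omega) (by omega) mV
  have e2 : (d0 - 1) * R.m ≤ (lv R j - lv R k - 1) * R.m := Nat.mul_le_mul_right _ (by omega)
  have e3 : (d0 - 1) * R.m + R.m = d0 * R.m := by
    rw [← Nat.succ_mul]
    congr 1
    omega
  have ha : R.C.a i + 2 * μ ≤ R.C.a j := by
    have e4 : R.C.a i + d0 * R.m ≤ R.C.a j := by
      rw [a_mul hp (i := i) (by omega), a_mul hp (i := j) (by omega), ← Nat.add_mul]
      exact Nat.mul_le_mul_right _ hl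
    omega
  have hrf : R.C.rf i + 4 * μ ≤ R.C.rf j := by
    have h := rf_adv hp hx (i := i) q hij hj (by omega) fun t h1 h2 => by
      have := (Finset.mem_filter.1 (md t (by omega) (by omega))).2.2.2
      have := F.l0 t
      omega
    omega
  have hR : R.C.rf i + 4 * μ ≤ (mt0 R F μ o o').R j (R.m * R.b1) := by
    show R.C.rf i + 4 * μ ≤ min ((F.rk0 j - μ / 2) + R.m * R.b1) (R.C.rf j)
    have := F.m0 (hki.trans hij)
    omega
  exact H958.n1P hok hf h1 hB hr hμB hμ hK' ⟨by omega, mV _ le_rfl (by omega)⟩ ⟨by omega, mV _ (by omega) le_rfl⟩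
    hki hij ha hb (by omega) hR hS

end near

/-- one information against an earlier and a later cell -/
theorem mi_two {Ω : Type} [Fintype Ω] (P : Law Ω) {ξ α β γ δ δ' : Type*} (X : Ω → ξ) (E : Ω → γ) (D : Ω → α)
    (T : Ω → β) (G : Ω → δ) (G' : Ω → δ') :
    mi P X E (fun ω => (D ω, T ω)) ≤ (Stk.hc P X G + Stk.hc P G D) -
      (Stk.hc P X G' - Stk.hc P (fun ω => (E ω, (D ω, T ω))) G') := by
  have a1 := hc_gen P X (fun ω => (E ω, (D ω, T ω))) G'
  have a2 := hc_gen P X G D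
  have a3 : Stk.hc P X (fun ω => (D ω, T ω)) ≤ Stk.hc P X D :=
    hc_mono_right P _ fun ω ω' _ _ e => (Prod.mk.inj e).1
  unfold mi
  linarith

section main

variable {Ω : Type} [Fintype Ω] {τ υ π : Type} {R : Run Ω τ υ} {p : Run.Num} {K K' c' g' gU : ℝ}
  {B bS bV μ : ℕ} {F : Pf R π} {Vs Xs : Finset ℕ} {o : Fin 7 → ℝ} {o' : ℕ → ℝ}

/-- number of levels without predecessor -/
theorem card_pre (G : Finset ℕ) (d : ℕ) : (G.filter fun u => ¬ (d ≤ u ∧ u - d ∈ G)).card ≤ d * (Xt G).card := by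
  classical
  have h1 : (G.filter fun u => ¬ (d ≤ u ∧ u - d ∈ G)) ⊆ (Nt G ×ˢ range d).image fun x => x.1 + x.2 := by
    intro v hv
    rw [Finset.mem_filter] at hv
    obtain ⟨e, he, h4, h5⟩ := entr_between (G := G) (d := d) hv.1 (by
      intro hc
      exact hv.2 ⟨hc.1, hc.2 _ le_rfl (by omega)⟩)
    rw [Finset.mem_image]
    refine ⟨(e, v - e), Finset.mem_product.2 ⟨he, Finset.mem_range.2 (show v - e < d by omega)⟩, ?_⟩
    show e + (v - e) = v
    omega
  refine (Finset.card_le_card h1).trans (Finset.card_image_le.trans ?_)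
  rw [Finset.card_product, Finset.card_range, mul_comm, card_Nt]

variable (hok : R.Ok p K c' g' gU) (hf : F2 R p K B bS bV F Vs Xs) (h1 : 1 ≤ K)
  (hB : (100 * K) ^ 20 ≤ (B : ℝ)) (hr : 100 * (R.m * B) ≤ R.r0) (hμB : μ ≤ B) (hμ : μ ≤ R.C.μ)
  (hb : 8 * μ ≤ R.m * R.b1) (hK' : (100 * K) ^ 20 ≤ K')

include hok hf h1 hb hB hr hμB hμ hK'

open Classical in
/-- **F1+, young levels, deep phi regime**, over a family of pairs -/
theorem f1p (hx : R.m * R.b1 ≤ p.B₁) (h5 : 5 * μ ≤ R.m * B) (ho : F2o R p B bS bV F Vs Xs μ K' o o') {P0 : Finset ℕ}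
    (hP : PL R F B Vs Xs P0) {d0 Dm : ℕ} (hd : DN R p μ d0) (hDm : Dm ≤ B) {ι : Type*} (G : Finset ι) (k i d : ι → ℕ)
    (hG : ∀ x ∈ G, k x ≤ R.n ∧ lv R (k x) ∈ P0 ∧ i x ∈ At' R p B (d x) (k x) ∧ d x ≤ Dm ∧ i x ≤ R.n)
    (N Nf : ℕ) (hN : ∀ s, (G.filter fun x => k x = s).card ≤ N) (hNf : ∀ v, (G.filter fun x => lv R (k x) = v).card ≤ Nf)
    {ξ : Type*} (X : Ω → ξ) {H : ℝ} (hH0 : 0 ≤ H)
    (hH : ∀ t, t ≤ R.n → lv R t ∈ P0 → Stk.hc R.Q X ((mt0 R F μ o o').mtr t (R.m * R.b1)) ≤ H) :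
    ∑ x ∈ G, mi R.Q X (((mt0 R F μ o o').fz (k x) (k x)).cell (i x) (R.m * R.b1))
      (fun ω => (LDk ((mt0 R F μ o o').fz (k x) (k x)) (R.m * R.b1) (k x) ω,
        LTh ((mt0 R F μ o o').fz (k x) (k x)) (R.m * R.b1) (i x) ω)) ≤
      Nf * H * ((4 * d0 + 2 * (d0 + Dm) : ℕ) * (Xt P0).card) +
        (H958.cF K * (2 * Nf * (8 * Real.sqrt (P0.card * H958.xF R p μ K' 0))) +
        H958.cF K * (4 * Real.sqrt (G.card * (N * ((Dm + 1) * H958.xF R p μ K' Dm))))) := by
  have hp := hok.pth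
  have m1 := hp.m1
  set D := mt0 R F μ o o' with hD
  set b := R.m * R.b1 with hbd
  have cF0 : 0 ≤ H958.cF K := by
    obtain ⟨z1, z2, z3⟩ := H958.z_nn (4 * K)
    unfold H958.cF
    have := z3 ⌈641 * (4 * K) ^ 2⌉₊
    linarith
  -- the a-step of a level
  have exJ : ∀ v ∈ P0, ∃ j < R.n, R.IsA j ∧ lv R j = v := fun v hv =>
    ex_a hp (i := R.n) (by omega) v (hP.top v hv)
  set J : ℕ → ℕ := fun v => if h : v ∈ P0 then (exJ v h).choose else 0 with hJ
  have J1 : ∀ v ∈ P0, J v < R.n ∧ R.IsA (J v) ∧ lv R (J v) = v := fun v hv => by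
    simp only [hJ, dif_pos hv]
    exact (exJ v hv).choose_spec
  -- terms
  set mic : ι → ℝ := fun x => mi R.Q X ((D.fz (k x) (k x)).cell (i x) b)
      (fun ω => (LDk (D.fz (k x) (k x)) b (k x) ω, LTh (D.fz (k x) (k x)) b (i x) ω)) with hmic
  set nfp : ι → ℝ := fun x => H958.nF R D μ o o' K' (k x) (i x) b with hnfp
  set nfv : ℕ → ℝ := fun v => H958.nF R D μ o o' K' (J v) (J v) b with hnfv
  have nF0 : ∀ k i, 0 ≤ H958.nF R D μ o o' K' k i b := fun k i => by
    unfold H958.nF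
    positivity
  have mi_le : ∀ x ∈ G, mic x ≤ H := by
    intro x hx
    obtain ⟨g1, g2, _⟩ := hG x hx
    refine (mi_le_hc R.Q _ _ _).trans ((hc_mono_right R.Q _ ?_).trans (hH (k x) g1 g2))
    intro ω ω' _ _ e
    simp only [Prod.mk.injEq] at e
    have e1 := e.1
    unfold LDk at e1
    rw [Prod.mk.injEq] at e1
    exact (Mtd.fz_cell_iff D (le_refl (k x)) _ _ _).1 e1.1
  set T : ℕ → ℝ := fun v => ∑ x ∈ G.filter (fun x => lv R (k x) = v), mic x with hT
  have Tle : ∀ v, T v ≤ Nf * H := by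
    intro v
    refine (Finset.sum_le_card_nsmul _ _ H fun x hx => mi_le x (Finset.mem_filter.1 hx).1).trans ?_
    rw [nsmul_eq_mul]
    exact mul_le_mul_of_nonneg_right (by exact_mod_cast hNf v) hH0
  have T0 : ∀ v, 0 ≤ T v := fun v => Finset.sum_nonneg fun x _ => mi_nonneg _ _ _ _
  have NH : 0 ≤ (Nf : ℝ) * H := by positivity
  have tot : ∑ x ∈ G, mic x = ∑ v ∈ P0, T v := by
    rw [hT]
    exact (Finset.sum_fiberwise_of_maps_to (fun x hx => (hG x hx).2.1) _).symm
  -- the later half: levels with predecessor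
  have half : ∑ v ∈ P0, T v ≤ ∑ v ∈ P0, T (v + d0) + Nf * H * (d0 * (Xt P0).card) := by
    have e1 : ∑ v ∈ P0, T v = ∑ v ∈ P0.filter (fun u => d0 ≤ u ∧ u - d0 ∈ P0), T v +
        ∑ v ∈ P0.filter (fun u => ¬ (d0 ≤ u ∧ u - d0 ∈ P0)), T v :=
      (Finset.sum_filter_add_sum_filter_not P0 _ _).symm
    have e2 : ∑ v ∈ P0.filter (fun u => ¬ (d0 ≤ u ∧ u - d0 ∈ P0)), T v ≤ Nf * H * (d0 * (Xt P0).card) := by
      refine (Finset.sum_le_card_nsmul _ _ _ fun v _ => Tle v).trans ?_
      rw [nsmul_eq_mul, mul_comm]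
      refine mul_le_mul_of_nonneg_left ?_ NH
      exact_mod_cast card_pre P0 d0
    have e3 : ∑ v ∈ P0.filter (fun u => d0 ≤ u ∧ u - d0 ∈ P0), T v ≤ ∑ v ∈ P0, T (v + d0) := by
      have e : ∑ v ∈ P0, T (v + d0) = ∑ v ∈ P0.image (fun v => v + d0), T v :=
        (Finset.sum_image fun a _ b _ h => by simpa using h).symm
      rw [e]
      refine Finset.sum_le_sum_of_subset_of_nonneg ?_ fun v _ _ => T0 v
      intro v hv
      rw [Finset.mem_filter] at hv
      rw [Finset.mem_image]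
      exact ⟨v - d0, hv.2.2, by have := hv.2.1; omega⟩
    linarith
  set nr : ℕ → ℝ := fun v => H958.cF K * (2 * Nf * nfv v +
    ∑ x ∈ G.filter (fun x => lv R (k x) = v + d0), nfp x) with hnr
  have sp0 : ∀ v, 0 ≤ ∑ x ∈ G.filter (fun x => lv R (k x) = v + d0), nfp x := fun v =>
    Finset.sum_nonneg fun x _ => nF0 _ _
  have main := tele (A := P0) (G := P0) (d := d0 + (Dm + d0)) (T := fun v => T (v + d0))
    (f := fun v => if v ∈ P0 then Nf * Stk.hc R.Q X (D.mtr (J v) b) else 0) (nr := nr) NH (Finset.Subset.refl _)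
    (fun v _ => Tle _) (fun v => ?_) (fun v hv => ?_) (fun v _ => mul_nonneg cF0 (add_nonneg (mul_nonneg (by positivity)
      (nF0 _ _)) (sp0 v))) (fun v hv => ?_)
  · rw [tot]
    refine (half.trans (add_le_add main le_rfl)).trans ?_
    -- the errors
    have s1 : ∑ v ∈ P0, nfv v ≤ 8 * Real.sqrt (P0.card * H958.xF R p μ K' 0) := by
      have h := H958.sum4 (R := R) (μ := μ) (o := o) (o' := o') (K' := K') D (b1 := b) P0 (fun v => J v) (fun v => J v) (fun _ => 0) (IdP R F B Vs Xs)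
        (fun _ k => {k}) 1 0 (X := 2 * H958.xF R p μ K' 0) (fun v hv => ⟨hP.id _ (J1 v hv).1.le (by rw [(J1 v hv).2.2]; exact hv),
          Finset.mem_singleton_self _, le_rfl⟩) (fun s => ?_) ?_ ?_ ?_
      · refine h.trans ?_
        have e : (P0.card : ℝ) * (((1 : ℕ) : ℝ) * ((((0 : ℕ) : ℝ) + 1) * (2 * H958.xF R p μ K' 0))) =
            2 * (P0.card * H958.xF R p μ K' 0) := by push_cast; ring
        rw [e]
        have x0 := H958.xF_nn R p μ K' 0
        have hs : Real.sqrt (2 * (P0.card * H958.xF R p μ K' 0)) ≤ 2 * Real.sqrt (P0.card * H958.xF R p μ K' 0) := by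
          have y0 : 0 ≤ (P0.card : ℝ) * H958.xF R p μ K' 0 := by positivity
          rw [Real.sqrt_le_left (by positivity), mul_pow, Real.sq_sqrt y0]
          linarith
        linarith
      · rw [Finset.card_le_one]
        intro v hv v' hv'
        rw [Finset.mem_filter] at hv hv'
        rw [← (J1 v hv.1).2.2, ← (J1 v' hv'.1).2.2, hv.2, hv'.2]
      · intro d' _
        have h0 := ho.offP 0 (Nat.zero_le _)
        have e : K' ^ 2 * (((0 : ℕ) : ℝ) + 1) ^ 2 * ((R.n : ℝ) + p.J + 1) * q2 (μ / 4) = H958.xF R p μ K' 0 := by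
          unfold H958.xF
          push_cast
          ring
        rw [e] at h0
        have hh : ∑ k ∈ IdP R F B Vs Xs, exc R.Q (D.fz k k) K' k b ≤ H958.xF R p μ K' 0 := by
          refine le_trans (Finset.sum_le_sum fun k _ => ?_) h0
          have a2 := exc_nonneg (D.fz k k) R.Q K' k bV
          have a3 : 0 ≤ ∑ i ∈ At' R p B 0 k, exc R.Q (D.fz k k) K' i b := Finset.sum_nonneg fun i _ => exc_nonneg _ _ _ _ _
          show _ ≤ exc R.Q (D.fz k k) K' k b + exc R.Q (D.fz k k) K' k bV + ∑ i ∈ At' R p B 0 k, exc R.Q (D.fz k k) K' i b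
          linarith
        have hh2 : ∑ k ∈ IdP R F B Vs Xs, (exc R.Q (D.fz k k) K' k b + ∑ i ∈ ({k} : Finset ℕ), exc R.Q (D.fz k k) K' i b) =
            2 * ∑ k ∈ IdP R F B Vs Xs, exc R.Q (D.fz k k) K' k b := by
          rw [Finset.mul_sum]
          refine Finset.sum_congr rfl fun k _ => ?_
          rw [Finset.sum_singleton]
          ring
        show ∑ k ∈ IdP R F B Vs Xs, (exc R.Q (D.fz k k) K' k b + ∑ i ∈ ({k} : Finset ℕ), exc R.Q (D.fz k k) K' i b) ≤ _
        rw [hh2]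
        linarith
      · have h := H958.offL_le ho (Id := IdP R F B Vs Xs) (fun k hk => (Finset.mem_Icc.1 (Finset.mem_filter.1 hk).1).2) 0
        have x0 := H958.xF_nn R p μ K' 0
        linarith
      · have x0 := H958.xF_nn R p μ K' 0
        linarith
    have s2 : ∑ v ∈ P0, ∑ x ∈ G.filter (fun x => lv R (k x) = v + d0), nfp x ≤ ∑ x ∈ G, nfp x := by
      have e : ∑ v ∈ P0, ∑ x ∈ G.filter (fun x => lv R (k x) = v + d0), nfp x =
          ∑ v ∈ P0.image (fun v => v + d0), ∑ x ∈ G.filter (fun x => lv R (k x) = v), nfp x :=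
        (Finset.sum_image (f := fun v => ∑ x ∈ G.filter (fun x => lv R (k x) = v), nfp x) fun a _ b _ h => by
          simpa using h).symm
      rw [e]
      rw [← Finset.sum_fiberwise_of_maps_to (s := G) (t := (P0.image (fun v => v + d0)) ∪ P0) (g := fun x => lv R (k x))
        (fun x hx => Finset.mem_union_right _ (hG x hx).2.1)]
      exact Finset.sum_le_sum_of_subset_of_nonneg Finset.subset_union_left fun v _ _ =>
        Finset.sum_nonneg fun x _ => nF0 _ _
    have s3 : ∑ x ∈ G, nfp x ≤ 4 * Real.sqrt (G.card * (N * ((Dm + 1) * H958.xF R p μ K' Dm))) :=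
      H958.n2P ho G k i d N Dm hDm (fun x hx => ⟨hP.id _ (hG x hx).1 (hG x hx).2.1, (hG x hx).2.2.1, (hG x hx).2.2.2.1⟩) hN
    have s4 : ∑ v ∈ P0, nr v ≤ H958.cF K * (2 * Nf * (8 * Real.sqrt (P0.card * H958.xF R p μ K' 0))) +
        H958.cF K * (4 * Real.sqrt (G.card * (N * ((Dm + 1) * H958.xF R p μ K' Dm)))) := by
      rw [hnr, ← Finset.mul_sum, Finset.sum_add_distrib, ← Finset.mul_sum, ← mul_add]
      refine mul_le_mul_of_nonneg_left (add_le_add (mul_le_mul_of_nonneg_left s1 (by positivity)) (s2.trans s3)) cF0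
    have e : Nf * H * (((P0 \ P0).card : ℝ) + 2 * ((d0 + (Dm + d0) : ℕ) : ℝ) * (Xt P0).card) + Nf * H * (d0 * (Xt P0).card) ≤
        Nf * H * ((4 * d0 + 2 * (d0 + Dm) : ℕ) * (Xt P0).card) := by
      rw [Finset.sdiff_self, Finset.card_empty, ← mul_add]
      refine mul_le_mul_of_nonneg_left ?_ NH
      push_cast
      have : (0 : ℝ) ≤ (Xt P0).card := Nat.cast_nonneg _
      have : (0 : ℝ) ≤ d0 := Nat.cast_nonneg _
      nlinarith
    linarith
  · show 0 ≤ (if v ∈ P0 then Nf * Stk.hc R.Q X (D.mtr (J v) b) else 0)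
    split_ifs
    · exact mul_nonneg (Nat.cast_nonneg _) (hc_nonneg _ _ _)
    · exact le_rfl
  · show (if v ∈ P0 then Nf * Stk.hc R.Q X (D.mtr (J v) b) else 0) ≤ _
    rw [if_pos hv]
    exact mul_le_mul_of_nonneg_left (hH _ (J1 v hv).1.le (by rw [(J1 v hv).2.2]; exact hv)) (Nat.cast_nonneg _)
  · -- the step
    have v0 := hv v le_rfl (by omega)
    have v1 := hv (v + (d0 + (Dm + d0))) (by omega) le_rfl
    show T (v + d0) ≤ (if v ∈ P0 then Nf * Stk.hc R.Q X (D.mtr (J v) b) else 0) -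
      (if v + (d0 + (Dm + d0)) ∈ P0 then Nf * Stk.hc R.Q X (D.mtr (J (v + (d0 + (Dm + d0)))) b) else 0) + nr v
    rw [if_pos v0, if_pos v1]
    obtain ⟨p1, p2, p3⟩ := J1 _ v0
    obtain ⟨r1, r2, r3⟩ := J1 _ v1
    set I := J v with hI
    set W := J (v + (d0 + (Dm + d0))) with hW
    set hI' := Stk.hc R.Q X (D.mtr I b) with hhI
    set hW' := Stk.hc R.Q X (D.mtr W b) with hhW
    have hd1 : 1 ≤ d0 := by
      by_contra hc
      have h := hd.two
      have : d0 = 0 := by omega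
      rw [this] at h
      omega
    have IW : I ≤ W := by
      by_contra hc
      have := lv_mono (R := R) (i := W) (j := I) (by omega)
      omega
    -- the cell of the level `v` given a later cell
    have nI : ∀ j, I ≤ j → j ≤ R.n → lv R I + d0 ≤ lv R j → lv R j ≤ v + (d0 + (Dm + d0)) →
        Stk.hc R.Q (D.mtr I b) (D.mtr j b) ≤ H958.cF K * nfv v := by
      intro j h1' h2' h3' h4'
      refine le_trans (hc_mono_left R.Q ?_) (near_p (o := o) (o' := o') hok hf h1 hB hr hμB hμ hb hK' hx h5 hP hd (k := I) (i := I) (j := j) le_rfl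
        (by omega) h1' h2' h3' fun u hu1 hu2 => hv u (by omega) (by omega))
      intro ω ω' _ _ e
      exact (Mtd.fz_cell_iff D (le_refl I) _ _ _).1 (congrArg (fun z => z.1.1) e)
    have a0 : 0 ≤ hI' - hW' + H958.cF K * nfv v := by
      have e1 := nI W IW r1.le (by omega) (by omega)
      have e2 := hc_gen R.Q X (D.mtr I b) (D.mtr W b)
      linarith
    have per : ∀ x ∈ G.filter (fun x => lv R (k x) = v + d0), mic x ≤
        (hI' - hW' + H958.cF K * nfv v) + H958.cF K * nfp x := by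
      intro x hx'
      rw [Finset.mem_filter] at hx'
      obtain ⟨g1, g2, g3, g4, g5⟩ := hG x hx'.1
      have hA := (Finset.mem_filter.1 g3).2
      have li : lv R (i x) = lv R (k x) + d x := by
        have e1 := a_mul hp (show i x ≤ R.n + p.J from hA.2.2.1)
        have e2 := a_mul hp (show k x ≤ R.n + p.J by omega)
        have e3 := hA.2.2.2.1
        rw [e1, e2, ← Nat.add_mul] at e3
        exact Nat.eq_of_mul_eq_mul_right m1 e3
      have Ik : I ≤ k x := by
        by_contra hc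
        have := lv_mono (R := R) (i := k x) (j := I) (by omega)
        omega
      have iW : i x ≤ W := by
        by_contra hc
        have := lv_mono (R := R) (i := W) (j := i x) (by omega)
        omega
      have e1 := mi_two R.Q X ((D.fz (k x) (k x)).cell (i x) b) (LDk (D.fz (k x) (k x)) b (k x))
        (LTh (D.fz (k x) (k x)) b (i x)) (D.mtr I b) (D.mtr W b)
      have e2 : Stk.hc R.Q (D.mtr I b) (LDk (D.fz (k x) (k x)) b (k x)) ≤ H958.cF K * nfv v := by
        refine le_trans (hc_mono_right R.Q _ ?_) (nI (k x) Ik g1 (by omega) (by omega))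
        intro ω ω' _ _ e
        unfold LDk at e
        rw [Prod.mk.injEq] at e
        exact (Mtd.fz_cell_iff D (le_refl (k x)) _ _ _).1 e.1
      have e3 := near_p (o := o) (o' := o') hok hf h1 hB hr hμB hμ hb hK' hx h5 hP hd (k := k x) (i := i x) (j := W) hA.1.le hA.2.1
        iW r1.le (by omega) fun u hu1 hu2 => hv u (by omega) (by omega)
      show mi R.Q X ((D.fz (k x) (k x)).cell (i x) b)
        (fun ω => (LDk (D.fz (k x) (k x)) b (k x) ω, LTh (D.fz (k x) (k x)) b (i x) ω)) ≤ _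
      linarith
    have s1 := Finset.sum_le_sum per
    rw [Finset.sum_add_distrib, Finset.sum_const, nsmul_eq_mul, ← Finset.mul_sum] at s1
    have s2 : ((G.filter fun x => lv R (k x) = v + d0).card : ℝ) * (hI' - hW' + H958.cF K * nfv v) ≤
        Nf * (hI' - hW' + H958.cF K * nfv v) :=
      mul_le_mul_of_nonneg_right (by exact_mod_cast hNf _) a0
    have s3 : 0 ≤ (Nf : ℝ) * (H958.cF K * nfv v) := mul_nonneg (Nat.cast_nonneg _) (mul_nonneg cF0 (nF0 _ _))
    show ∑ x ∈ G.filter (fun x => lv R (k x) = v + d0), mic x ≤ _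
    have e : nr v = Nf * (H958.cF K * nfv v) + Nf * (H958.cF K * nfv v) +
        H958.cF K * ∑ x ∈ G.filter (fun x => lv R (k x) = v + d0), nfp x := by
      rw [hnr]
      ring
    rw [e]
    have e' : (Nf : ℝ) * (hI' - hW' + H958.cF K * nfv v) = Nf * hI' - Nf * hW' + Nf * (H958.cF K * nfv v) := by ring
    linarith

end main

end Vale.Agent.P106.U.H416.F1P
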