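import Vale.Agent.P106.U.H416.PairW
import Vale.Agent.P106.U.H572.HeisN
import Vale.Agent.P106.U.H457.UnkD

/-!
# P106 / U / H416 : THE N-STEP OF TYPE (ii) with digits

`satH_pair` : 572's `satH_weak` with the weight computed from the digits: `t` (time), `y` (direction), `k` (curvature); `|A| ≤ 2 ^ b`.
* two times at distance `≥ 2` digits differ by `q2 g`; two directions at distance `≥ 2` digits differ by `q2 g`; two curvatures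
  at distance `≥ 2` digits differ by `q2 r`;
* given `D`, outside an event of probability `pA`, two copies of the curvature digit are at distance `≤ 2` with probability `≤ 1 - c`.
Then the loss is `12 + 2 b + 2 m (pA + 6 colp t + 300 colp y) + 10 · 2 ^ (4 m + 14 g + 2 r + 26) / c · (√ι₁ + √ι₂)`.
`hA_of`, `satH_unk` : the hypothesis on the curvature in 457's form (`unk` given `D`).
-/

set_option autoImplicit false

namespace Vale.Agent.P106.U.H416.HeisW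

open Finset Vale.Agent.P127 Vale.Agent.P127.Stk Vale.Agent.P127.U.Pin Vale.Agent.P127.U.Mic
open Vale.Agent.P127.U.CellD Vale.Agent.P127.TV
open Vale.Agent.P106.TV Vale.Agent.P106.U.H683
open Vale.Agent.P106.U Vale.Agent.P106.U.H572 Vale.Agent.P106.U.H416.Cyc Vale.Agent.P106.U.H416.PairW

variable {Ω : Type} [Fintype Ω] {S U V Z : Type*}

/-- the commutator of two chains with the same pair of times -/
theorem comH_tri (s k : ℝ) (x y z : ℝ × ℝ) :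
    comH (FH s k x y) (FH s k x z) = s ^ 2 / 2 * tri x.1 x.2 y.1 y.2 z.1 z.2 := by
  rw [comH_eq, tri_eq]
  unfold qH
  ring

/-- **the weight is `1`** -/
theorem chiH_one (b : ℕ) (Sf Tf : U → V → V → ℝ) {g r : ℕ} (d : U) (θ : V) (θs : Fin 2 → V)
    (xs : Fin 4 → ℝ × ℝ) (hS1 : ∀ i, |Sf d θ (θs i)| ≤ 1) (hT1 : ∀ i, |Tf d θ (θs i)| ≤ 1)
    (hx : ∀ j, OkX b (xs j)) (hS : q2 g ≤ |Sf d θ (θs 0)|)
    (hd : ∀ i j, i ≠ j → q2 g ≤ |(xs i).1 - (xs j).1|) (hA : q2 r ≤ |(xs 0).2 - (xs 1).2|) :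
    1 ≤ chiH b Sf Tf (q2 (7 * g + r + 7)) d θ θs xs := by
  have hG : GoodH b Sf Tf (q2 (7 * g + r + 7)) d θ θs xs := by
    refine ⟨fun i => ⟨hS1 i, hT1 i⟩, hx, ?_⟩
    have h := pair_size (y := fun j => (xs j).1) (A := fun j => (xs j).2) hS
      (fun j => ⟨(hx j).1, (hx j).2.1⟩) hd hA
    simp only [← comH_tri _ (Tf d θ (θs 0))] at h
    rcases h with h | h | h
    · exact ⟨0, 0, 0, 1, h⟩
    · exact ⟨0, 0, 0, 2, h⟩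
    · exact ⟨0, 0, 1, 2, h⟩
  unfold chiH
  rw [if_pos hG]

variable (P : Law Ω) {D : Ω → U} {Θ : Ω → V} {W : Ω → S} {E : Ω → Z} {e : U → S → ℝ × ℝ}
  {X : Ω → Fin 4 → ℝ} {M : Ω → ℝ} {Sf Tf : U → V → V → ℝ} {ρ : ℝ}

/-- the weight of the pair M-step from the digits -/
theorem weightH {b g r : ℕ} (t y k : Ω → ℤ)
    (hS1 : ∀ ω ω', 0 < P.w ω → 0 < P.w ω' → D ω' = D ω → |Sf (D ω) (Θ ω) (Θ ω')| ≤ 1)
    (hT1 : ∀ ω ω', 0 < P.w ω → 0 < P.w ω' → D ω' = D ω → |Tf (D ω) (Θ ω) (Θ ω')| ≤ 1)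
    (he1 : ∀ ω ω', 0 < P.w ω → 0 < P.w ω' → D ω' = D ω → OkX b (e (D ω) (W ω')))
    (hS : ∀ ω ω', 0 < P.w ω → 0 < P.w ω' → D ω' = D ω → ¬ |t ω - t ω'| ≤ ((1 : ℕ) : ℤ) →
      q2 g ≤ |Sf (D ω) (Θ ω) (Θ ω')|)
    (hy : ∀ ω a b, 0 < P.w ω → 0 < P.w a → 0 < P.w b → D a = D ω → D b = D ω →
      ¬ |y a - y b| ≤ ((1 : ℕ) : ℤ) → q2 g ≤ |(e (D ω) (W a)).1 - (e (D ω) (W b)).1|)
    (hk : ∀ ω a b, 0 < P.w ω → 0 < P.w a → 0 < P.w b → D a = D ω → D b = D ω →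
      ¬ |k a - k b| ≤ ((1 : ℕ) : ℤ) → q2 r ≤ |(e (D ω) (W a)).2 - (e (D ω) (W b)).2|)
    {c pA : ℝ} (hc : 0 < c)
    (hA : P.ex (fun ω => Law.ind (¬ (P.cond D (D ω)).ex (fun a => (P.cond D (D ω)).ex fun b =>
      Law.ind (|k a - k b| ≤ ((2 : ℕ) : ℤ))) ≤ 1 - c)) ≤ pA) :
    P.ex (fun ω => Law.ind (¬ c / 10 ≤ avG P D Θ W e (chiH b Sf Tf (q2 (7 * g + r + 7))) ω)) ≤
      pA + 6 * colp P t D + 300 * colp P y D := by
  refine weight P D Θ W e _ (fun _ _ _ _ => chiH_nonneg _ _ _ _ _ _ _ _) (0 : Fin 2) t y k hc ?_ hA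
  intro ω z x p pz px gt gy gk
  exact chiH_one b Sf Tf (D ω) (Θ ω) _ _ (fun i => hS1 ω _ p (pz i).1 (pz i).2)
    (fun i => hT1 ω _ p (pz i).1 (pz i).2) (fun j => he1 ω _ p (px j).1 (px j).2)
    (hS ω _ p (pz 0).1 (pz 0).2 gt)
    (fun i j hij => hy ω _ _ p (px i).1 (px j).1 (px i).2 (px j).2 (gy i j hij))
    (hk ω _ _ p (px 0).1 (px 1).1 (px 0).2 (px 1).2 gk)

/-- **THE N-STEP OF TYPE (ii)** from the digits -/
theorem satH_pair (geo : GeoR P D Θ W E e (RH X M Sf Tf ρ)) {b m g r p : ℕ} (hp : p ≤ 2 * m)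
    (t y k : Ω → ℤ)
    (hS1 : ∀ ω ω', 0 < P.w ω → 0 < P.w ω' → D ω' = D ω → |Sf (D ω) (Θ ω) (Θ ω')| ≤ 1)
    (hT1 : ∀ ω ω', 0 < P.w ω → 0 < P.w ω' → D ω' = D ω → |Tf (D ω) (Θ ω) (Θ ω')| ≤ 1)
    (he1 : ∀ ω ω', 0 < P.w ω → 0 < P.w ω' → D ω' = D ω → OkX b (e (D ω) (W ω')))
    (hS : ∀ ω ω', 0 < P.w ω → 0 < P.w ω' → D ω' = D ω → ¬ |t ω - t ω'| ≤ ((1 : ℕ) : ℤ) →
      q2 g ≤ |Sf (D ω) (Θ ω) (Θ ω')|)
    (hy : ∀ ω a b, 0 < P.w ω → 0 < P.w a → 0 < P.w b → D a = D ω → D b = D ω →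
      ¬ |y a - y b| ≤ ((1 : ℕ) : ℤ) → q2 g ≤ |(e (D ω) (W a)).1 - (e (D ω) (W b)).1|)
    (hk : ∀ ω a b, 0 < P.w ω → 0 < P.w a → 0 < P.w b → D a = D ω → D b = D ω →
      ¬ |k a - k b| ≤ ((1 : ℕ) : ℤ) → q2 r ≤ |(e (D ω) (W a)).2 - (e (D ω) (W b)).2|)
    (hρ0 : 0 ≤ ρ) (hρ : 2 ^ (2 * m + 7 * g + r + b + 15) * ρ ≤ 1) {c pA ι₁ ι₂ : ℝ} (hc0 : 0 < c)
    (hA : P.ex (fun ω => Law.ind (¬ (P.cond D (D ω)).ex (fun a => (P.cond D (D ω)).ex fun b =>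
      Law.ind (|k a - k b| ≤ ((2 : ℕ) : ℤ))) ≤ 1 - c)) ≤ pA)
    (h1 : mi P (fun ω => e (D ω) (W ω)) E (fun ω => (D ω, Θ ω)) ≤ ι₁) (h2 : mi P Θ W D ≤ ι₂) :
    p * Real.log 2 - (12 + 2 * b + 2 * m * (pA + 6 * colp P t D + 300 * colp P y D) +
      10 * 2 ^ (4 * m + 14 * g + 2 * r + 26) / c * (Real.sqrt ι₁ + Real.sqrt ι₂)) ≤
    hc P (fun ω => lbh 1 (X ω) (M ω)) (fun ω => (lbh (2 ^ p) (X ω) (M ω), (D ω, Θ ω))) := by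
  have hw := weightH P t y k hS1 hT1 he1 hS hy hk hc0 hA
  have main := satH_weak P geo b m (7 * g + r + 7) p hp hρ0
    (by rw [show 2 * m + (7 * g + r + 7) + b + 8 = 2 * m + 7 * g + r + b + 15 by ring]; exact hρ)
    (by linarith : (0 : ℝ) < c / 10) hw h1 h2
  have e1 : (2 : ℝ) ^ (4 * m + 2 * (7 * g + r + 7) + 12) / (c / 10) =
      10 * 2 ^ (4 * m + 14 * g + 2 * r + 26) / c := by
    rw [show 4 * m + 2 * (7 * g + r + 7) + 12 = 4 * m + 14 * g + 2 * r + 26 by ring]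
    field_simp
  rw [e1] at main
  exact main

/-- the hypothesis on the two copies of the curvature digit from 457's form -/
theorem hA_of {κ : Type*} (k : Ω → ℤ) (B : κ → Ω → Prop) (x : Ω → κ) {c pA : ℝ}
    (hB : ∀ a b, 0 < P.w a → 0 < P.w b → |k a - k b| ≤ ((2 : ℕ) : ℤ) → B (x a) b)
    (hu : P.ex (fun ω => Law.ind (∃ x, (1 - c) * P.pr D (D ω) <
      prE P (fun ω' => D ω' = D ω ∧ B x ω'))) ≤ pA) :
    P.ex (fun ω => Law.ind (¬ (P.cond D (D ω)).ex (fun a => (P.cond D (D ω)).ex fun b =>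
      Law.ind (|k a - k b| ≤ ((2 : ℕ) : ℤ))) ≤ 1 - c)) ≤ pA := by
  refine le_trans (P.ex_mono fun ω hω => ind_mono ?_) hu
  intro hcon
  by_contra hno
  rw [not_exists] at hno
  refine hcon (mass_pair _ (fun a b => |k a - k b| ≤ ((2 : ℕ) : ℤ)) fun a ha => ?_)
  have hz := P.pr_pos D hω
  have ha' := cond_supp P D hz ha
  have h1 := not_lt.1 (hno (x a))
  have h2 : (P.cond D (D ω)).ex (fun b => Law.ind (|k a - k b| ≤ ((2 : ℕ) : ℤ))) ≤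
      (P.cond D (D ω)).ex (fun b => Law.ind (B (x a) b)) := by
    refine Law.ex_mono _ fun b hb => ind_mono (hB a b ha'.2 (cond_supp P D hz hb).2)
  refine h2.trans ?_
  rw [cond_ex_ind P D (fun b => B (x a) b) hz, div_le_iff₀ hz]
  refine le_trans (le_of_eq ?_) h1
  rw [H457.prE_eq_ex]
  refine P.ex_congr fun b _ => ?_
  congr 1
  exact propext and_comm

/-- **THE N-STEP OF TYPE (ii)** from the digits and 457's `unk` given `D` -/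
theorem satH_unk {κ : Type*} (geo : GeoR P D Θ W E e (RH X M Sf Tf ρ)) {b m g r p : ℕ}
    (hp : p ≤ 2 * m) (t y k : Ω → ℤ)
    (hS1 : ∀ ω ω', 0 < P.w ω → 0 < P.w ω' → D ω' = D ω → |Sf (D ω) (Θ ω) (Θ ω')| ≤ 1)
    (hT1 : ∀ ω ω', 0 < P.w ω → 0 < P.w ω' → D ω' = D ω → |Tf (D ω) (Θ ω) (Θ ω')| ≤ 1)
    (he1 : ∀ ω ω', 0 < P.w ω → 0 < P.w ω' → D ω' = D ω → OkX b (e (D ω) (W ω')))
    (hS : ∀ ω ω', 0 < P.w ω → 0 < P.w ω' → D ω' = D ω → ¬ |t ω - t ω'| ≤ ((1 : ℕ) : ℤ) →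
      q2 g ≤ |Sf (D ω) (Θ ω) (Θ ω')|)
    (hy : ∀ ω a b, 0 < P.w ω → 0 < P.w a → 0 < P.w b → D a = D ω → D b = D ω →
      ¬ |y a - y b| ≤ ((1 : ℕ) : ℤ) → q2 g ≤ |(e (D ω) (W a)).1 - (e (D ω) (W b)).1|)
    (hk : ∀ ω a b, 0 < P.w ω → 0 < P.w a → 0 < P.w b → D a = D ω → D b = D ω →
      ¬ |k a - k b| ≤ ((1 : ℕ) : ℤ) → q2 r ≤ |(e (D ω) (W a)).2 - (e (D ω) (W b)).2|)
    (hρ0 : 0 ≤ ρ) (hρ : 2 ^ (2 * m + 7 * g + r + b + 15) * ρ ≤ 1) {c pA ι₁ ι₂ : ℝ} (hc0 : 0 < c)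
    (B : κ → Ω → Prop) (x : Ω → κ)
    (hB : ∀ a b, 0 < P.w a → 0 < P.w b → |k a - k b| ≤ ((2 : ℕ) : ℤ) → B (x a) b)
    (hu : P.ex (fun ω => Law.ind (∃ x, (1 - c) * P.pr D (D ω) <
      prE P (fun ω' => D ω' = D ω ∧ B x ω'))) ≤ pA)
    (h1 : mi P (fun ω => e (D ω) (W ω)) E (fun ω => (D ω, Θ ω)) ≤ ι₁) (h2 : mi P Θ W D ≤ ι₂) :
    p * Real.log 2 - (12 + 2 * b + 2 * m * (pA + 6 * colp P t D + 300 * colp P y D) +
      10 * 2 ^ (4 * m + 14 * g + 2 * r + 26) / c * (Real.sqrt ι₁ + Real.sqrt ι₂)) ≤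
    hc P (fun ω => lbh 1 (X ω) (M ω)) (fun ω => (lbh (2 ^ p) (X ω) (M ω), (D ω, Θ ω))) :=
  satH_pair P geo hp t y k hS1 hT1 he1 hS hy hk hρ0 hρ hc0 (hA_of P k B x hB hu) h1 h2

end Vale.Agent.P106.U.H416.HeisW
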