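import Vale.Agent.P106.U.H683.NonP
import Vale.Agent.P127.U.CellD
import Vale.Agent.P106.U.H416.Cyc

/-!
# P106 / U / H416 : the weight of the pair M-step

The letter of the pair M-step is `(y, A)` (direction, curvature).  The weight of `TV.avG` with four copies of the pair is at least `c / 10`
outside an event of small probability as soon as
* the collisions of the time digit and of the direction digit given `D` are rare;
* given `D`, outside an event of probability `pA`, two copies of the curvature digit are at distance `≤ 2` with probability at most `1 - c`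
  (`c` is arbitrary: no comparison with the collisions of the direction).

* `pair_good`, `four_copies` : two, four copies of one law.
* `weight_pt` : pointwise form.  `weight` : averaged form.
* `pair_size` : the size of the commutator.
-/

set_option autoImplicit false

namespace Vale.Agent.P106.U.H416.PairW

open Finset Vale.Agent.P127 Vale.Agent.P127.Stk Vale.Agent.P127.U.Pin Vale.Agent.P127.U.Mic
open Vale.Agent.P106.TV Vale.Agent.P106.U.H683

variable {Ω : Type} [Fintype Ω] {S U V : Type*}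

/-- Markov -/
theorem markov_ind (P : Law Ω) (X : Ω → ℝ) (η : ℝ) (hη : 0 < η) (hX : ∀ ω, 0 < P.w ω → 0 ≤ X ω) :
    P.ex (fun ω => Law.ind (¬ X ω ≤ η)) ≤ P.ex X / η := by
  rw [le_div_iff₀ hη, mul_comm, ← P.ex_const_mul]
  refine P.ex_mono fun ω hω => ?_
  by_cases h : X ω ≤ η
  · rw [Law.ind_not (not_not.2 h), mul_zero]
    exact hX ω hω
  · rw [Law.ind_of h, mul_one]
    exact (not_le.1 h).le

/-- Fubini for the copies -/
theorem cop_succ (R : Law Ω) (n : ℕ) (f : (Fin (n + 1) → Ω) → ℝ) :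
    (cop R (Fin (n + 1))).ex f = R.ex (fun a => (cop R (Fin n)).ex (fun x => f (Fin.cons a x))) := by
  unfold Law.ex cop
  dsimp only
  rw [← (Fin.consEquiv (fun _ : Fin (n + 1) => Ω)).sum_comp, Fintype.sum_prod_type]
  refine Finset.sum_congr rfl fun a _ => ?_
  rw [Finset.mul_sum]
  refine Finset.sum_congr rfl fun x _ => ?_
  simp [Fin.consEquiv, Fin.prod_univ_succ, mul_assoc]

theorem cop_zero (R : Law Ω) (f : (Fin 0 → Ω) → ℝ) (x : Fin 0 → Ω) :
    (cop R (Fin 0)).ex f = f x := by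
  unfold Law.ex cop
  simp [Subsingleton.elim x default]

/-- four copies one after the other -/
theorem cop_four (R : Law Ω) (f : Ω → Ω → Ω → Ω → ℝ) :
    (cop R (Fin 4)).ex (fun x => f (x 0) (x 1) (x 2) (x 3)) =
      R.ex fun a => R.ex fun b => R.ex fun c => R.ex fun d => f a b c d := by
  rw [cop_succ]
  refine R.ex_congr fun a _ => ?_
  rw [cop_succ]
  refine R.ex_congr fun b _ => ?_
  rw [cop_succ]
  refine R.ex_congr fun c _ => ?_
  rw [cop_succ]
  refine R.ex_congr fun d _ => ?_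
  rw [cop_zero R _ (fun i => i.elim0)]
  rfl

/-- **two copies** : the near pairs for the direction (`N`) are rare for every value of the first copy, the near pairs for the
curvature (`K₂`) have probability `≤ 1 - c`: then both are apart with probability `≥ 2 c / 5` -/
theorem pair_good (R : Law Ω) (N K₁ K₂ : Ω → Ω → Prop) {c : ℝ}
    (hK : ∀ a b x, K₁ a x → K₁ b x → K₂ a b)
    (hN : ∀ a, 0 < R.w a → R.ex (fun b => Law.ind (N a b)) ≤ 1 / 10)
    (hc : R.ex (fun a => R.ex fun b => Law.ind (K₂ a b)) ≤ 1 - c) :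
    2 / 5 * c ≤ R.ex fun a => R.ex fun b => Law.ind (¬ N a b ∧ ¬ K₁ a b) := by
  have h1 : R.ex (fun a => R.ex fun b => (1 - Law.ind (K₂ a b)) * (8 / 10)) ≤
      R.ex (fun a => R.ex fun b => R.ex fun x =>
        (Law.ind (¬ N a x ∧ ¬ K₁ a x) + Law.ind (¬ N b x ∧ ¬ K₁ b x))) := by
    refine R.ex_mono fun a ha => R.ex_mono fun b hb => ?_
    by_cases g : K₂ a b
    · rw [Law.ind_of g, sub_self, zero_mul]
      exact R.ex_nonneg fun x _ => add_nonneg (ind_nonneg _) (ind_nonneg _)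
    · rw [Law.ind_not g, sub_zero, one_mul]
      have h2 : R.ex (fun x => 1 - (Law.ind (N a x) + Law.ind (N b x))) ≤ R.ex (fun x =>
          (Law.ind (¬ N a x ∧ ¬ K₁ a x) + Law.ind (¬ N b x ∧ ¬ K₁ b x))) := by
        refine R.ex_mono fun x _ => ?_
        have n1 := ind_nonneg (¬ N a x ∧ ¬ K₁ a x)
        have n2 := ind_nonneg (¬ N b x ∧ ¬ K₁ b x)
        have n3 := ind_nonneg (N a x)
        have n4 := ind_nonneg (N b x)
        by_cases g1 : N a x
        · rw [Law.ind_of g1]; linarith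
        by_cases g2 : N b x
        · rw [Law.ind_of g2]; linarith
        by_cases g3 : K₁ a x
        · by_cases g4 : K₁ b x
          · exact absurd (hK a b x g3 g4) g
          · rw [Law.ind_of (p := ¬ N b x ∧ ¬ K₁ b x) ⟨g2, g4⟩]
            linarith
        · rw [Law.ind_of (p := ¬ N a x ∧ ¬ K₁ a x) ⟨g1, g3⟩]
          linarith
      rw [R.ex_sub, R.ex_const, R.ex_add] at h2
      have h3 := hN a ha
      have h4 := hN b hb
      linarith
  have e1 : R.ex (fun a => R.ex fun b => (1 - Law.ind (K₂ a b)) * (8 / 10)) =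
      8 / 10 * (1 - R.ex (fun a => R.ex fun b => Law.ind (K₂ a b))) := by
    simp only [mul_comm _ (8 / 10 : ℝ), Law.ex_const_mul, Law.ex_sub, Law.ex_const]
  have e2 : R.ex (fun a => R.ex fun b => R.ex fun x =>
        (Law.ind (¬ N a x ∧ ¬ K₁ a x) + Law.ind (¬ N b x ∧ ¬ K₁ b x))) =
      2 * R.ex (fun a => R.ex fun b => Law.ind (¬ N a b ∧ ¬ K₁ a b)) := by
    simp only [Law.ex_add, Law.ex_const]
    ring
  rw [e1, e2] at h1
  linarith

/-- **four copies** -/
theorem four_copies (R : Law Ω) (N K₁ K₂ : Ω → Ω → Prop) (f : (Fin 4 → Ω) → ℝ) {c : ℝ}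
    (hK : ∀ a b x, K₁ a x → K₁ b x → K₂ a b)
    (hf0 : ∀ x, 0 < (cop R (Fin 4)).w x → 0 ≤ f x)
    (hf : ∀ x, 0 < (cop R (Fin 4)).w x → ¬ N (x 0) (x 1) → ¬ N (x 0) (x 2) → ¬ N (x 0) (x 3) →
      ¬ N (x 1) (x 2) → ¬ N (x 1) (x 3) → ¬ N (x 2) (x 3) → ¬ K₁ (x 0) (x 1) → 1 ≤ f x)
    (hN : ∀ a, 0 < R.w a → R.ex (fun b => Law.ind (N a b)) ≤ 1 / 10)
    (hc : R.ex (fun a => R.ex fun b => Law.ind (K₂ a b)) ≤ 1 - c) :
    c / 5 ≤ (cop R (Fin 4)).ex f := by
  let F : Ω → Ω → Ω → Ω → ℝ := fun a b x z => Law.ind (¬ N a b ∧ ¬ K₁ a b) *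
    (Law.ind (¬ N a x ∧ ¬ N b x) * Law.ind (¬ N a z ∧ ¬ N b z ∧ ¬ N x z))
  have h1 : (cop R (Fin 4)).ex (fun x => F (x 0) (x 1) (x 2) (x 3)) ≤ (cop R (Fin 4)).ex f := by
    refine Law.ex_mono _ fun x hx => ?_
    simp only [F]
    by_cases g1 : ¬ N (x 0) (x 1) ∧ ¬ K₁ (x 0) (x 1)
    swap
    · rw [Law.ind_not g1, zero_mul]; exact hf0 x hx
    by_cases g2 : ¬ N (x 0) (x 2) ∧ ¬ N (x 1) (x 2)
    swap
    · rw [Law.ind_not g2, zero_mul, mul_zero]; exact hf0 x hx
    by_cases g3 : ¬ N (x 0) (x 3) ∧ ¬ N (x 1) (x 3) ∧ ¬ N (x 2) (x 3)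
    swap
    · rw [Law.ind_not g3, mul_zero, mul_zero]; exact hf0 x hx
    rw [Law.ind_of g1, Law.ind_of g2, Law.ind_of g3, one_mul, one_mul]
    exact hf x hx g1.1 g2.1 g3.1 g2.2 g3.2.1 g3.2.2 g1.2
  rw [cop_four R F] at h1
  have h2 : ∀ a b x, 0 < R.w a → 0 < R.w b → 0 < R.w x →
      7 / 10 ≤ R.ex (fun z => Law.ind (¬ N a z ∧ ¬ N b z ∧ ¬ N x z)) := by
    intro a b x ha hb hx
    have h3 : R.ex (fun z => 1 - (Law.ind (N a z) + Law.ind (N b z) + Law.ind (N x z))) ≤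
        R.ex (fun z => Law.ind (¬ N a z ∧ ¬ N b z ∧ ¬ N x z)) := by
      refine R.ex_mono fun z _ => ?_
      have n0 := ind_nonneg (¬ N a z ∧ ¬ N b z ∧ ¬ N x z)
      have n1 := ind_nonneg (N a z)
      have n2 := ind_nonneg (N b z)
      have n3 := ind_nonneg (N x z)
      by_cases g1 : N a z
      · rw [Law.ind_of g1]; linarith
      by_cases g2 : N b z
      · rw [Law.ind_of g2]; linarith
      by_cases g3 : N x z
      · rw [Law.ind_of g3]; linarith
      rw [Law.ind_of (p := ¬ N a z ∧ ¬ N b z ∧ ¬ N x z) ⟨g1, g2, g3⟩]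
      linarith
    rw [R.ex_sub, R.ex_const, R.ex_add, R.ex_add] at h3
    have := hN a ha
    have := hN b hb
    have := hN x hx
    linarith
  have h3 : ∀ a b, 0 < R.w a → 0 < R.w b → 56 / 100 ≤ R.ex (fun x =>
      Law.ind (¬ N a x ∧ ¬ N b x) * R.ex (fun z => Law.ind (¬ N a z ∧ ¬ N b z ∧ ¬ N x z))) := by
    intro a b ha hb
    have h4 : R.ex (fun x => 7 / 10 * (1 - (Law.ind (N a x) + Law.ind (N b x)))) ≤ R.ex (fun x =>
      Law.ind (¬ N a x ∧ ¬ N b x) * R.ex (fun z => Law.ind (¬ N a z ∧ ¬ N b z ∧ ¬ N x z))) := by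
      refine R.ex_mono fun x hx => ?_
      have n0 : 0 ≤ Law.ind (¬ N a x ∧ ¬ N b x) *
          R.ex (fun z => Law.ind (¬ N a z ∧ ¬ N b z ∧ ¬ N x z)) :=
        mul_nonneg (ind_nonneg _) (R.ex_nonneg fun _ _ => ind_nonneg _)
      have n1 := ind_nonneg (N a x)
      have n2 := ind_nonneg (N b x)
      by_cases g1 : N a x
      · rw [Law.ind_of g1]; linarith
      by_cases g2 : N b x
      · rw [Law.ind_of g2]; linarith
      rw [Law.ind_of (p := ¬ N a x ∧ ¬ N b x) ⟨g1, g2⟩, one_mul, Law.ind_not g1, Law.ind_not g2]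
      have := h2 a b x ha hb hx
      linarith
    rw [R.ex_const_mul, R.ex_sub, R.ex_const, R.ex_add] at h4
    have := hN a ha
    have := hN b hb
    linarith
  have h5 : R.ex (fun a => R.ex fun b => 56 / 100 * Law.ind (¬ N a b ∧ ¬ K₁ a b)) ≤
      R.ex fun a => R.ex fun b => R.ex fun c => R.ex fun d => F a b c d := by
    refine R.ex_mono fun a ha => R.ex_mono fun b hb => ?_
    simp only [F, Law.ex_const_mul]
    rw [mul_comm]
    exact mul_le_mul_of_nonneg_left (h3 a b ha hb) (ind_nonneg _)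
  simp only [Law.ex_const_mul] at h5
  have h6 := pair_good R N K₁ K₂ hK hN hc
  have h7 : 0 ≤ R.ex fun a => R.ex fun b => Law.ind (¬ N a b ∧ ¬ K₁ a b) :=
    R.ex_nonneg fun _ _ => R.ex_nonneg fun _ _ => ind_nonneg _
  rcases le_or_gt c 0 with hc0 | hc0
  · linarith
  · linarith

/-- no value of `k` is near more than `1 - c` of the mass -/
theorem mass_pair (R : Law Ω) (K : Ω → Ω → Prop) {c : ℝ}
    (h : ∀ a, 0 < R.w a → R.ex (fun b => Law.ind (K a b)) ≤ 1 - c) :
    R.ex (fun a => R.ex fun b => Law.ind (K a b)) ≤ 1 - c := by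
  have := R.ex_mono (f := fun a => R.ex fun b => Law.ind (K a b)) (g := fun _ => 1 - c) h
  rwa [R.ex_const] at this

/-- the mass of three adjacent values in terms of the pairs of equal copies -/
theorem near_of_eq (R : Law Ω) (y : Ω → ℤ) {η : ℝ}
    (h : R.ex (fun a => R.ex fun b => Law.ind (y a = y b)) ≤ η / 3) (a : Ω) :
    R.ex (fun b => Law.ind (|y a - y b| ≤ ((1 : ℕ) : ℤ))) ^ 2 ≤ η := by
  -- the three masses
  let m : ℤ → ℝ := fun j => R.ex (fun b => Law.ind (y b = j))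
  have hm0 : ∀ j, 0 ≤ m j := fun j => R.ex_nonneg fun _ _ => ind_nonneg _
  have e1 : ∀ b, Law.ind (|y a - y b| ≤ ((1 : ℕ) : ℤ)) =
      Law.ind (y b = y a - 1) + Law.ind (y b = y a) + Law.ind (y b = y a + 1) := by
    intro b
    by_cases g1 : y b = y a - 1
    · rw [Law.ind_of g1, Law.ind_not (show ¬ y b = y a by omega),
        Law.ind_not (show ¬ y b = y a + 1 by omega), Law.ind_of]
      · ring
      · rw [g1]; simp
    by_cases g2 : y b = y a
    · rw [Law.ind_of g2, Law.ind_not (show ¬ y b = y a - 1 by omega),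
        Law.ind_not (show ¬ y b = y a + 1 by omega), Law.ind_of]
      · ring
      · rw [g2]; simp
    by_cases g3 : y b = y a + 1
    · rw [Law.ind_of g3, Law.ind_not (show ¬ y b = y a - 1 by omega),
        Law.ind_not (show ¬ y b = y a by omega), Law.ind_of]
      · ring
      · rw [g3]; simp
    · rw [Law.ind_not g1, Law.ind_not g2, Law.ind_not g3, Law.ind_not]
      · ring
      · intro hcon
        rw [abs_le] at hcon
        push_cast at hcon
        omega
  have e2 : R.ex (fun b => Law.ind (|y a - y b| ≤ ((1 : ℕ) : ℤ))) =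
      m (y a - 1) + m (y a) + m (y a + 1) := by
    simp only [e1, Law.ex_add, m]
  have h2 : m (y a - 1) ^ 2 + m (y a) ^ 2 + m (y a + 1) ^ 2 ≤
      R.ex (fun a => R.ex fun b => Law.ind (y a = y b)) := by
    have h3 : R.ex (fun x => Law.ind (y x = y a - 1) * m (y a - 1) +
        Law.ind (y x = y a) * m (y a) + Law.ind (y x = y a + 1) * m (y a + 1)) ≤
        R.ex (fun x => R.ex fun b => Law.ind (y x = y b)) := by
      refine R.ex_mono fun x _ => ?_
      have k : ∀ j, y x = j → m j = R.ex fun b => Law.ind (y x = y b) := by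
        intro j hj
        simp only [m]
        refine R.ex_congr fun b _ => ?_
        rw [← hj]
        by_cases g : y b = y x
        · rw [Law.ind_of g, Law.ind_of g.symm]
        · rw [Law.ind_not g, Law.ind_not (fun g' => g g'.symm)]
      by_cases g1 : y x = y a - 1
      · rw [Law.ind_of g1, Law.ind_not (show ¬ y x = y a by omega),
          Law.ind_not (show ¬ y x = y a + 1 by omega), k _ g1]
        linarith
      by_cases g2 : y x = y a
      · rw [Law.ind_of g2, Law.ind_not (show ¬ y x = y a - 1 by omega),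
          Law.ind_not (show ¬ y x = y a + 1 by omega), k _ g2]
        linarith
      by_cases g3 : y x = y a + 1
      · rw [Law.ind_of g3, Law.ind_not (show ¬ y x = y a - 1 by omega),
          Law.ind_not (show ¬ y x = y a by omega), k _ g3]
        linarith
      · rw [Law.ind_not g1, Law.ind_not g2, Law.ind_not g3]
        have : 0 ≤ R.ex fun b => Law.ind (y x = y b) := R.ex_nonneg fun _ _ => ind_nonneg _
        linarith
    have e3 : R.ex (fun x => Law.ind (y x = y a - 1) * m (y a - 1) +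
        Law.ind (y x = y a) * m (y a) + Law.ind (y x = y a + 1) * m (y a + 1)) =
        m (y a - 1) ^ 2 + m (y a) ^ 2 + m (y a + 1) ^ 2 := by
      rw [R.ex_add, R.ex_add]
      have k : ∀ j, R.ex (fun x => Law.ind (y x = j) * m j) = m j ^ 2 := by
        intro j
        have : ∀ x, Law.ind (y x = j) * m j = m j * Law.ind (y x = j) := fun x => mul_comm _ _
        simp only [this, Law.ex_const_mul]
        simp only [m]
        ring
      rw [k, k, k]
    rw [e3] at h3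
    exact h3
  rw [e2]
  nlinarith [sq_nonneg (m (y a - 1) - m (y a)), sq_nonneg (m (y a) - m (y a + 1)),
    sq_nonneg (m (y a - 1) - m (y a + 1))]

section main

variable {κ₂ : Type} [Fintype κ₂] [DecidableEq κ₂]

/-- **the weight**, pointwise form -/
theorem weight_pt (P : Law Ω) (D : Ω → U) (Θ : Ω → V) (W : Ω → S) {X : Type*} (e : U → S → X)
    (χ : U → V → (κ₂ → V) → (Fin 4 → X) → ℝ) (hχ0 : ∀ d θ θs xs, 0 ≤ χ d θ θs xs) (i₀ : κ₂)
    (t y k : Ω → ℤ) {c : ℝ} (ω : Ω) (hω : 0 < P.w ω) (hc : 0 < c)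
    (hχ : ∀ (z : κ₂ → Ω) (x : Fin 4 → Ω), (∀ i, 0 < P.w (z i) ∧ D (z i) = D ω) →
      (∀ j, 0 < P.w (x j) ∧ D (x j) = D ω) → ¬ |t ω - t (z i₀)| ≤ ((1 : ℕ) : ℤ) →
      (∀ i j, i ≠ j → ¬ |y (x i) - y (x j)| ≤ ((1 : ℕ) : ℤ)) →
      ¬ |k (x 0) - k (x 1)| ≤ ((1 : ℕ) : ℤ) →
      1 ≤ χ (D ω) (Θ ω) (fun i => Θ (z i)) (fun j => e (D ω) (W (x j))))
    (ht : (P.cond D (D ω)).ex (fun a => Law.ind (|t ω - t a| ≤ ((1 : ℕ) : ℤ))) ≤ 1 / 2)
    (hy : (P.cond D (D ω)).ex (fun a => (P.cond D (D ω)).ex fun b => Law.ind (y a = y b)) ≤ 1 / 300)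
    (hk : (P.cond D (D ω)).ex (fun a => (P.cond D (D ω)).ex fun b =>
      Law.ind (|k a - k b| ≤ ((2 : ℕ) : ℤ))) ≤ 1 - c) :
    c / 10 ≤ avG P D Θ W e χ ω := by
  set R := P.cond D (D ω) with hR
  have hRs : ∀ a, 0 < R.w a → 0 < P.w a ∧ D a = D ω := fun a ha => by
    have := cond_supp P D (P.pr_pos D hω) ha
    exact ⟨this.2, this.1⟩
  have hsymm : ∀ a b : ℤ, ¬ |a - b| ≤ ((1 : ℕ) : ℤ) → ¬ |b - a| ≤ ((1 : ℕ) : ℤ) := fun a b h => by
    rwa [abs_sub_comm]
  have hy' : ∀ a, 0 < R.w a → R.ex (fun b => Law.ind (|y a - y b| ≤ ((1 : ℕ) : ℤ))) ≤ 1 / 10 := by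
    intro a _
    have h1 := near_of_eq R y (η := 1 / 100) (hy.trans (by norm_num)) a
    exact abs_le_of_sq_le_sq' (by linarith) (by norm_num) |>.2
  -- the four directions
  have h4 : ∀ z : κ₂ → Ω, 0 < (cop R κ₂).w z → ¬ |t ω - t (z i₀)| ≤ ((1 : ℕ) : ℤ) →
      c / 5 ≤ (cop R (Fin 4)).ex (fun x =>
        χ (D ω) (Θ ω) (fun i => Θ (z i)) (fun j => e (D ω) (W (x j)))) := by
    intro z hz hzt
    refine four_copies R (fun a b => |y a - y b| ≤ ((1 : ℕ) : ℤ))
      (fun a b => |k a - k b| ≤ ((1 : ℕ) : ℤ)) (fun a b => |k a - k b| ≤ ((2 : ℕ) : ℤ))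
      (fun x => χ (D ω) (Θ ω) (fun i => Θ (z i)) (fun j => e (D ω) (W (x j))))
      (c := c) ?_ (fun x _ => hχ0 _ _ _ _) ?_ hy' hk
    · intro a b x h1 h2
      rw [abs_le] at h1 h2 ⊢
      push_cast at h1 h2 ⊢
      constructor <;> omega
    · intro x hx g01 g02 g03 g12 g13 g23 gk
      refine hχ z x (fun i => hRs _ (cop_supp hz i)) (fun j => hRs _ (cop_supp hx j)) hzt ?_ gk
      intro i j hij
      fin_cases i <;> fin_cases j <;> first
        | exact absurd rfl hij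
        | exact g01
        | exact g02
        | exact g03
        | exact g12
        | exact g13
        | exact g23
        | exact hsymm _ _ g01
        | exact hsymm _ _ g02
        | exact hsymm _ _ g03
        | exact hsymm _ _ g12
        | exact hsymm _ _ g13
        | exact hsymm _ _ g23
  -- the time
  have h5 : (cop R κ₂).ex (fun z => (c / 5) * (1 - Law.ind (|t ω - t (z i₀)| ≤ ((1 : ℕ) : ℤ)))) ≤
      avG P D Θ W e χ ω := by
    unfold avG
    refine Law.ex_mono _ fun z hz => ?_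
    by_cases g : |t ω - t (z i₀)| ≤ ((1 : ℕ) : ℤ)
    · rw [Law.ind_of g, sub_self, mul_zero]
      exact Law.ex_nonneg _ fun x _ => hχ0 _ _ _ _
    · rw [Law.ind_not g, sub_zero, mul_one]
      exact h4 z hz g
  rw [Law.ex_const_mul, Law.ex_sub, Law.ex_const,
    cop_ex1 R i₀ (fun a => Law.ind (|t ω - t a| ≤ ((1 : ℕ) : ℤ)))] at h5
  refine le_trans ?_ h5
  have h6 : (c / 5) * (1 / 2) ≤
      (c / 5) * (1 - R.ex (fun a => Law.ind (|t ω - t a| ≤ ((1 : ℕ) : ℤ)))) :=
    mul_le_mul_of_nonneg_left (by linarith) (by linarith)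
  linarith

/-- **THE WEIGHT** of the pair M-step : at least `c / 10` outside an event of probability
`pA + 6 colp (time) + 300 colp (direction)` -/
theorem weight (P : Law Ω) (D : Ω → U) (Θ : Ω → V) (W : Ω → S) {X : Type*} (e : U → S → X)
    (χ : U → V → (κ₂ → V) → (Fin 4 → X) → ℝ) (hχ0 : ∀ d θ θs xs, 0 ≤ χ d θ θs xs) (i₀ : κ₂)
    (t y k : Ω → ℤ) {c pA : ℝ} (hc : 0 < c)
    (hχ : ∀ (ω : Ω) (z : κ₂ → Ω) (x : Fin 4 → Ω), 0 < P.w ω →
      (∀ i, 0 < P.w (z i) ∧ D (z i) = D ω) →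
      (∀ j, 0 < P.w (x j) ∧ D (x j) = D ω) → ¬ |t ω - t (z i₀)| ≤ ((1 : ℕ) : ℤ) →
      (∀ i j, i ≠ j → ¬ |y (x i) - y (x j)| ≤ ((1 : ℕ) : ℤ)) →
      ¬ |k (x 0) - k (x 1)| ≤ ((1 : ℕ) : ℤ) →
      1 ≤ χ (D ω) (Θ ω) (fun i => Θ (z i)) (fun j => e (D ω) (W (x j))))
    (hA : P.ex (fun ω => Law.ind (¬ (P.cond D (D ω)).ex (fun a => (P.cond D (D ω)).ex fun b =>
      Law.ind (|k a - k b| ≤ ((2 : ℕ) : ℤ))) ≤ 1 - c)) ≤ pA) :
    P.ex (fun ω => Law.ind (¬ c / 10 ≤ avG P D Θ W e χ ω)) ≤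
      pA + 6 * colp P t D + 300 * colp P y D := by
  have hk3 : (2 * ((1 : ℕ) : ℝ) + 1) = 3 := by norm_num
  -- the time
  have h1 : P.ex (fun ω => Law.ind (¬ (P.cond D (D ω)).ex (fun a =>
      Law.ind (|t ω - t a| ≤ ((1 : ℕ) : ℤ))) ≤ 1 / 2)) ≤ 6 * colp P t D := by
    have e1 := markov_ind P (fun ω => (P.cond D (D ω)).ex (fun a =>
      Law.ind (|t ω - t a| ≤ ((1 : ℕ) : ℤ)))) (1 / 2) (by norm_num)
      (fun ω _ => Law.ex_nonneg _ fun _ _ => ind_nonneg _)
    have e2 := pair_near_le P t D 1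
    rw [hk3] at e2
    refine e1.trans ((div_le_div_of_nonneg_right e2 (by norm_num)).trans (le_of_eq ?_))
    ring
  -- the direction
  have h2 : P.ex (fun ω => Law.ind (¬ (P.cond D (D ω)).ex (fun a => (P.cond D (D ω)).ex fun b =>
      Law.ind (y a = y b)) ≤ 1 / 300)) ≤ 300 * colp P y D := by
    have e1 := markov_ind P (fun ω => (P.cond D (D ω)).ex (fun a => (P.cond D (D ω)).ex fun b =>
      Law.ind (y a = y b))) (1 / 300) (by norm_num)
      (fun ω _ => Law.ex_nonneg _ fun _ _ => Law.ex_nonneg _ fun _ _ => ind_nonneg _)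
    have e3 := av_shift P D (fun a b => Law.ind (y a = y b))
    have e4 : av2 P D (fun a b => Law.ind (y a = y b)) = colp P y D := by
      rw [← pair_eq]
      unfold av2
      refine P.ex_congr fun ω _ => Law.ex_congr _ fun b _ => ?_
      beta_reduce
      by_cases g : y b = y ω
      · rw [Law.ind_of g, Law.ind_of g.symm]
      · rw [Law.ind_not g, Law.ind_not (fun g' => g g'.symm)]
    refine e1.trans (le_of_eq ?_)
    rw [e3, e4]
    ring
  refine le_trans ?_ (add_le_add (add_le_add hA h1) h2)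
  rw [← P.ex_add, ← P.ex_add]
  refine P.ex_mono fun ω hω => ?_
  by_cases ga : (P.cond D (D ω)).ex (fun a => (P.cond D (D ω)).ex fun b =>
      Law.ind (|k a - k b| ≤ ((2 : ℕ) : ℤ))) ≤ 1 - c
  swap
  · have n1 := ind_le_one (¬ c / 10 ≤ avG P D Θ W e χ ω)
    have n2 := ind_nonneg (¬ (P.cond D (D ω)).ex (fun a =>
      Law.ind (|t ω - t a| ≤ ((1 : ℕ) : ℤ))) ≤ 1 / 2)
    have n3 := ind_nonneg (¬ (P.cond D (D ω)).ex (fun a => (P.cond D (D ω)).ex fun b =>
      Law.ind (y a = y b)) ≤ 1 / 300)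
    rw [Law.ind_of ga]
    linarith
  by_cases gt : (P.cond D (D ω)).ex (fun a => Law.ind (|t ω - t a| ≤ ((1 : ℕ) : ℤ))) ≤ 1 / 2
  swap
  · have n1 := ind_le_one (¬ c / 10 ≤ avG P D Θ W e χ ω)
    have n3 := ind_nonneg (¬ (P.cond D (D ω)).ex (fun a => (P.cond D (D ω)).ex fun b =>
      Law.ind (y a = y b)) ≤ 1 / 300)
    rw [Law.ind_of gt, Law.ind_not (not_not.2 ga)]
    linarith
  by_cases gy : (P.cond D (D ω)).ex (fun a => (P.cond D (D ω)).ex fun b =>
      Law.ind (y a = y b)) ≤ 1 / 300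
  swap
  · have n1 := ind_le_one (¬ c / 10 ≤ avG P D Θ W e χ ω)
    rw [Law.ind_of gy, Law.ind_not (not_not.2 ga), Law.ind_not (not_not.2 gt)]
    linarith
  have := weight_pt P D Θ W e χ hχ0 i₀ t y k ω hω hc (fun z x => hχ ω z x hω) gt gy ga
  rw [Law.ind_not (not_not.2 this), Law.ind_not (not_not.2 ga), Law.ind_not (not_not.2 gt),
    Law.ind_not (not_not.2 gy)]
  linarith

end main

/-! ### the size of the commutator -/

open Vale.Agent.P127.U.CellD Vale.Agent.P106.U.H416.Cyc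

/-- **the size** : directions pairwise `q2 g` apart, curvatures of `0`, `1` at distance `q2 r`, time `q2 g` : one of the three
commutators based at `0` is at least `q2 (7 g + r + 7)` -/
theorem pair_size {s : ℝ} {y A : Fin 4 → ℝ} {g r : ℕ} (hs : q2 g ≤ |s|)
    (hy : ∀ j, 0 ≤ y j ∧ y j ≤ 1) (hd : ∀ i j, i ≠ j → q2 g ≤ |y i - y j|)
    (hA : q2 r ≤ |A 0 - A 1|) :
    q2 (7 * g + r + 7) ≤ |s ^ 2 / 2 * tri (y 0) (A 0) (y 1) (A 1) (y 2) (A 2)| ∨
    q2 (7 * g + r + 7) ≤ |s ^ 2 / 2 * tri (y 0) (A 0) (y 1) (A 1) (y 3) (A 3)| ∨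
    q2 (7 * g + r + 7) ≤ |s ^ 2 / 2 * tri (y 0) (A 0) (y 2) (A 2) (y 3) (A 3)| := by
  by_contra hcon
  rw [not_or, not_or, not_le, not_le, not_le] at hcon
  obtain ⟨h1, h2, h3⟩ := hcon
  have hg := q2_pos g
  have q21 : q2 (2 * g + 1) = q2 g ^ 2 / 2 := by
    unfold q2
    rw [pow_add, pow_mul, ← pow_mul, ← pow_mul]
    rw [mul_comm 2 g]
    ring
  have hS : q2 (2 * g + 1) ≤ |s ^ 2 / 2| := by
    rw [q21, abs_div, abs_pow, abs_of_pos (by norm_num : (0 : ℝ) < 2)]
    exact div_le_div_of_nonneg_right (pow_le_pow_left₀ hg.le hs 2) (by norm_num)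
  have e1 : q2 (7 * g + r + 7) = q2 (2 * g + 1) * q2 (5 * g + r + 6) := by
    rw [← q2_add]
    congr 1
    ring
  have small : ∀ x : ℝ, |s ^ 2 / 2 * x| < q2 (7 * g + r + 7) → |x| ≤ q2 (5 * g + r + 6) := by
    intro x hx
    rw [abs_mul, e1] at hx
    have h4 : q2 (2 * g + 1) * |x| ≤ |s ^ 2 / 2| * |x| := mul_le_mul_of_nonneg_right hS (abs_nonneg _)
    exact (lt_of_mul_lt_mul_left (h4.trans_lt hx) (q2_pos _).le).le
  have hb : ∀ j, |y j| ≤ 1 := fun j => by
    rw [abs_le]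
    constructor <;> linarith [(hy j).1, (hy j).2]
  have main := quad_le (s := q2 g) (t := q2 (5 * g + r + 6)) hg (hb 0) (hb 1) (hb 2) (hb 3)
    (hd 2 0 (by decide)) (hd 3 0 (by decide)) (hd 1 2 (by decide)) (hd 2 3 (by decide))
    (hd 3 1 (by decide)) (small _ h1) (small _ h2) (small _ h3)
  rw [abs_sub_comm] at main
  have h5 : q2 g ^ 5 * q2 r ≤ q2 g ^ 5 * |A 0 - A 1| := mul_le_mul_of_nonneg_left hA (by positivity)
  have e2 : q2 (5 * g + r + 6) = q2 g ^ 5 * q2 r * (1 / 64) := by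
    unfold q2
    rw [pow_add, pow_add, mul_comm 5 g, pow_mul]
    norm_num
  have h6 : 0 < q2 g ^ 5 * q2 r := mul_pos (by positivity) (q2_pos r)
  rw [e2] at main
  linarith

end Vale.Agent.P106.U.H416.PairW
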