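import Vale.Agent.P106.U.H377.Quad
import Vale.Agent.P127.S.StepEx

/-!
# P106 / U / H416 : (PFX), the dichotomy over the prefixes (two-cap lemma, notes 18130, 18355)

Law `P`, base letter `Δ` (base cell, own letter, isotropic cell), prefix letter `ζ`, fine letter `E` which determines the
state `σ : Ω → ℝ⁶` up to `ρ'` over a base cell.

* `tau d z` : the distance of the law of `E` given `(d, z)` and given `d`; average `≤ 4 √(mi P ζ E Δ)` (`tau_ex`).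
* hypothesis `Mot d z X Z α ε` : the law given `(d, z)` is nearly invariant under the motion `qm X Z α`.
* `mot_base` : then the law given `d` ALONE is nearly invariant under the same motion, error `+ tau d z`.
* `shift_base` : two prefixes give the shift of `n` by `(α₂ - α₁) X₁ X₂` for the law given `d`.
* `dich` : for every `d` : two good prefixes with `|α₂ - α₁| ≥ s`, or one number `G` with `|α - G| < s` for all good
  prefixes; `good_ex` : mass of the pairs which are not good.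
* `leaf`, `leaf_add` : in the second case the motions with the common number `G`, and their sums.
-/

set_option autoImplicit false

namespace Vale.Agent.P106.U.H416.Pfx

open Finset Vale.Agent.P127 Vale.Agent.P127.Stk Vale.Agent.P127.U.Pin Vale.Agent.P127.TV Vale.Agent.P106.U.Quad

variable {Ω : Type} [Fintype Ω] {S T U : Type*}

/-! ### change of the law -/

theorem exists_of_pr_pos (P : Law Ω) (X : Ω → S) {x : S} (h : 0 < P.pr X x) : ∃ ω, 0 < P.w ω ∧ X ω = x := by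
  classical
  by_contra hc
  push Not at hc
  refine h.ne' ?_
  unfold Law.pr
  refine Finset.sum_eq_zero fun ω hω => ?_
  rcases (P.nn ω).eq_or_lt with h0 | h0
  · exact h0.symm
  · exact absurd (Finset.mem_filter.1 hω).2 (hc ω h0)

/-- the near-invariance passes to a law with nearly the same law of the letter `E` -/
theorem ni_change {P Q : Law Ω} {σ : Ω → Fin 6 → ℝ} {X Z α ρ ρ' ε : ℝ} (E : Ω → S) (hX : |X| ≤ 1) (hZ : |Z| ≤ 1)
    (hE : ∀ a b, 0 < P.w a → 0 < Q.w b → E a = E b → ∀ i, |σ a i - σ b i| ≤ ρ')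
    (h : NI Q σ (qm X Z α) ρ ε) : NI P σ (qm X Z α) (ρ + 4 * ρ') (ε + dl Q E P E) := by
  have h1 := (SubC.of_dl P E Q E).pos
  have h2 := (SubC.of_dl Q E P E).pos
  refine ((h1.comp h).comp h2).mono ?_ ?_
  · rintro a b ⟨b', ⟨a', ⟨p1, p2, p3⟩, k⟩, ⟨q1, q2, q3⟩⟩ i
    have e1 := hE a a' p1 p2 p3
    have e2 := hE b b' q2 q1 q3.symm
    have e3 := qm_lip (α := α) hX hZ (σ a') (σ a) ρ' (fun j => by rw [abs_sub_comm]; exact e1 j) i
    have e4 := k i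
    have e5 := e2 i
    have : σ b i - qm X Z α (σ a) i = (σ b i - σ b' i) + (σ b' i - qm X Z α (σ a') i) +
        (qm X Z α (σ a') i - qm X Z α (σ a) i) := by ring
    rw [this]
    refine (abs_add_le _ _).trans ?_
    have := abs_add_le (σ b i - σ b' i) (σ b' i - qm X Z α (σ a') i)
    linarith
  · rw [dl_symm P E Q E]
    linarith

section base

variable (P : Law Ω) (Δ : Ω → U) (ζ : Ω → T) (E : Ω → S) (σ : Ω → Fin 6 → ℝ)

/-- distance of the law of the letter `E` given base cell and prefix, and given the base cell alone -/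
noncomputable def tau (d : U) (z : T) : ℝ := dl (P.cond (fun ω => (Δ ω, ζ ω)) (d, z)) E (P.cond Δ d) E

/-- the letter `E` determines the state up to `ρ'` over a base cell -/
def Det (ρ' : ℝ) : Prop :=
  ∀ a b, 0 < P.w a → 0 < P.w b → Δ a = Δ b → E a = E b → ∀ i, |σ a i - σ b i| ≤ ρ'

theorem tau_nonneg (d : U) (z : T) : 0 ≤ tau P Δ ζ E d z := dl_nonneg _ _ _ _

theorem tau_ex : P.ex (fun ω => tau P Δ ζ E (Δ ω) (ζ ω)) ≤ 4 * Real.sqrt (mi P ζ E Δ) := pin_dl P ζ E Δ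

variable {P Δ ζ E σ}

/-- a motion for the law given `(d, z)` is a motion for the law given `d` -/
theorem mot_base {ρ' : ℝ} (hD : Det P Δ E σ ρ') {d : U} {z : T} (hp : 0 < P.pr (fun ω => (Δ ω, ζ ω)) (d, z))
    {X Z α ρ ε : ℝ} (hX : |X| ≤ 1) (hZ : |Z| ≤ 1)
    (h : NI (P.cond (fun ω => (Δ ω, ζ ω)) (d, z)) σ (qm X Z α) ρ ε) :
    NI (P.cond Δ d) σ (qm X Z α) (ρ + 4 * ρ') (ε + tau P Δ ζ E d z) := by
  have hp' : 0 < P.pr Δ d := by
    obtain ⟨ω, h1, h2⟩ := exists_of_pr_pos P (fun ω => (Δ ω, ζ ω)) hp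
    rw [← (Prod.mk.inj h2).1]
    exact P.pr_pos Δ h1
  refine ni_change E hX hZ (fun a b ha hb he => ?_) h
  have h1 := cond_supp P Δ hp' ha
  have h2 := cond_supp P (fun ω => (Δ ω, ζ ω)) hp hb
  exact hD a b h1.2 h2.2 (h1.1.trans (Prod.mk.inj h2.1).1.symm) he

/-- two prefixes : the shift of `n` -/
theorem shift_base {ρ' : ℝ} (hD : Det P Δ E σ ρ') {d : U} {z₁ z₂ : T}
    (hp₁ : 0 < P.pr (fun ω => (Δ ω, ζ ω)) (d, z₁)) (hp₂ : 0 < P.pr (fun ω => (Δ ω, ζ ω)) (d, z₂))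
    {X₁ Z₁ α₁ X₂ Z₂ α₂ ρ ε₁ ε₂ : ℝ} (hX₁ : |X₁| ≤ 1) (hZ₁ : |Z₁| ≤ 1) (hX₂ : |X₂| ≤ 1) (hZ₂ : |Z₂| ≤ 1)
    (h₁ : NI (P.cond (fun ω => (Δ ω, ζ ω)) (d, z₁)) σ (qm X₁ Z₁ α₁) ρ ε₁)
    (h₂ : NI (P.cond (fun ω => (Δ ω, ζ ω)) (d, z₂)) σ (qm X₂ Z₂ α₂) ρ ε₂) :
    NI (P.cond Δ d) σ (ns ((α₂ - α₁) * X₁ * X₂)) (48 * (ρ + 4 * ρ'))
      (2 * ((ε₁ + tau P Δ ζ E d z₁) + (ε₂ + tau P Δ ζ E d z₂))) :=
  ni_comm hX₁ hZ₁ hX₂ hZ₂ (mot_base hD hp₁ hX₁ hZ₁ h₁) (mot_base hD hp₂ hX₂ hZ₂ h₂)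

/-! ### the dichotomy -/

variable (P Δ ζ E) in
/-- the prefix `z` is good over `d` -/
def Good (e : U → T → ℝ) (e₀ : ℝ) (d : U) (z : T) : Prop :=
  0 < P.pr (fun ω => (Δ ω, ζ ω)) (d, z) ∧ e d z + tau P Δ ζ E d z ≤ e₀

/-- the mass of the pairs (base cell, prefix) which are not good -/
theorem good_ex (e : U → T → ℝ) {e₀ : ℝ} (h₀ : 0 < e₀) (he : ∀ ω, 0 < P.w ω → 0 ≤ e (Δ ω) (ζ ω)) :
    P.ex (fun ω => Law.ind (¬ Good P Δ ζ E e e₀ (Δ ω) (ζ ω))) ≤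
      (P.ex (fun ω => e (Δ ω) (ζ ω)) + 4 * Real.sqrt (mi P ζ E Δ)) / e₀ := by
  have h1 : P.ex (fun ω => Law.ind (¬ Good P Δ ζ E e e₀ (Δ ω) (ζ ω))) ≤
      P.ex (fun ω => 1 / e₀ * (e (Δ ω) (ζ ω) + tau P Δ ζ E (Δ ω) (ζ ω))) := by
    refine P.ex_mono fun ω hω => ?_
    have hp := P.pr_pos (fun ω => (Δ ω, ζ ω)) hω
    have h0 : 0 ≤ e (Δ ω) (ζ ω) + tau P Δ ζ E (Δ ω) (ζ ω) :=
      add_nonneg (he ω hω) (tau_nonneg P Δ ζ E _ _)
    by_cases hg : Good P Δ ζ E e e₀ (Δ ω) (ζ ω)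
    · rw [Law.ind_not (not_not.2 hg)]
      positivity
    · rw [Law.ind_of hg]
      have h2 : e₀ < e (Δ ω) (ζ ω) + tau P Δ ζ E (Δ ω) (ζ ω) := by
        by_contra hc
        exact hg ⟨hp, not_lt.1 hc⟩
      rw [one_div, ← div_eq_inv_mul, le_div_iff₀ h₀]
      linarith
  refine h1.trans ?_
  rw [Law.ex_const_mul, P.ex_add]
  have h2 := tau_ex P Δ ζ E
  rw [div_mul_eq_mul_div, one_mul]
  exact div_le_div_of_nonneg_right (by linarith) h₀.le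

/-- **(PFX)** : either two good prefixes with different numbers `α`, or one number for all good prefixes -/
theorem dich (al : U → T → ℝ) (e : U → T → ℝ) (e₀ s : ℝ) (d : U) :
    (∃ z₁ z₂, Good P Δ ζ E e e₀ d z₁ ∧ Good P Δ ζ E e e₀ d z₂ ∧ s ≤ |al d z₂ - al d z₁|) ∨
      ∃ G : ℝ, ∀ z, Good P Δ ζ E e e₀ d z → |al d z - G| < s := by
  by_cases h : ∃ z₁, Good P Δ ζ E e e₀ d z₁ ∧ ∀ z, Good P Δ ζ E e e₀ d z → |al d z - al d z₁| < s
  · obtain ⟨z₁, _, h2⟩ := h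
    exact Or.inr ⟨al d z₁, h2⟩
  · push Not at h
    by_cases hz : ∃ z₁, Good P Δ ζ E e e₀ d z₁
    · obtain ⟨z₁, h1⟩ := hz
      obtain ⟨z₂, h2, h3⟩ := h z₁ h1
      exact Or.inl ⟨z₁, z₂, h1, h2, h3⟩
    · exact Or.inr ⟨0, fun z hz' => absurd ⟨z, hz'⟩ hz⟩

/-- the first case : the shift of `n`, for all the motions of the two prefixes -/
theorem dich_shift {ρ' : ℝ} (hD : Det P Δ E σ ρ') {al : U → T → ℝ} {e : U → T → ℝ} {e₀ : ℝ} {d : U} {z₁ z₂ : T}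
    (g₁ : Good P Δ ζ E e e₀ d z₁) (g₂ : Good P Δ ζ E e e₀ d z₂) {X₁ Z₁ X₂ Z₂ ρ : ℝ}
    (hX₁ : |X₁| ≤ 1) (hZ₁ : |Z₁| ≤ 1) (hX₂ : |X₂| ≤ 1) (hZ₂ : |Z₂| ≤ 1)
    (h₁ : NI (P.cond (fun ω => (Δ ω, ζ ω)) (d, z₁)) σ (qm X₁ Z₁ (al d z₁)) ρ (e d z₁))
    (h₂ : NI (P.cond (fun ω => (Δ ω, ζ ω)) (d, z₂)) σ (qm X₂ Z₂ (al d z₂)) ρ (e d z₂)) :
    NI (P.cond Δ d) σ (ns ((al d z₂ - al d z₁) * X₁ * X₂)) (48 * (ρ + 4 * ρ')) (4 * e₀) :=
  (shift_base hD g₁.1 g₂.1 hX₁ hZ₁ hX₂ hZ₂ h₁ h₂).mono le_rfl (by linarith [g₁.2, g₂.2])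

/-! ### leaf motions -/

/-- a small change of `α` -/
theorem ni_alpha {Q : Law Ω} {X Z α G ρ s ε : ℝ} (hX : |X| ≤ 1) (hZ : |Z| ≤ 1) (hs : |α - G| ≤ s)
    (h : NI Q σ (qm X Z α) ρ ε) : NI Q σ (qm X Z G) (ρ + s) ε := by
  refine SubC.mono h (fun a b h1 i => ?_) le_rfl
  have h0 : 0 ≤ s := (abs_nonneg _).trans hs
  have hd : |qm X Z α (σ a) i - qm X Z G (σ a) i| ≤ s := by
    have a1 : |(α - G) * X| ≤ s := by
      rw [abs_mul]
      exact (mul_le_mul hs hX (abs_nonneg _) h0).trans (by rw [mul_one])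
    have a2 : |(α - G) * Z| ≤ s := by
      rw [abs_mul]
      exact (mul_le_mul hs hZ (abs_nonneg _) h0).trans (by rw [mul_one])
    have a3 : |(α - G) * X * X / 2| ≤ s := by
      rw [abs_div, abs_mul, abs_of_pos (by norm_num : (0 : ℝ) < 2)]
      have : |(α - G) * X| * |X| ≤ s * 1 := mul_le_mul a1 hX (abs_nonneg _) h0
      linarith
    fin_cases i
    · show |(σ a 0 + X) - (σ a 0 + X)| ≤ s
      rwa [sub_self, abs_zero]
    · show |(σ a 1 + Z) - (σ a 1 + Z)| ≤ s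
      rwa [sub_self, abs_zero]
    · show |(σ a 2 + σ a 4 * X + σ a 5 * Z + α * X ^ 2 / 2) - (σ a 2 + σ a 4 * X + σ a 5 * Z + G * X ^ 2 / 2)| ≤ s
      rw [show (σ a 2 + σ a 4 * X + σ a 5 * Z + α * X ^ 2 / 2) - (σ a 2 + σ a 4 * X + σ a 5 * Z + G * X ^ 2 / 2) =
        (α - G) * X * X / 2 by ring]
      exact a3
    · show |(σ a 3 - α * Z) - (σ a 3 - G * Z)| ≤ s
      rw [show (σ a 3 - α * Z) - (σ a 3 - G * Z) = -((α - G) * Z) by ring, abs_neg]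
      exact a2
    · show |(σ a 4 + α * X) - (σ a 4 + G * X)| ≤ s
      rw [show (σ a 4 + α * X) - (σ a 4 + G * X) = (α - G) * X by ring]
      exact a1
    · show |σ a 5 - σ a 5| ≤ s
      rwa [sub_self, abs_zero]
  have e : σ b i - qm X Z G (σ a) i = (σ b i - qm X Z α (σ a) i) + (qm X Z α (σ a) i - qm X Z G (σ a) i) := by ring
  rw [e]
  exact (abs_add_le _ _).trans (add_le_add (h1 i) hd)

/-- the second case : the motions with the common number, for the law given `d` -/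
theorem leaf {ρ' : ℝ} (hD : Det P Δ E σ ρ') {al : U → T → ℝ} {e : U → T → ℝ} {e₀ s G : ℝ} {d : U} {z : T}
    (g : Good P Δ ζ E e e₀ d z) (hG : |al d z - G| ≤ s) {X Z ρ : ℝ} (hX : |X| ≤ 1) (hZ : |Z| ≤ 1)
    (h : NI (P.cond (fun ω => (Δ ω, ζ ω)) (d, z)) σ (qm X Z (al d z)) ρ (e d z)) :
    NI (P.cond Δ d) σ (qm X Z G) (ρ + 4 * ρ' + s) e₀ :=
  (ni_alpha hX hZ hG (mot_base hD g.1 hX hZ h)).mono le_rfl g.2

/-- two leaf motions compose -/
theorem leaf_add {Q : Law Ω} {X Z X' Z' G ρ ρ' ε ε' : ℝ} (hX' : |X'| ≤ 1) (hZ' : |Z'| ≤ 1)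
    (h : NI Q σ (qm X Z G) ρ ε) (h' : NI Q σ (qm X' Z' G) ρ' ε') :
    NI Q σ (qm (X + X') (Z + Z') G) (ρ' + 3 * ρ) (ε + ε') :=
  (h.comp h' (qm_lip hX' hZ')).congr fun x i => qm_add X Z X' Z' G x i

/-- multiples of a leaf motion -/
theorem leaf_mul {Q : Law Ω} {X Z G ρ ε : ℝ} (hρ : 0 ≤ ρ) (hX : |X| ≤ 1) (hZ : |Z| ≤ 1)
    (h : NI Q σ (qm X Z G) ρ ε) (k : ℕ) :
    NI Q σ (qm (k * X) (k * Z) G) (4 ^ k * ρ) (k * ε) := by
  induction k with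
  | zero =>
    refine (SubC.refl Q).mono (fun a b hab i => ?_) (by simp)
    subst hab
    have : qm ((0 : ℕ) * X) ((0 : ℕ) * Z) G (σ a) i = σ a i := by
      fin_cases i <;> simp [qm]
    rw [this, sub_self, abs_zero]
    positivity
  | succ k ih =>
    have h1 := leaf_add hX hZ ih h
    have e1 : ((k : ℝ) * X + X) = ((k + 1 : ℕ) : ℝ) * X := by push_cast; ring
    have e2 : ((k : ℝ) * Z + Z) = ((k + 1 : ℕ) : ℝ) * Z := by push_cast; ring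
    rw [e1, e2] at h1
    refine h1.mono ?_ ?_
    · rw [pow_succ]
      have : (1 : ℝ) ≤ 4 ^ k := one_le_pow₀ (by norm_num)
      nlinarith
    · push_cast
      linarith

end base

end Vale.Agent.P106.U.H416.Pfx
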