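import Vale.Agent.P106.U.H416.F1P
import Vale.Agent.P106.U.H384.F1Rec
import Vale.Agent.P106.U.H931.SC
import Vale.Agent.P106.U.MIC.Stage

/-!
# P106 / U / H416 : [SI] of kind 1 (helper416)

* `f1_vA` : the sum over the pairs of `S3.F2` of the informations about 384's letter `vA` of the run.
* `conv` : from the pairs `(j, k)` of a composition to the pairs of `S3.F2`.
* `I1r`, `I2r`, `si1_run`, `si2_run` : the sums over the composition, over a run of the record.
* **`si1`, `si2`** : the sums of kind 1 in the situation `MIC.St`, in the form of 652's `ev_kind`.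
-/

set_option autoImplicit false

namespace Vale.Agent.P106.U.H416.F1P

open Finset Vale.Agent.P127 Vale.Agent.P127.Stk Vale.Agent.P127.U Vale.Agent.P106.W
open Vale.Agent.P127.U.CellD (q2 rd Nb q2_pos q2_le q2_add fl1_fl1)
open Vale.Agent.P106.U.Cell
open Vale.Agent.P106.U.S3 (Run lv At At' IdK IdP Pf LTh LDk mt exc kaL uL F2 F2o F2b Ob)
open Vale.Agent.P106.U.H785.Mtr (Mtd YI hy_mt)
open Vale.Agent.P106.U.H384.F1 (VD lkR gdK vA hc_vA)
open Vale.Agent.P106.U.H384.Runs (rs)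
open Vale.Agent.P106.U.H416.F1C

/-! ### the curvature letter of the run -/

section vA

variable {Ω : Type} [Fintype Ω] {τ υ π : Type} {R : Run Ω τ υ} {p : Run.Num} {K K' c' g' gU : ℝ}
  {B bS bV μ : ℕ} {F : Pf R π} {Vs Xs Cu Bp : Finset ℕ} {o : Fin 7 → ℝ} {o' : ℕ → ℝ}

theorem gdK_of {k : ℕ} (h : k ∈ IdS R Vs Xs (Kap R) R.IsA) : gdK R Vs Xs k := by
  rw [mem_IdS] at h
  exact ⟨h.2.1, h.2.2.1, h.2.2.2.1⟩

/-- the letter does not change from level to level -/
theorem rs_next (hp : R.Path p) (hf : F2 R p K B bS bV F Vs Xs) (hB1 : 1 ≤ B) (hC : Cu ⊆ Bp) {k j : ℕ}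
    (hk : k ∈ IdS R Vs Xs (Kap R) R.IsA) (hj : j ∈ IdS R Vs Xs (Kap R) R.IsA) (hkj : k < j)
    (hl : lv R j = lv R k + 1) (hkB : lv R k ∉ Bp) :
    rs (lkR R (gdK R Vs Xs) Cu) j = rs (lkR R (gdK R Vs Xs) Cu) k := by
  rw [mem_IdS] at hk hj
  have hg : ∀ e, k ≤ e → e ≤ j → lv R e ∈ Vs ∧ lv R e ∉ Xs := by
    intro e h1 h2
    have e1 := lv_mono (R := R) h1
    have e2 := lv_mono (R := R) h2
    rcases Nat.lt_or_ge (lv R k) (lv R e) with h3 | h3
    · have : lv R e = lv R j := by omega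
      rw [this]
      exact ⟨hj.2.1, hj.2.2.1⟩
    · have : lv R e = lv R k := by omega
      rw [this]
      exact ⟨hk.2.1, hk.2.2.1⟩
  have hgd : ∀ e, k ≤ e → e ≤ j → gdK R Vs Xs e := fun e h1 h2 =>
    ⟨(hg e h1 h2).1, (hg e h1 h2).2, kd_kap hp hf hB1 k e hk.1.1 h1 (by omega) (fun i i1 i2 => hg i i1 (by omega))
      hk.2.2.2.1⟩
  refine (H384.Runs.rs_eq_of hkj.le fun e h1 h2 => ⟨hgd e h1 h2.le, hgd (e + 1) (by omega) h2, ?_⟩).symm
  have e1 := lv_mono (R := R) h1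
  have e2 := lv_mono (R := R) (i := e + 1) (j := j) h2
  have e3 := lv_mono (R := R) (Nat.le_succ e)
  rcases Nat.lt_or_ge (lv R k) (lv R e) with h3 | h3
  · left
    simp only [Nat.succ_eq_add_one] at e3
    omega
  · right
    have : lv R e = lv R k := by omega
    rw [this]
    exact fun hc => hkB (hC hc)

variable (hok : R.Ok p K c' g' gU) (hf : F2 R p K B bS bV F Vs Xs) (h1 : 1 ≤ K)
  (hB : (100 * K) ^ 20 ≤ (B : ℝ)) (hr : 100 * (R.m * B) ≤ R.r0) (hμB : μ ≤ B) (hμ : μ ≤ R.C.μ)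
  (hb : 8 * μ ≤ R.m * R.b1)

include hok hf h1 hb hB hr hμB hμ

open Classical in
/-- **F1+ with the curvature letter of the run** -/
theorem f1_vA (hK' : (100 * K) ^ 20 ≤ K') (ho : F2o R p B bS bV F Vs Xs μ K' o o')
    (hV : VD R p F K Vs Xs Cu (gdK R Vs Xs)) {d d0 : ℕ} (hd : 2 * μ + R.m ≤ d0 * R.m) {pp δ N0 : ℕ} (hN0 : K ≤ N0) :
    ∑ k ∈ IdS R Vs Xs (Kap R) R.IsA, ∑ i ∈ At' R p B d k,
      mi R.Q (vA R F pp δ (rs (lkR R (gdK R Vs Xs) Cu) k)) ((mt R F μ o o').mtr i (R.m * R.b1))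
      (fun ω => (LDk ((mt R F μ o o').fz k k) (R.m * R.b1) k ω, LTh ((mt R F μ o o').fz k k) (R.m * R.b1) i ω)) ≤
      (pp * Real.log 2 + ((δ + R.m) * Real.log 2 + Real.log (8 * N0 + 3))) *
        (((Ex Vs ∪ Xs ∪ Cu).card : ℝ) + 2 * ((d + d0 : ℕ) : ℝ) * ((Ex Vs ∪ Xs ∪ Cu).card + 1)) +
        4 * cF K * (K' * (R.n + p.J + 1) * q2 (μ / 8)) := by
  have hB1 : 1 ≤ B := by
    by_contra hc
    have h0 : B = 0 := by omega
    rw [h0] at hB
    have : (1 : ℝ) ≤ (100 * K) ^ 20 := one_le_pow₀ (by linarith)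
    norm_num at hB
    linarith
  have l2 : 0 ≤ Real.log 2 := Real.log_nonneg (by norm_num)
  have l8 : 0 ≤ Real.log (8 * (N0 : ℝ) + 3) := Real.log_nonneg (by
    have : (0 : ℝ) ≤ N0 := Nat.cast_nonneg _
    linarith)
  refine f1k hok hf h1 hB hr hμB hμ hb hK' ho (ruleA hok.pth) hd
    (fun v hv => Finset.mem_union_left _ (Finset.mem_union_right _ hv))
    (fun v hv => Finset.mem_union_left _ (Finset.mem_union_left _ hv)) _ (fun _ i => (mt R F μ o o').mtr i (R.m * R.b1))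
    (by positivity) ?_ ?_ (fun _ _ _ _ _ _ _ _ e => e)
  · intro k hk
    have hk' := mem_IdS.1 hk
    refine hc_vA hV (by linarith) (H384.Runs.rs_le _ k) (by omega) (fun e e1 e2 => H384.Runs.lk_of e1 e2) ?_ pp δ hN0
    rcases (H384.Runs.rs_le (lkR R (gdK R Vs Xs) Cu) k).eq_or_lt with e | e
    · rw [e]
      exact gdK_of hk
    · exact (H384.Runs.lk_of (lk := lkR R (gdK R Vs Xs) Cu) le_rfl e).1
  · intro k hk j hj hkj hl hkB _ ω _
    show vA R F pp δ _ ω = vA R F pp δ _ ω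
    rw [rs_next hok.pth hf hB1 (fun v hv => Finset.mem_union_right _ hv) hk hj hkj hl hkB]

end vA

/-! ### from the composition to the record -/

section conv

variable {Ω : Type} [Fintype Ω] {τ υ : Type} {R : Run Ω τ υ} {p : Run.Num}

open Classical in
/-- the pairs of a composition: `u j` in `S`, `y k` a late a-step of `u j`, at most `D` levels later; `ok j` = one `j` per level -/
def PrC (R : Run Ω τ υ) (p : Run.Num) (B D : ℕ) (S : Finset ℕ) (ok : ℕ → Prop) (u y : ℕ → ℕ) (j k : ℕ) : Prop :=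
  ok j ∧ u j ∈ S ∧ ∃ d ≤ D, y k ∈ At' R p B d (u j)

open Classical in
/-- **conversion** -/
theorem conv {B D N L : ℕ} {S : Finset ℕ} {ok : ℕ → Prop} {u y : ℕ → ℕ} {g : ℕ → ℕ → ℝ} (hg : ∀ a b, 0 ≤ g a b)
    (hu : ∀ j < N, ∀ j' < N, ok j → ok j' → u j = u j' → j = j') :
    ∑ j ∈ range N, ∑ k ∈ Ioc j (j + L), (if PrC R p B D S ok u y j k then g (u j) (y k) else 0) ≤
      L * ∑ d ∈ range (D + 1), ∑ a ∈ S, ∑ i ∈ At' R p B d a, g a i := by
  set J := (range N).filter fun j => ok j ∧ u j ∈ S with hJ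
  set G : ℕ → ℝ := fun a => ∑ d ∈ range (D + 1), ∑ i ∈ At' R p B d a, g a i with hG
  have G0 : ∀ a, 0 ≤ G a := fun a => Finset.sum_nonneg fun d _ => Finset.sum_nonneg fun i _ => hg a i
  have s1 : ∀ j ∈ range N, ∑ k ∈ Ioc j (j + L), (if PrC R p B D S ok u y j k then g (u j) (y k) else 0) ≤
      if ok j ∧ u j ∈ S then L * G (u j) else 0 := by
    intro j _
    by_cases h : ok j ∧ u j ∈ S
    · rw [if_pos h]
      refine (Finset.sum_le_card_nsmul _ _ (G (u j)) fun k _ => ?_).trans (le_of_eq ?_)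
      · split_ifs with h2
        · obtain ⟨_, _, d, hd, hi⟩ := h2
          have e1 : g (u j) (y k) ≤ ∑ i ∈ At' R p B d (u j), g (u j) i :=
            Finset.single_le_sum (f := fun i => g (u j) i) (fun i _ => hg _ _) hi
          have e2 : ∑ i ∈ At' R p B d (u j), g (u j) i ≤ G (u j) :=
            Finset.single_le_sum (f := fun d => ∑ i ∈ At' R p B d (u j), g (u j) i)
              (fun d _ => Finset.sum_nonneg fun i _ => hg _ _) (Finset.mem_range.2 (by omega))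
          exact e1.trans e2
        · exact G0 _
      · rw [nsmul_eq_mul, Nat.card_Ioc]
        congr 2
        omega
    · rw [if_neg h]
      refine (Finset.sum_eq_zero fun k _ => ?_).le
      rw [if_neg fun h2 => h ⟨h2.1, h2.2.1⟩]
  refine (Finset.sum_le_sum s1).trans ?_
  rw [← Finset.sum_filter, ← hJ]
  have e1 : ∑ j ∈ J, (L : ℝ) * G (u j) = L * ∑ a ∈ J.image u, G a := by
    rw [Finset.mul_sum, Finset.sum_image]
    intro a ha b hb h
    have ha := Finset.mem_filter.1 ha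
    have hb := Finset.mem_filter.1 hb
    exact hu a (Finset.mem_range.1 ha.1) b (Finset.mem_range.1 hb.1) ha.2.1 hb.2.1 h
  have e2 : ∑ d ∈ range (D + 1), ∑ a ∈ S, ∑ i ∈ At' R p B d a, g a i = ∑ a ∈ S, G a := Finset.sum_comm
  rw [e1, e2]
  refine mul_le_mul_of_nonneg_left ?_ (Nat.cast_nonneg _)
  refine Finset.sum_le_sum_of_subset_of_nonneg (fun a ha => ?_) fun a _ _ => G0 a
  obtain ⟨j, hj, rfl⟩ := Finset.mem_image.1 ha
  exact (Finset.mem_filter.1 hj).2.2

end conv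

end Vale.Agent.P106.U.H416.F1P
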