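import Vale.Agent.P106.U.H416.F1Q
import Vale.Agent.P106.U.H425.SI2b
import Vale.Agent.P106.U.H652.SE1
import Vale.Agent.P106.U.H833.L2s

/-!
# P106 / U / H416 : the sum of the first informations of the light windows of kind 2 (helper416)

* `P0s` : the levels of kind 2 outside the exceptional levels.
* `lvs` : the level of the record index of a step.
* `i1_st` : the sum of `I1V` over the situation;  **`hI2a : H425.HI2a`**.
-/

set_option autoImplicit false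

namespace Vale.Agent.P106.U.H416.SI2

open Finset Vale.Agent.P127 Vale.Agent.P127.Stk
open Vale.Agent.P127.U.CellD (q2 q2_pos q2_le q2_add fl1_fl1)
open Vale.Agent.P106.U.S3 (Run F2b IdP At' lv)
open Vale.Agent.P106.U.S5 (Bs Cst Thr Gv)
open Vale.Agent.P106.U.MIC
open Vale.Agent.P106.U.H833 (aN RN lx I1N I2N)
open Vale.Agent.P106.U.H118 (Sdat)
open Vale.Agent.P106.U.H495 (WAt)
open Vale.Agent.P106.U.H336 (SwL)
open Vale.Agent.P106.U.H652 (Ev3)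
open Vale.Agent.P106.U.H652.SE (KNum)
open Vale.Agent.P106.U.Cell (Pth)
open Vale.Agent.P106.U.H683.L2
open Vale.Agent.P106.U.H425
open Vale.Agent.P106.U.H416.F1C
open Vale.Agent.P106.U.H416.F1P (PL DN f1p)

variable {η : ℝ} {x : ℕ} {σ : Cst} {ε : ℝ} {ρ : Thr} {g : Gv} {m B h : ℕ}

open Classical in
/-- the levels of kind 2 outside `S` -/
noncomputable def P0s (s : St η x σ ε ρ g m B h) (S : Finset ℕ) : Finset ℕ :=
  (range (aN s.R s.R.n)).filter fun z => Pu s S z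

theorem mem_P0s {s : St η x σ ε ρ g m B h} {S : Finset ℕ} {z : ℕ} : z ∈ P0s s S ↔ z < aN s.R s.R.n ∧ Pu s S z := by
  classical
  unfold P0s
  rw [Finset.mem_filter, Finset.mem_range]

/-- indices of the levels -/
theorem pl_st (s : St η x σ ε ρ g m B h) (hB : 1 ≤ B) (Lw : ℕ) : PL s.R s.F B s.Vs s.Xs (P0s s (SwL s.R B s.Vs s.Xs Lw)) where
  id := fun t htn ht => by
    have h1 : Pu s (SwL s.R B s.Vs s.Xs Lw) (aN s.R t) := (mem_P0s.1 ht).2
    exact (H833.st_kd2 s hB htn h1.1 h1.2).2.1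
  top := fun u hu => (mem_P0s.1 hu).1

/-- few exits -/
theorem xt_st (s : St η x σ ε ρ g m B h) (hB : 1 ≤ B) {Lw : ℕ} (hL : 1 ≤ Lw) :
    (Xt (P0s s (SwL s.R B s.Vs s.Xs Lw))).card ≤ 2 * (SwL s.R B s.Vs s.Xs Lw).card + 1 := by
  classical
  set S := SwL s.R B s.Vs s.Xs Lw with hS
  have hP := s.run.ok.pth
  have h1 : Xt (P0s s S) ⊆ S ∪ (S.image (fun z => z - 1) ∪ {aN s.R s.R.n - 1}) := by
    intro z hz
    unfold Xt at hz
    rw [Finset.mem_filter] at hz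
    obtain ⟨h1, h2⟩ := hz
    obtain ⟨h3, h4⟩ := mem_P0s.1 h1
    rw [Finset.mem_union, Finset.mem_union, Finset.mem_image, Finset.mem_singleton]
    by_cases h5 : z + 1 < aN s.R s.R.n
    · right
      left
      have h6 : ¬ Pu s S (z + 1) := fun hh => h2 (mem_P0s.2 ⟨h5, hh⟩)
      by_cases h7 : z + 1 ∈ S
      · exact ⟨z + 1, h7, by omega⟩
      · exfalso
        refine h6 ⟨h7, ?_⟩
        have e1 : H404.kd3 s.R s.Vs s.Xs z = 2 :=
          (H404.kd3_kd (by omega) h4.1).2.1.2 ((H404.kd_cases s _).2.1.1 h4.2)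
        have e2 : H404.kd3 s.R s.Vs s.Xs (z + 1) = 2 := by
          by_contra hc
          refine h4.1 (H404.kd3_sw (H336.rg_of s.f2 hP.m1 hB) hP (L := Lw) hL (by omega) ?_)
          rw [e1]
          exact fun hh => hc hh.symm
        exact (H404.kd_cases s _).2.1.2 ((H404.kd3_kd (by omega) h7).2.1.1 e2)
    · right
      right
      omega
  refine (Finset.card_le_card h1).trans ((Finset.card_union_le _ _).trans ?_)
  have h2 := Finset.card_union_le (S.image (fun z => z - 1)) {aN s.R s.R.n - 1}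
  have h3 : (S.image (fun z => z - 1)).card ≤ S.card := Finset.card_image_le
  rw [Finset.card_singleton] at h2
  omega

/-- the direction given the cell -/
theorem hc_dir {Ω π : Type} [Fintype Ω] (P : Law Ω) (D : H785.Mtr.Mtd Ω π) (t b pv : ℕ) :
    Stk.hc P (fun ω => fl1 (b + pv) (D.l ω).v) (D.mtr t b) ≤ pv * Real.log 2 := by
  have h1 := hc_fl1_digits_le P (s := b) (s' := b + pv) (Nat.le_add_right _ _) (fun ω => (D.l ω).v) (fun _ => ())
  rw [Nat.add_sub_cancel_left] at h1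
  refine le_trans (hc_mono_right P _ ?_) h1
  intro ω ω' _ _ e
  exact Prod.ext (congrArg (fun z : H785.Mtr.Lt π × Pth.Dg => z.2.1) e) rfl

open Classical in
/-- **the sum of the first informations of kind 2** -/
theorem i1_sum (hρ : ρ.Ok) (NN : KNum x ρ m B h) (s : St η x σ ε ρ g m B h) (h5 : 5 * μS x m ≤ m * B)
    {L1 L2 Lk Kr Lw d0 : ℕ} (h0 : 0 < Kr) (hLk : Kr ≤ Lk) (hLw : L1 + Kr ≤ Lw) (hLB : L1 + Kr ≤ B)
    (hd : DN s.R s.pn (μS x m) d0) :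
    ∑ j ∈ range s.N, ∑ k ∈ Ioc j (j + L1), I1V s (SwL s.R B s.Vs s.Xs Lw) L1 L2 Lk Kr j k ≤
      (L1 * (L2 + 1) : ℕ) * ((2 * μS x m : ℕ) * Real.log 2) * ((4 * d0 + 2 * (d0 + (L1 + Kr)) : ℕ) *
        (Xt (P0s s (SwL s.R B s.Vs s.Xs Lw))).card) +
        (H958.cF ρ.K * (2 * (L1 * (L2 + 1) : ℕ) * (8 * Real.sqrt ((P0s s (SwL s.R B s.Vs s.Xs Lw)).card *
          H958.xF s.R s.pn (μS x m) (KS ρ) 0))) +
        H958.cF ρ.K * (4 * Real.sqrt ((s.N * L1 : ℕ) * (L1 * (((L1 + Kr : ℕ) + 1) *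
          H958.xF s.R s.pn (μS x m) (KS ρ) (L1 + Kr)))))) := by
  have hP := s.run.ok.pth
  have hK1 := hρ.K1
  have hm1 : 1 ≤ s.R.m := hP.m1
  have hB1 := NN.B1
  have hμm : μS x m ≤ s.R.C.μ := by
    rw [s.run.hμ]
    exact NN.μB.trans (Nat.le_mul_of_pos_left B NN.m1)
  have hb : 8 * μS x m ≤ s.R.m * s.R.b1 := by
    have h1 := s.run.cap.low
    have h2 : s.R.b1 ≤ s.R.m * s.R.b1 := Nat.le_mul_of_pos_left _ hm1
    have h3 := NN.μB
    omega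
  have hr : 100 * (s.R.m * B) ≤ s.R.r0 := by
    rw [s.run.hm, s.run.hr0]
    exact s.run.rm
  have hx : s.R.m * s.R.b1 ≤ s.pn.B₁ := by
    have e1 := s.f2.loS
    have e2 := s.f2.loV
    have e3 := s.f2.hi
    have e4 : s.R.m * (s.R.b1 + B) = s.R.m * s.R.b1 + s.R.m * B := by ring
    omega
  set Sw := SwL s.R B s.Vs s.Xs Lw with hSw
  set D := H683.L2.Dd s with hD
  set b := s.R.m * s.R.b1 with hbd
  set Pr : ℕ → ℕ → Prop := fun j k => WAt s.N s.a (Pu s Sw) L1 L2 Lk Kr j k with hPr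
  set G := ((range s.N).sigma fun j => Ioc j (j + L1)).filter fun q => Pr q.1 q.2 with hG
  have hGw : ∀ q ∈ G, WAt s.N s.a (Pu s Sw) L1 L2 Lk Kr q.1 q.2 := fun q hq => (Finset.mem_filter.1 hq).2
  have hGj : ∀ q ∈ G, q.1 < s.N ∧ q.1 < q.2 ∧ q.2 ≤ q.1 + L1 := fun q hq => by
    have h1 := (Finset.mem_filter.1 hq).1
    rw [Finset.mem_sigma, Finset.mem_range, Finset.mem_Ioc] at h1
    exact ⟨h1.1, h1.2.1, h1.2.2⟩
  have hst := H812.ix_strict (R := s.R) (p := s.pn) (i0 := s.i0) hP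
  have inj : ∀ j j' k k', Pr j k → Pr j' k' → s.f j + 1 = s.f j' + 1 → j = j' := by
    intro j j' k k' w w' e
    have w1 := wat_le w
    have w2 := wat_le w'
    rcases lt_trichotomy j j' with h | h | h
    · have : s.f j < s.f j' := hst _ _ h (by show j' ≤ s.N; omega)
      omega
    · exact h
    · have : s.f j' < s.f j := hst _ _ h (by show j ≤ s.N; omega)
      omega
  have e1 : ∑ j ∈ range s.N, ∑ k ∈ Ioc j (j + L1), I1V s Sw L1 L2 Lk Kr j k =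
      ∑ q ∈ G, mi s.R.Q (fun ω => fl1 (b + 2 * μS x m) (D.l ω).v) ((D.fz (s.f q.1 + 1) (s.f q.1 + 1)).cell (yx s Kr q.2) b)
        (fun ω => (S3.LDk (D.fz (s.f q.1 + 1) (s.f q.1 + 1)) b (s.f q.1 + 1) ω,
          S3.LTh (D.fz (s.f q.1 + 1) (s.f q.1 + 1)) b (yx s Kr q.2) ω)) :=
    H652.sum_pairs s.N L1 (fun j k => mi s.R.Q (fun ω => fl1 (b + 2 * μS x m) (D.l ω).v)
      ((D.fz (s.f j + 1) (s.f j + 1)).cell (yx s Kr k) b)
        (fun ω => (S3.LDk (D.fz (s.f j + 1) (s.f j + 1)) b (s.f j + 1) ω,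
          S3.LTh (D.fz (s.f j + 1) (s.f j + 1)) b (yx s Kr k) ω))) Pr
  rw [e1]
  have hcard : G.card ≤ s.N * L1 := by
    refine (Finset.card_filter_le _ _).trans ?_
    rw [Finset.card_sigma]
    refine (Finset.sum_le_card_nsmul _ _ L1 fun j _ => ?_).trans ?_
    · rw [Nat.card_Ioc]
      omega
    · rw [Finset.card_range, smul_eq_mul]
  have main := f1p (o := s.o) (o' := s.o') s.run.ok s.f2 hK1 NN.KB hr NN.μB hμm hb (le_refl (KS ρ)) hx
    (by rw [s.run.hm]; exact h5) s.f2o (pl_st s hB1 Lw) (d0 := d0) (Dm := L1 + Kr) hd hLB G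
    (fun q => s.f q.1 + 1) (fun q => yx s Kr q.2) (fun q => aN s.R (yx s Kr q.2) - aN s.R (s.f q.1 + 1)) ?_
    L1 (L1 * (L2 + 1)) ?_ ?_ (fun ω => fl1 (b + 2 * μS x m) (D.l ω).v) (H := (2 * μS x m : ℕ) * Real.log 2)
    (by positivity) (fun t _ _ => hc_dir _ _ _ _ _)
  · refine main.trans (add_le_add le_rfl (add_le_add le_rfl ?_))
    have cF0 : 0 ≤ H958.cF ρ.K := by
      obtain ⟨z1, z2, z3⟩ := H958.z_nn (4 * ρ.K)
      unfold H958.cF
      have := z3 ⌈641 * (4 * ρ.K) ^ 2⌉₊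
      linarith
    have x0 := H958.xF_nn s.R s.pn (μS x m) (KS ρ) (L1 + Kr)
    have c1 : (G.card : ℝ) ≤ (s.N * L1 : ℕ) := by exact_mod_cast hcard
    gcongr
  · intro q hq
    have w := hGw q hq
    obtain ⟨w1, w2, w3, w4, w5⟩ := wat_at s hB1 h0 hLw (Finset.Subset.refl Sw) w
    have w6 := wat_le w
    obtain ⟨l1, l2, l3, l4, l5, l6, l7⟩ := H833.wat_lx s (c := 2) h0 w
    have n1 : yx s Kr q.2 ≤ s.R.n := H812.ix_le_n _ _ _
    have hyA : s.R.IsA (yx s Kr q.2) := H833.isA_st s (c := 2) h0 w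
    have hlt : yx s Kr q.2 < s.R.n := by
      have h1 : s.f (lx s.N s.a Kr q.2) < s.f (lx s.N s.a Kr q.2 + 1) := hst _ _ (Nat.lt_succ_self _)
        (by show lx s.N s.a Kr q.2 + 1 ≤ s.N; omega)
      have h2 : s.f (lx s.N s.a Kr q.2 + 1) ≤ s.R.n := H812.ix_le_n _ _ _
      show s.f (lx s.N s.a Kr q.2) < s.R.n
      omega
    have htop : aN s.R (yx s Kr q.2) < aN s.R s.R.n := by
      have h1 := F1P.lv_succ hP (i := yx s Kr q.2) (by omega) hyA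
      have h2 := H833.aN_mono hP (i := yx s Kr q.2 + 1) (j := s.R.n) (by omega) (by omega)
      have h3 : aN s.R (yx s Kr q.2 + 1) = aN s.R (yx s Kr q.2) + 1 := h1
      omega
    have hPu : Pu s Sw (aN s.R (s.f q.1 + 1)) := by
      refine w.2.2.2 _ ?_ ?_
      · exact H833.aN_mono hP (i := s.f q.1) (j := s.f q.1 + 1) (by omega) (by omega)
      · have f1 : s.f q.1 < s.f q.2 := hst _ _ w6.1 (by show q.2 ≤ s.N; omega)
        have f2 : s.f q.2 ≤ s.R.n := H812.ix_le_n _ _ _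
        have h1 := H833.aN_mono hP (i := s.f q.1 + 1) (j := s.f q.2) (by omega) (by omega)
        have h2 : aN s.R (s.f q.2) = s.a q.2 := rfl
        omega
    refine ⟨by omega, mem_P0s.2 ⟨?_, hPu⟩, w5, ?_, n1⟩
    · exact lt_of_le_of_lt w3 htop
    · show aN s.R (yx s Kr q.2) - aN s.R (s.f q.1 + 1) ≤ L1 + Kr
      omega
  · intro t
    exact H652.card_u (s := fun j => s.f j + 1) inj t
  · intro v
    -- the number of pairs at a level
    set Gv := G.filter fun q => lv s.R (s.f q.1 + 1) = v with hGv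
    rcases Gv.eq_empty_or_nonempty with he | hne
    · rw [he, Finset.card_empty]
      exact Nat.zero_le _
    · obtain ⟨q0, hq0, hmin⟩ := Finset.exists_min_image Gv (fun q => q.1) hne
      have hq0' := Finset.mem_filter.1 hq0
      have w0 := hGw q0 hq0'.1
      have D0 := H812.st_sdat s
      have key : ∀ q ∈ Gv, q0.1 ≤ q.1 ∧ q.1 ≤ q0.1 + L2 := by
        intro q hq
        refine ⟨hmin q hq, ?_⟩
        by_contra hc
        push Not at hc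
        have hq' := Finset.mem_filter.1 hq
        have w := hGw q hq'.1
        have w6 := wat_le w
        obtain ⟨i1, i2, i3, i4, i5⟩ := w0.2.2.1
        -- `a q.1 ≥ a i1 ≥ a k0 + Kr + 1`
        have a1 := D0.am (i := i1) (j := q.1) (by omega) (by have := (hGj q hq'.1).1; omega)
        have f1 : s.f q0.1 < s.f q0.2 := hst _ _ w0.1 (by show q0.2 ≤ s.N; have := (wat_le w0).2.2; omega)
        have f2 : s.f q0.2 ≤ s.R.n := H812.ix_le_n _ _ _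
        have b1 := H833.aN_mono hP (i := s.f q0.1 + 1) (j := s.f q0.2) (by omega) (by omega)
        have b2 : aN s.R (s.f q0.2) = s.a q0.2 := rfl
        have b3 : aN s.R (s.f q.1) = s.a q.1 := rfl
        have f3 : s.f q.1 < s.R.n := by
          have h1 : s.f q.1 < s.f q.2 := hst _ _ w.1 (by show q.2 ≤ s.N; omega)
          have h2 : s.f q.2 ≤ s.R.n := H812.ix_le_n _ _ _
          omega
        have b4 := H833.aN_mono hP (i := s.f q.1) (j := s.f q.1 + 1) (by omega) (by omega)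
        have b5 : aN s.R (s.f q0.1 + 1) = v := hq0'.2
        have b6 : aN s.R (s.f q.1 + 1) = v := hq'.2
        have g1 : s.a i1 ≤ s.a q.1 := a1
        have g2 : s.a q0.2 + Kr + 1 ≤ s.a i1 := i5
        omega
      have hsub : Gv ⊆ (Finset.Icc q0.1 (q0.1 + L2)).sigma fun j => Ioc j (j + L1) := by
        intro q hq
        have hk := key q hq
        have hj := hGj q (Finset.mem_filter.1 hq).1
        rw [Finset.mem_sigma, Finset.mem_Icc, Finset.mem_Ioc]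
        exact ⟨hk, hj.2.1, hj.2.2⟩
      refine (Finset.card_le_card hsub).trans ?_
      rw [Finset.card_sigma]
      refine (Finset.sum_le_card_nsmul _ _ L1 fun j _ => ?_).trans ?_
      · rw [Nat.card_Ioc]
        omega
      · rw [Nat.card_Icc, smul_eq_mul]
        refine le_of_eq ?_
        rw [show q0.1 + L2 + 1 - q0.1 = L2 + 1 by omega]
        ring

theorem card_P0 (s : St η x σ ε ρ g m B h) (S : Finset ℕ) : ((P0s s S).card : ℝ) ≤ s.R.n + s.pn.J + 1 := by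
  classical
  have hP := s.run.ok.pth
  have h1 : (P0s s S).card ≤ aN s.R s.R.n := by
    refine (Finset.card_filter_le _ _).trans ?_
    rw [Finset.card_range]
  have key : ∀ i ≤ s.R.n, aN s.R i ≤ i := by
    intro i
    induction i with
    | zero =>
      intro _
      rw [H833.a0N hP]
    | succ i ih =>
      intro hi
      have h2 := ih (by omega)
      have e1 := F1P.a_mul hP (i := i) (by omega)
      have e2 := F1P.a_mul hP (i := i + 1) (by omega)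
      have m1 := hP.m1
      have h3 : s.R.C.a (i + 1) ≤ s.R.C.a i + s.R.m := by
        rcases hP.stp i (by omega) with ⟨h, _, _⟩ | ⟨h, _, _⟩ | ⟨h, _, _⟩ <;> omega
      rw [e1, e2] at h3
      have h4 : lv s.R (i + 1) * s.R.m ≤ (lv s.R i + 1) * s.R.m := by
        rw [Nat.add_mul]
        omega
      have h5 := Nat.le_of_mul_le_mul_right h4 m1
      have h6 : aN s.R (i + 1) ≤ aN s.R i + 1 := h5
      omega
  have h2 := key s.R.n le_rfl
  have h3 : ((P0s s S).card : ℝ) ≤ s.R.n := by exact_mod_cast h1.trans h2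
  have : (0 : ℝ) ≤ s.pn.J := Nat.cast_nonneg _
  linarith

theorem N_le_n (s : St η x σ ε ρ g m B h) : (s.N : ℝ) ≤ s.R.n + s.pn.J + 1 := by
  have hP := s.run.ok.pth
  have hst := H812.ix_strict (R := s.R) (p := s.pn) (i0 := s.i0) hP
  have key : ∀ j ≤ s.N, j ≤ s.f j := by
    intro j
    induction j with
    | zero => intro _; exact Nat.zero_le _
    | succ j ih =>
      intro hj
      have h1 := ih (by omega)
      have h2 : s.f j < s.f (j + 1) := hst _ _ (Nat.lt_succ_self _) hj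
      omega
  have h1 := key s.N le_rfl
  have h2 : s.f s.N ≤ s.R.n := H812.ix_le_n _ _ _
  have h3 : (s.N : ℝ) ≤ s.R.n := by exact_mod_cast h1.trans h2
  have : (0 : ℝ) ≤ s.pn.J := Nat.cast_nonneg _
  linarith

/-- a root -/
theorem root_le {a nJ K q c : ℝ} {μ : ℕ} (ha : a ≤ (c * (K * nJ)) ^ 2 * q2 (μ / 4)) (hK : 0 ≤ K) (hn : 0 ≤ nJ) (hc : 0 ≤ c)
    (hq : q = q2 (μ / 8)) : Real.sqrt a ≤ 2 * (c * (K * nJ) * q) := by
  have q0 := q2_pos (μ / 8)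
  have h1 : q2 (μ / 4) ≤ q2 (μ / 8 + μ / 8) := q2_le (by omega)
  rw [q2_add] at h1
  rw [hq, Real.sqrt_le_left (by positivity)]
  refine ha.trans ?_
  have e : (2 * (c * (K * nJ) * q2 (μ / 8))) ^ 2 = (c * (K * nJ)) ^ 2 * (4 * (q2 (μ / 8) * q2 (μ / 8))) := by ring
  rw [e]
  refine mul_le_mul_of_nonneg_left ?_ (sq_nonneg _)
  have : 0 ≤ q2 (μ / 8) * q2 (μ / 8) := by positivity
  linarith

/-- constants -/
noncomputable def i1D (x J L1 L2 Kr Lw : ℕ) (K1 : ℝ) : ℝ :=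
  (L1 * (L2 + 1) : ℕ) * (4 * (4 * (cμ * xS x) * (J + 1) + 1) + 2 * (4 * (cμ * xS x) * (J + 1) + 1 + (L1 + Kr)) : ℕ) *
    (2 * (cμ * xS x) : ℕ) * (2 * ((Lw + 1) * (4 + (Lw + 1) * (2 * K1 + 3))))

noncomputable def i1X (x J L1 L2 Kr Lw : ℕ) : ℝ :=
  (L1 * (L2 + 1) : ℕ) * (4 * (4 * (cμ * xS x) * (J + 1) + 1) + 2 * (4 * (cμ * xS x) * (J + 1) + 1 + (L1 + Kr)) : ℕ) *
    (2 * (cμ * xS x) : ℕ) * (2 * ((Lw + 1) * (Lw + 2)) + 1)

noncomputable def i1C (K K1 : ℝ) (L1 L2 Kr : ℕ) : ℝ :=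
  H958.cF K * (32 * (L1 * (L2 + 1) : ℕ) + 8 * (L1 * (((L1 + Kr : ℕ) : ℝ) + 1) ^ 2)) * (2 * K1 + 4)

theorem cF_nn (K : ℝ) : 0 ≤ H958.cF K := by
  obtain ⟨z1, z2, z3⟩ := H958.z_nn (4 * K)
  unfold H958.cF
  have := z3 ⌈641 * (4 * K) ^ 2⌉₊
  linarith

/-- **the sum of the first informations**, in the form of 652's `ev_kind` -/
theorem i1_st (hρ : ρ.Ok) (NN : KNum x ρ m B h) (s : St η x σ ε ρ g m B h) (h5 : 5 * μS x m ≤ m * B) (hK1 : 0 ≤ σ.K1)
    {L1 L2 Lk Kr Lw : ℕ} (h0 : 0 < Kr) (hLk : Kr ≤ Lk) (hLw : L1 + Kr ≤ Lw) (hLB : L1 + Kr ≤ B) :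
    ∑ j ∈ range s.N, ∑ k ∈ Ioc j (j + L1), I1V s (SwL s.R B s.Vs s.Xs Lw) L1 L2 Lk Kr j k ≤
      i1D x ρ.J L1 L2 Kr Lw σ.K1 * ((h : ℝ) / B) + KS ρ * (m + (μS x m : ℕ) + 1) * q2 (μS x m / 8) *
        (i1C ρ.K σ.K1 L1 L2 Kr * ((h : ℝ) / m)) + i1X x ρ.J L1 L2 Kr Lw * m := by
  have hP := s.run.ok.pth
  have hm1 := NN.m1
  have hm0 : (0 : ℝ) < m := by exact_mod_cast hm1
  have hB1 := NN.B1
  set d0 := 4 * (cμ * xS x) * (ρ.J + 1) + 1 with hd0
  have eμ : μS x m = cμ * xS x * m := rfl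
  have hd : DN s.R s.pn (μS x m) d0 := by
    refine ⟨?_, 4 * (cμ * xS x), ?_, ?_⟩
    · rw [s.run.hm, eμ, hd0]
      have : 2 * (cμ * xS x) + 1 ≤ 4 * (cμ * xS x) * (ρ.J + 1) + 1 := by nlinarith [Nat.zero_le (cμ * xS x * ρ.J)]
      calc 2 * (cμ * xS x * m) + m = (2 * (cμ * xS x) + 1) * m := by ring
        _ ≤ _ := Nat.mul_le_mul_right _ this
    · rw [s.run.hm, eμ]
      exact le_of_eq (by ring)
    · rw [s.run.hJ, hd0]
      nlinarith [Nat.zero_le (cμ * xS x)]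
  have h1 := i1_sum hρ NN s h5 (L1 := L1) (L2 := L2) (Lk := Lk) (Kr := Kr) (Lw := Lw) (d0 := d0) h0 hLk hLw hLB hd
  refine h1.trans ?_
  set S := SwL s.R B s.Vs s.Xs Lw with hS
  set nJ : ℝ := s.R.n + s.pn.J + 1 with hnJ
  have nJ0 : 0 ≤ nJ := by positivity
  have hK0 : 0 ≤ KS ρ := KS_nonneg ρ
  have cF0 := cF_nn ρ.K
  have q0 := q2_pos (μS x m / 8)
  have q4 := q2_pos (μS x m / 4)
  -- first part
  have t1 : ((L1 * (L2 + 1) : ℕ) : ℝ) * ((2 * μS x m : ℕ) * Real.log 2) * ((4 * d0 + 2 * (d0 + (L1 + Kr)) : ℕ) *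
        (Xt (P0s s S)).card) ≤ i1D x ρ.J L1 L2 Kr Lw σ.K1 * ((h : ℝ) / B) + i1X x ρ.J L1 L2 Kr Lw * m := by
    have a1 : ((Xt (P0s s S)).card : ℝ) ≤ 2 * S.card + 1 := by
      have := xt_st s hB1 (Lw := Lw) (by omega)
      exact_mod_cast this
    have a2 := H336.swl_f2 s.f2 hP (K1 := σ.K1) (by
      rw [s.run.hq, s.run.hr0, s.run.hh]
      exact s.run.qr) Lw hB1
    rw [s.run.hm, s.run.hh] at a2
    have a3 : Real.log 2 ≤ 1 := by
      have := Real.log_two_lt_d9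
      linarith
    have a4 : (((2 * μS x m : ℕ) : ℝ)) * Real.log 2 ≤ (2 * (cμ * xS x) : ℕ) * m := by
      have e : ((2 * μS x m : ℕ) : ℝ) = (2 * (cμ * xS x) : ℕ) * m := by
        rw [eμ]
        push_cast
        ring
      rw [e]
      have : (0 : ℝ) ≤ (2 * (cμ * xS x) : ℕ) * m := by positivity
      nlinarith
    have l2 : 0 ≤ Real.log 2 := Real.log_nonneg (by norm_num)
    set N1 : ℝ := ((L1 * (L2 + 1) : ℕ) : ℝ) with hN1
    set E : ℝ := ((4 * d0 + 2 * (d0 + (L1 + Kr)) : ℕ) : ℝ) with hE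
    set P : ℝ := ((2 * (cμ * xS x) : ℕ) : ℝ) with hPd
    have N10 : 0 ≤ N1 := Nat.cast_nonneg _
    have E0 : 0 ≤ E := Nat.cast_nonneg _
    have P0 : 0 ≤ P := Nat.cast_nonneg _
    calc N1 * ((2 * μS x m : ℕ) * Real.log 2) * (E * (Xt (P0s s S)).card)
        ≤ N1 * (P * m) * (E * (2 * S.card + 1)) := by gcongr
      _ = N1 * E * P * (2 * (m * S.card) + m) := by ring
      _ ≤ N1 * E * P * (2 * ((Lw + 1) * (4 + (Lw + 1) * (2 * σ.K1 + 3)) * ((h : ℝ) / B) + (Lw + 1) * (Lw + 2) * m) + m) := by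
          gcongr
      _ = _ := by
          unfold i1D i1X
          rw [← hd0]
          ring
  -- roots
  have xf : ∀ d : ℕ, H958.xF s.R s.pn (μS x m) (KS ρ) d = KS ρ ^ 2 * ((d : ℝ) + 1) ^ 2 * nJ * q2 (μS x m / 4) := fun d => rfl
  have t2 : Real.sqrt ((P0s s S).card * H958.xF s.R s.pn (μS x m) (KS ρ) 0) ≤ 2 * (1 * (KS ρ * nJ) * q2 (μS x m / 8)) := by
    refine root_le ?_ hK0 nJ0 zero_le_one rfl
    rw [xf]
    have a1 := card_P0 s S
    calc ((P0s s S).card : ℝ) * (KS ρ ^ 2 * (((0 : ℕ) : ℝ) + 1) ^ 2 * nJ * q2 (μS x m / 4))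
        ≤ nJ * (KS ρ ^ 2 * (((0 : ℕ) : ℝ) + 1) ^ 2 * nJ * q2 (μS x m / 4)) := by gcongr
      _ = (1 * (KS ρ * nJ)) ^ 2 * q2 (μS x m / 4) := by push_cast; ring
  have t3 : Real.sqrt ((s.N * L1 : ℕ) * (L1 * (((L1 + Kr : ℕ) + 1) * H958.xF s.R s.pn (μS x m) (KS ρ) (L1 + Kr)))) ≤
      2 * ((L1 * (((L1 + Kr : ℕ) : ℝ) + 1) ^ 2) * (KS ρ * nJ) * q2 (μS x m / 8)) := by
    refine root_le ?_ hK0 nJ0 (by positivity) rfl
    rw [xf]
    have a1 := N_le_n s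
    set w : ℝ := ((L1 + Kr : ℕ) : ℝ) + 1 with hw
    have w1 : 1 ≤ w := by
      have : (0 : ℝ) ≤ ((L1 + Kr : ℕ) : ℝ) := Nat.cast_nonneg _
      linarith
    have hL : (0 : ℝ) ≤ L1 := Nat.cast_nonneg _
    have w34 : w ^ 3 ≤ w ^ 4 := pow_le_pow_right₀ w1 (by norm_num)
    push_cast
    calc (s.N : ℝ) * L1 * (L1 * (w * (KS ρ ^ 2 * w ^ 2 * nJ * q2 (μS x m / 4))))
        ≤ nJ * L1 * (L1 * (w * (KS ρ ^ 2 * w ^ 2 * nJ * q2 (μS x m / 4)))) := by gcongr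
      _ = (L1 * (KS ρ * nJ)) ^ 2 * q2 (μS x m / 4) * w ^ 3 := by ring
      _ ≤ (L1 * (KS ρ * nJ)) ^ 2 * q2 (μS x m / 4) * w ^ 4 := by gcongr
      _ = (L1 * w ^ 2 * (KS ρ * nJ)) ^ 2 * q2 (μS x m / 4) := by ring
  have t4 : H958.cF ρ.K * (2 * (L1 * (L2 + 1) : ℕ) * (8 * Real.sqrt ((P0s s S).card *
          H958.xF s.R s.pn (μS x m) (KS ρ) 0))) +
        H958.cF ρ.K * (4 * Real.sqrt ((s.N * L1 : ℕ) * (L1 * (((L1 + Kr : ℕ) + 1) *
          H958.xF s.R s.pn (μS x m) (KS ρ) (L1 + Kr))))) ≤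
      H958.cF ρ.K * (32 * (L1 * (L2 + 1) : ℕ) + 8 * (L1 * (((L1 + Kr : ℕ) : ℝ) + 1) ^ 2)) * (KS ρ * nJ * q2 (μS x m / 8)) := by
    have a2 := mul_le_mul_of_nonneg_left t2 (show 0 ≤ H958.cF ρ.K * (16 * (L1 * (L2 + 1) : ℕ)) by positivity)
    have a3 := mul_le_mul_of_nonneg_left t3 (show 0 ≤ H958.cF ρ.K * 4 by positivity)
    calc _ = H958.cF ρ.K * (16 * (L1 * (L2 + 1) : ℕ)) * Real.sqrt ((P0s s S).card *
          H958.xF s.R s.pn (μS x m) (KS ρ) 0) + H958.cF ρ.K * 4 * Real.sqrt ((s.N * L1 : ℕ) * (L1 * (((L1 + Kr : ℕ) + 1) *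
          H958.xF s.R s.pn (μS x m) (KS ρ) (L1 + Kr)))) := by ring
      _ ≤ _ := add_le_add a2 a3
      _ = _ := by ring
  have t5 : KS ρ * nJ * q2 (μS x m / 8) ≤ KS ρ * (m + (μS x m : ℕ) + 1) * q2 (μS x m / 8) * ((2 * σ.K1 + 4) * ((h : ℝ) / m)) := by
    have a1 := H652.SE.nJ_le s NN.hJ NN.m1
    rw [s.run.hh, s.run.hm] at a1
    have a2 : (1 : ℝ) ≤ m + (μS x m : ℕ) + 1 := by
      have : (0 : ℝ) ≤ ((μS x m : ℕ) : ℝ) := Nat.cast_nonneg _
      linarith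
    have a3 : nJ ≤ (m + (μS x m : ℕ) + 1) * ((2 * σ.K1 + 4) * ((h : ℝ) / m)) := by
      refine a1.trans ?_
      have : 0 ≤ (2 * σ.K1 + 4) * ((h : ℝ) / m) := by positivity
      nlinarith
    calc KS ρ * nJ * q2 (μS x m / 8) ≤ KS ρ * ((m + (μS x m : ℕ) + 1) * ((2 * σ.K1 + 4) * ((h : ℝ) / m))) * q2 (μS x m / 8) := by
          gcongr
      _ = _ := by ring
  have t6 := mul_le_mul_of_nonneg_left t5 (show 0 ≤ H958.cF ρ.K * (32 * (L1 * (L2 + 1) : ℕ) +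
    8 * (L1 * (((L1 + Kr : ℕ) : ℝ) + 1) ^ 2)) by positivity)
  have e : H958.cF ρ.K * (32 * (L1 * (L2 + 1) : ℕ) + 8 * (L1 * (((L1 + Kr : ℕ) : ℝ) + 1) ^ 2)) *
      (KS ρ * (m + (μS x m : ℕ) + 1) * q2 (μS x m / 8) * ((2 * σ.K1 + 4) * ((h : ℝ) / m))) =
      KS ρ * (m + (μS x m : ℕ) + 1) * q2 (μS x m / 8) * (i1C ρ.K σ.K1 L1 L2 Kr * ((h : ℝ) / m)) := by
    unfold i1C
    ring
  rw [e] at t6
  linarith

/-- fewer pairs for larger sets of exceptional levels -/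
theorem I1V_mono (s : St η x σ ε ρ g m B h) {S S' : Finset ℕ} (hS : S ⊆ S') (L1 L2 Lk Kr j k : ℕ) :
    I1V s S' L1 L2 Lk Kr j k ≤ I1V s S L1 L2 Lk Kr j k := by
  by_cases h : WAt s.N s.a (Pu s S') L1 L2 Lk Kr j k
  · have h' : WAt s.N s.a (Pu s S) L1 L2 Lk Kr j k := by
      refine ⟨h.1, h.2.1, h.2.2.1, fun z z1 z2 => ?_⟩
      have := h.2.2.2 z z1 z2
      exact ⟨fun hh => this.1 (hS hh), this.2⟩
    unfold I1V
    rw [if_pos h, if_pos h']
  · have := I1V_nonneg s S L1 L2 Lk Kr j k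
    refine le_trans (le_of_eq ?_) this
    unfold I1V
    rw [if_neg h]

/-- **the first half of the input (b) of `RowL 2`** -/
theorem hI2a : HI2a := by
  intro b hb η hη x δh e3 hx hδh he3
  refine ⟨1, one_pos, fun θ hθ _ => ⟨1, one_pos, fun δ1 hδ1 _ σ hσe hσ => ⟨1, one_pos, fun ε hε _ ρ hρ => ?_⟩⟩⟩
  intro Lk hLk L1 L2 hL1 hL12 κ hκ
  have hK1 := hσ.bs.K10
  set Kr := KrS x ρ.J with hKr
  have hKr0 : 0 < Kr := by
    rw [hKr]
    unfold KrS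
    omega
  have cF0 := cF_nn ρ.K
  have hμ0 : 0 ≤ (2 * σ.K1 + 3) := by linarith
  refine ⟨i1C ρ.K σ.K1 L1 L2 Kr, i1D x ρ.J L1 L2 Kr (L1 + Kr) σ.K1, KS ρ, fun m _ => i1X x ρ.J L1 L2 Kr (L1 + Kr) * m,
    by unfold i1C; positivity, by unfold i1D; positivity, KS_nonneg ρ, fun m _ => by unfold i1X; positivity, ?_⟩
  have hev : Ev3 fun m B h => ((∀ {η : ℝ} {x : ℕ} {σ' : Cst} {ε : ℝ} {ρ : Thr} {g : Gv} (s : St η x σ' ε ρ g m B h),
      σ'.K1 = σ.K1 → (m : ℝ) * (SwL s.R B s.Vs s.Xs (L1 + Kr)).card ≤ κ * h) ∧ KNum x ρ m B h) ∧ (L1 + Kr + 1 ≤ B ∧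
      5 * μS x m ≤ B) := by
    have w1 := st_swl (L1 + Kr) σ.K1 hκ
    have w2 := H652.SE.ev_KNum x ρ
    have w3 : Ev3 fun _ B _ => L1 + Kr + 1 ≤ B := Ev3.of_B' fun _ => H652.ev_nat (L1 + Kr + 1)
    have w4 : Ev3 fun m B _ => 5 * μS x m ≤ B := Ev3.of_B' fun m => H652.ev_nat (5 * μS x m)
    exact (w1.and w2).and (w3.and w4)
  refine Suf.of_ev3 fun g _ => ?_
  obtain ⟨m0, H⟩ := hev.out
  refine ⟨m0, fun m hm => ?_⟩
  obtain ⟨B0, H⟩ := H m hm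
  refine ⟨B0, fun B hB => ?_⟩
  obtain ⟨h0, H⟩ := H B hB
  refine ⟨h0, fun h hh s => ?_⟩
  obtain ⟨⟨H1, H2⟩, H3, H4⟩ := H h hh
  refine ⟨SwL s.R B s.Vs s.Xs (L1 + Kr), H1 s rfl, fun Sw hSw => ?_⟩
  have h5 : 5 * μS x m ≤ m * B := H4.trans (Nat.le_mul_of_pos_left B H2.m1)
  have e1 := i1_st hρ H2 s h5 hK1.le (L1 := L1) (L2 := L2) (Lk := Lk) (Kr := Kr) (Lw := L1 + Kr) hKr0 hLk le_rfl (by omega)
  refine le_trans (Finset.sum_le_sum fun j _ => Finset.sum_le_sum fun k _ => I1V_mono s hSw L1 L2 Lk Kr j k) ?_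
  exact e1

end Vale.Agent.P106.U.H416.SI2
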