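import Vale.Agent.P106.U.H416.Defs
import Vale.Agent.P127.U.ApxS

/-!
# P106 / U / H416 : translations and time windows, exact geometry

* `trR`, `trB` : translations of rays and boxes, `bin_tr`.
* `wt a t = 2^a (t - qa a t)` : the time in the window of level `a`.
* `wR a l t` : the ray of the window, `= trR o o0 (bl a l t)`, `(o, o0)` the cell of the ball (`wo`, `wh`).
* `bl_wR` : `bl w (wR a l t) (wt a t) = trR (2^w o) (2^w o0) (bl (a + w) l t)`.
* `ryOk_wR`, `lb_win`, `lb_back`.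
-/

set_option autoImplicit false

namespace Vale.Agent.P106.U.H416

open Vale.Agent.P127 Vale.Agent.P127.Stk Vale.Agent.P127.U Vale.Agent.P106.W Vale.Agent.P106.K Vale.Agent.P106.U
open Vale.Agent.P122.C2 (fn)

/-- translation of a ray -/
def trR (o : Fin 2 → ℝ) (o0 : ℝ) (l : Ry) : Ry := ⟨fun k => l.y k - o k, l.s, l.z + ∑ k, o k * l.s k - o0⟩

/-- translation of a box -/
def trB (o : Fin 2 → ℝ) (o0 : ℝ) (B : Cbx) : Cbx :=
  { B with p := fun k => B.p k - o k, ω := B.ω + ∑ k, o k * B.v k - o0 }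

theorem bin_tr (c : ℝ) (B : Cbx) (H : ℝ) (l : Ry) (o : Fin 2 → ℝ) (o0 : ℝ) :
    Bin c (trB o o0 B) H (trR o o0 l) ↔ Bin c B H l := by
  have e1 : ∀ k, (trR o o0 l).y k - (trB o o0 B).p k = l.y k - B.p k := fun k => by
    simp only [trR, trB]
    ring
  have e2 : (trR o o0 l).z + ∑ k, (trR o o0 l).y k * ((trR o o0 l).s k - (trB o o0 B).v k) - (trB o o0 B).ω =
      l.z + ∑ k, l.y k * (l.s k - B.v k) - B.ω := by
    simp only [trR, trB, Fin.sum_univ_two]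
    ring
  have e3 : (trR o o0 l).z + ∑ k, (trB o o0 B).p k * ((trR o o0 l).s k - (trB o o0 B).v k) - (trB o o0 B).ω =
      l.z + ∑ k, B.p k * (l.s k - B.v k) - B.ω := by
    simp only [trR, trB, Fin.sum_univ_two]
    ring
  have e4 : (trR o o0 l).y - (trB o o0 B).p = l.y - B.p := by
    funext k
    exact e1 k
  unfold Bin
  rw [e2, e3, e4]
  simp only [e1]
  exact Iff.rfl

theorem trB_back (o : Fin 2 → ℝ) (o0 : ℝ) (B : Cbx) :
    trB o o0 (trB (fun k => - o k) (- o0) B) = B := by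
  unfold trB
  obtain ⟨θ, u1, u2, κ, α, p, v, ω⟩ := B
  simp only [Cbx.mk.injEq, true_and]
  constructor
  · funext k
    ring
  · simp only [Fin.sum_univ_two]
    ring

theorem trB_inj {o : Fin 2 → ℝ} {o0 : ℝ} {B B' : Cbx} (h : trB o o0 B = trB o o0 B') : B = B' := by
  obtain ⟨θ, u1, u2, κ, α, p, v, ω⟩ := B
  obtain ⟨θ', u1', u2', κ', α', p', v', ω'⟩ := B'
  simp only [trB, Cbx.mk.injEq] at h ⊢
  obtain ⟨h1, h2, h3, h4, h5, h6, h7, h8⟩ := h
  refine ⟨h1, h2, h3, h4, h5, ?_, h7, ?_⟩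
  · funext k
    have := congrFun h6 k
    linarith
  · rw [h7] at h8
    linarith

theorem trR_inj {o : Fin 2 → ℝ} {o0 : ℝ} {l l' : Ry} (h : trR o o0 l = trR o o0 l') : l = l' := by
  obtain ⟨y, s, z⟩ := l
  obtain ⟨y', s', z'⟩ := l'
  simp only [trR, Ry.mk.injEq] at h ⊢
  obtain ⟨h1, h2, h3⟩ := h
  refine ⟨?_, h2, ?_⟩
  · funext k
    have := congrFun h1 k
    linarith
  · rw [h2] at h3
    linarith

/-- the time in the window -/
noncomputable def wt (a : ℕ) (t : ℝ) : ℝ := 2 ^ a * (t - qa a t)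

theorem wt_nonneg (a : ℕ) (t : ℝ) : 0 ≤ wt a t := by
  have := Apx.qa_le a t
  unfold wt
  have h : (0 : ℝ) < 2 ^ a := by positivity
  exact mul_nonneg h.le (by linarith)

theorem wt_lt (a : ℕ) (t : ℝ) : wt a t < 1 := by
  have h1 := Apx.lt_qa a t
  unfold wt
  have h : (0 : ℝ) < 2 ^ a := by positivity
  have h2 : (2 : ℝ) ^ a * (1 / 2) ^ a = 1 := by
    rw [← mul_pow]
    norm_num
  nlinarith

theorem fl1_wt (a w : ℕ) (t : ℝ) : fl1 w (wt a t) = fl1 (a + w) t - 2 ^ w * fl1 a t := by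
  unfold fl1 wt
  have h1 : (2 : ℝ) ^ w * (2 ^ a * (t - qa a t)) = 2 ^ (a + w) * t - ((2 ^ w * ⌊(2 : ℝ) ^ a * t⌋ : ℤ) : ℝ) := by
    push_cast
    rw [mul_sub, Apx.qa_mul, pow_add]
    ring
  rw [h1, Int.floor_sub_intCast]

theorem qa_wt (a w : ℕ) (t : ℝ) : qa w (wt a t) = 2 ^ a * (qa (a + w) t - qa a t) := by
  unfold qa
  rw [fl1_wt]
  push_cast
  rw [pow_add]
  field_simp

theorem qa_wt_zero (a : ℕ) (t : ℝ) : qa 0 (wt a t) = 0 := by
  rw [qa_wt]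
  simp

/-- composition of blocks -/
theorem bl_bl (a w : ℕ) (l : Ry) (t : ℝ) : bl w (bl a l t) (wt a t) = bl (a + w) l t := by
  unfold bl
  simp only [Ry.mk.injEq, true_and]
  refine ⟨?_, ?_⟩
  · funext k
    unfold Ry.pos
    rw [qa_wt, pow_add]
    ring
  · rw [qa_wt, pow_add]
    ring

theorem bl_tr (w : ℕ) (l : Ry) (t : ℝ) (o : Fin 2 → ℝ) (o0 : ℝ) :
    bl w (trR o o0 l) t = trR (fun k => 2 ^ w * o k) (2 ^ w * o0) (bl w l t) := by
  unfold bl trR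
  simp only [Ry.mk.injEq, true_and]
  refine ⟨?_, ?_⟩
  · funext k
    unfold Ry.pos
    ring
  · simp only [Fin.sum_univ_two]
    ring

theorem bl_inj {a : ℕ} {l l' : Ry} {t t' : ℝ} (ht : fl1 a t = fl1 a t') (h : bl a l t = bl a l' t') : l = l' := by
  obtain ⟨y, s, z⟩ := l
  obtain ⟨y', s', z'⟩ := l'
  unfold bl at h
  simp only [Ry.mk.injEq] at h ⊢
  rw [Apx.qa_congr ht] at h
  obtain ⟨h1, h2, h3⟩ := h
  have hp : (2 : ℝ) ^ a ≠ 0 := by positivity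
  refine ⟨?_, h2, ?_⟩
  · funext k
    have := mul_left_cancel₀ hp (congrFun h1 k)
    simp only [Ry.pos] at this
    rw [h2] at this
    linarith
  · have := mul_left_cancel₀ hp h3
    rw [h2] at this
    linarith

theorem bl_congr {a : ℕ} {l : Ry} {t t' : ℝ} (ht : fl1 a t = fl1 a t') : bl a l t = bl a l t' := by
  unfold bl
  rw [Apx.qa_congr ht]

/-- the cell of the ball -/
noncomputable def wo (a : ℕ) (l : Ry) (t : ℝ) : Fin 2 → ℤ := fun k => ⌊(bl a l t).y k⌋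

/-- the cell of the height -/
noncomputable def wh (a : ℕ) (l : Ry) (t : ℝ) : ℤ := ⌊(bl a l t).z + ∑ k, (bl a l t).y k * (bl a l t).s k⌋

/-- the translation of a cell -/
noncomputable def trC (o : Fin 2 → ℤ) (o0 : ℤ) (l : Ry) : Ry := trR (fun k => (o k : ℝ)) (o0 : ℝ) l

/-- the ray in the window -/
noncomputable def wR (a : ℕ) (l : Ry) (t : ℝ) : Ry := trC (wo a l t) (wh a l t) (bl a l t)

theorem bl_wR (a w : ℕ) (l : Ry) (t : ℝ) : bl w (wR a l t) (wt a t) =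
    trR (fun k => 2 ^ w * (wo a l t k : ℝ)) (2 ^ w * (wh a l t : ℝ)) (bl (a + w) l t) := by
  unfold wR trC
  rw [bl_tr, bl_bl]

theorem bl_wR_zero (a : ℕ) (l : Ry) (t : ℝ) : bl 0 (wR a l t) (wt a t) = wR a l t := by
  rw [bl_wR]
  simp only [pow_zero, one_mul, add_zero]
  rfl

theorem ryOk_wR {a : ℕ} {l : Ry} {t : ℝ} (h : ∀ k, |l.s k| ≤ 1) : RyOk (wR a l t) := by
  set m := bl a l t with hm
  have hs : ∀ k, |m.s k| ≤ 1 := h
  have hy : ∀ k, 0 ≤ m.y k - (wo a l t k : ℝ) ∧ m.y k - (wo a l t k : ℝ) < 1 := by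
    intro k
    have h1 := Int.floor_le (m.y k)
    have h2 := Int.lt_floor_add_one (m.y k)
    show 0 ≤ m.y k - ((⌊m.y k⌋ : ℤ) : ℝ) ∧ m.y k - ((⌊m.y k⌋ : ℤ) : ℝ) < 1
    constructor <;> linarith
  refine ⟨fun k => ?_, hs, ?_⟩
  · show |m.y k - (wo a l t k : ℝ)| ≤ 1
    rw [abs_of_nonneg (hy k).1]
    exact (hy k).2.le
  · show |m.z + ∑ k, (wo a l t k : ℝ) * m.s k - (wh a l t : ℝ)| ≤ 4
    have h3 := Int.floor_le (m.z + ∑ k, m.y k * m.s k)
    have h4 := Int.lt_floor_add_one (m.z + ∑ k, m.y k * m.s k)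
    have h5 : (wh a l t : ℝ) = ((⌊m.z + ∑ k, m.y k * m.s k⌋ : ℤ) : ℝ) := rfl
    rw [← h5] at h3 h4
    rw [Fin.sum_univ_two] at h3 h4 ⊢
    have a0 := abs_le.1 (hs 0)
    have a1 := abs_le.1 (hs 1)
    have b0 := hy 0
    have b1 := hy 1
    have c0 : |(m.y 0 - (wo a l t 0 : ℝ)) * m.s 0| ≤ 1 := by
      rw [abs_mul, abs_of_nonneg b0.1]
      nlinarith [abs_nonneg (m.s 0), hs 0]
    have c1 : |(m.y 1 - (wo a l t 1 : ℝ)) * m.s 1| ≤ 1 := by
      rw [abs_mul, abs_of_nonneg b1.1]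
      nlinarith [abs_nonneg (m.s 1), hs 1]
    have d0 := abs_le.1 c0
    have d1 := abs_le.1 c1
    rw [abs_le]
    constructor <;> nlinarith

/-- a label of the level `a + w` gives a label of the level `w` of the window -/
theorem lb_win {c : ℝ} {L a w : ℕ} {B : Cbx} {l : Ry} {t : ℝ} (h : LbOk c L (a + w) B l t) :
    LbOk c (L - a) w (trB (fun k => 2 ^ w * (wo a l t k : ℝ)) (2 ^ w * (wh a l t : ℝ)) B) (wR a l t) (wt a t) := by
  obtain ⟨⟨b, R, h1, h2, h3, h4⟩, h5, h6, h7⟩ := h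
  refine ⟨⟨b, R, h1, h2, h3, by omega⟩, h5, h6, ?_⟩
  rw [bl_wR, bin_tr]
  exact h7

/-- a label of the level `0` of the window gives a label of the level `a` -/
theorem lb_back {c : ℝ} {L a : ℕ} (ha : a ≤ L) {B : Cbx} {l : Ry} {t : ℝ} (h : LbOk c (L - a) 0 B (wR a l t) (wt a t)) :
    LbOk c L a (trB (fun k => - (wo a l t k : ℝ)) (- (wh a l t : ℝ)) B) l t := by
  obtain ⟨⟨b, R, h1, h2, h3, h4⟩, h5, h6, h7⟩ := h
  refine ⟨⟨b, R, h1, h2, h3, by omega⟩, h5, h6, ?_⟩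
  rw [bl_wR_zero] at h7
  rw [← bin_tr c _ 0 (bl a l t) (fun k => (wo a l t k : ℝ)) (wh a l t : ℝ), trB_back]
  exact h7

end Vale.Agent.P106.U.H416
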