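import Vale.Agent.P106.U.H416.Pfx
import Vale.Agent.P106.U.H470.Avg

/-!
# P106 / U / H416 : the two-cap lemma, composition over the base cells (notes 18130, 18355, 18791 (6))

Law `P`, base letter `Δ` (base cell, own letter, isotropic cell), direction `ζ`, fine letter `E` (it determines the state `σ` up to `ρ'`
over a base cell), block label `W` (it determines `Δ` outside `Bad`), `A` the slope of the line of the ray.

Over every pair `(d, z)` of a base cell and a direction one of the following holds outside mass `β`: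
* `Kn d z` : the line is known, `|A - al d z| ≤ s` for a fraction `1 - c₂` of the law given `(d, z)`, and there is one motion
  `qm X Z (al d z)` with `x₀ ≤ |X|`;
* `Wk d z` : there are two motions with `|α₂ - α₁| ≥ s`.
If for every value of `W` no interval of length `4 s` contains a fraction `> 1 - c'` of the slopes, then the number `n` of the
state is saturated given the side coordinates, the direction and the base cell (`two_cap`).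
-/

set_option autoImplicit false

namespace Vale.Agent.P106.U.H416.Pfx

open Finset Vale.Agent.P127 Vale.Agent.P127.Stk Vale.Agent.P127.U.Pin Vale.Agent.P127.TV Vale.Agent.P106.U.Quad
open Vale.Agent.P127.Law (ind ind_of ind_not)
open Vale.Agent.P106.U.H470 (ind_nonneg ind_le_one ex_event_ge avg_shift)

variable {Ω : Type} [Fintype Ω] {S T U : Type*}

section

variable (P : Law Ω) (Δ : Ω → U) (ζ : Ω → T) (E : Ω → S) (σ : Ω → Fin 6 → ℝ)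

/-- the direction `z` may be used over `d` -/
def Us (Kn Wk : U → T → Prop) (e : U → T → ℝ) (e₀ : ℝ) (d : U) (z : T) : Prop :=
  Good P Δ ζ E e e₀ d z ∧ (Kn d z ∨ Wk d z)

/-- one motion -/
def Mot (ρ x₀ : ℝ) (e : U → T → ℝ) (d : U) (z : T) (α : ℝ) : Prop :=
  |α| ≤ 1 ∧ ∃ X Z : ℝ, x₀ ≤ |X| ∧ |X| ≤ 1 ∧ |Z| ≤ 1 ∧ NI (P.cond (fun ω => (Δ ω, ζ ω)) (d, z)) σ (qm X Z α) ρ (e d z)

variable {P Δ ζ E σ}

/-- two motions over usable directions (equal or not) with different slopes: the shift of `n` for the law given `d` -/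
theorem shift_of_mot {ρ ρ' x₀ s e₀ : ℝ} (hx₀ : 0 ≤ x₀) (hD : Det P Δ E σ ρ') {e : U → T → ℝ} {d : U} {z₁ z₂ : T}
    (g₁ : Good P Δ ζ E e e₀ d z₁) (g₂ : Good P Δ ζ E e e₀ d z₂) {α₁ α₂ : ℝ} (m₁ : Mot P Δ ζ σ ρ x₀ e d z₁ α₁)
    (m₂ : Mot P Δ ζ σ ρ x₀ e d z₂ α₂) (h : s ≤ |α₂ - α₁|) :
    ∃ τ : ℝ, s * (x₀ * x₀) ≤ |τ| ∧ |τ| ≤ 2 ∧ NI (P.cond Δ d) σ (ns τ) (48 * (ρ + 4 * ρ')) (4 * e₀) := by
  obtain ⟨a1, X₁, Z₁, b1, b2, b3, b4⟩ := m₁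
  obtain ⟨a2, X₂, Z₂, c1, c2, c3, c4⟩ := m₂
  refine ⟨(α₂ - α₁) * X₁ * X₂, ?_, ?_, ?_⟩
  · rw [abs_mul, abs_mul, mul_assoc]
    exact mul_le_mul h (mul_le_mul b1 c1 hx₀ (abs_nonneg _)) (by positivity) (abs_nonneg _)
  · rw [abs_mul, abs_mul, mul_assoc]
    have h1 : |α₂ - α₁| ≤ 2 := by
      have := abs_sub α₂ α₁
      linarith
    calc |α₂ - α₁| * (|X₁| * |X₂|) ≤ 2 * (1 * 1) :=
          mul_le_mul h1 (mul_le_mul b2 c2 (abs_nonneg _) zero_le_one) (by positivity) (by norm_num)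
      _ = 2 := by norm_num
  · exact (shift_base hD g₁.1 g₂.1 b2 b3 c2 c3 b4 c4).mono le_rfl (by linarith [g₁.2, g₂.2])

/-- the mass of the pairs which may not be used -/
theorem us_ex (Kn Wk : U → T → Prop) (e : U → T → ℝ) {e₀ β : ℝ} (h₀ : 0 < e₀)
    (he : ∀ ω, 0 < P.w ω → 0 ≤ e (Δ ω) (ζ ω))
    (hβ : P.ex (fun ω => ind (¬ (Kn (Δ ω) (ζ ω) ∨ Wk (Δ ω) (ζ ω)))) ≤ β) :
    P.ex (fun ω => ind (¬ Us P Δ ζ E Kn Wk e e₀ (Δ ω) (ζ ω))) ≤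
      β + (P.ex (fun ω => e (Δ ω) (ζ ω)) + 4 * Real.sqrt (mi P ζ E Δ)) / e₀ := by
  have h1 := good_ex (P := P) (Δ := Δ) (ζ := ζ) (E := E) e h₀ he
  have h2 : P.ex (fun ω => ind (¬ Us P Δ ζ E Kn Wk e e₀ (Δ ω) (ζ ω))) ≤
      P.ex (fun ω => ind (¬ (Kn (Δ ω) (ζ ω) ∨ Wk (Δ ω) (ζ ω)))) +
        P.ex (fun ω => ind (¬ Good P Δ ζ E e e₀ (Δ ω) (ζ ω))) := by
    rw [← P.ex_add]
    refine P.ex_mono fun ω _ => ?_
    by_cases hg : Good P Δ ζ E e e₀ (Δ ω) (ζ ω)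
    · by_cases hk : Kn (Δ ω) (ζ ω) ∨ Wk (Δ ω) (ζ ω)
      · rw [ind_not (not_not.2 (show Us P Δ ζ E Kn Wk e e₀ (Δ ω) (ζ ω) from ⟨hg, hk⟩))]
        exact add_nonneg (ind_nonneg _) (ind_nonneg _)
      · rw [ind_of hk]
        have := ind_le_one (¬ Us P Δ ζ E Kn Wk e e₀ (Δ ω) (ζ ω))
        have := ind_nonneg (¬ Good P Δ ζ E e e₀ (Δ ω) (ζ ω))
        linarith
    · rw [ind_of hg]
      have := ind_le_one (¬ Us P Δ ζ E Kn Wk e e₀ (Δ ω) (ζ ω))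
      have := ind_nonneg (¬ (Kn (Δ ω) (ζ ω) ∨ Wk (Δ ω) (ζ ω)))
      linarith
  linarith

variable (P Δ) in
/-- some interval contains most of the slopes of the rays of the base cell `d` -/
def Atm (A : Ω → ℝ) (s c : ℝ) (d : U) : Prop :=
  ∃ g : ℝ, (1 - c) * P.pr Δ d ≤ P.ex (fun ω => ind (Δ ω = d ∧ |A ω - g| ≤ 2 * s))

variable (P Δ ζ E) in
/-- the usable directions over `d` have mass `< 1 - c₃` -/
def Lost (Kn Wk : U → T → Prop) (e : U → T → ℝ) (e₀ c₃ : ℝ) (d : U) : Prop :=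
  c₃ * P.pr Δ d < P.ex (fun ω => ind (Δ ω = d ∧ ¬ Us P Δ ζ E Kn Wk e e₀ (Δ ω) (ζ ω)))

/-- the mass of the lost base cells -/
theorem lost_ex (Kn Wk : U → T → Prop) (e : U → T → ℝ) {e₀ c₃ β : ℝ} (h₀ : 0 < e₀) (hc₃ : 0 < c₃)
    (he : ∀ ω, 0 < P.w ω → 0 ≤ e (Δ ω) (ζ ω))
    (hβ : P.ex (fun ω => ind (¬ (Kn (Δ ω) (ζ ω) ∨ Wk (Δ ω) (ζ ω)))) ≤ β) :
    P.ex (fun ω => ind (Lost P Δ ζ E Kn Wk e e₀ c₃ (Δ ω))) ≤
      (β + (P.ex (fun ω => e (Δ ω) (ζ ω)) + 4 * Real.sqrt (mi P ζ E Δ)) / e₀) / c₃ := by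
  rw [le_div_iff₀ hc₃, mul_comm]
  have h1 := ex_event_ge P Δ (fun (_ : Unit) ω => ¬ Us P Δ ζ E Kn Wk e e₀ (Δ ω) (ζ ω)) (q := c₃)
    (Lost P Δ ζ E Kn Wk e e₀ c₃) (fun _ => ()) (fun ω _ h => le_of_lt h)
  refine h1.trans (le_trans (P.ex_mono fun ω _ => ?_) (us_ex Kn Wk e h₀ he hβ))
  by_cases hu : ¬ Us P Δ ζ E Kn Wk e e₀ (Δ ω) (ζ ω)
  · rw [ind_of hu]
    exact ind_le_one _
  · rw [ind_not (fun h => hu h.2)]
    exact ind_nonneg _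

/-- **the dichotomy of a base cell** : an interval with most of the slopes, or a shift of `n` -/
theorem cell_dich {ρ ρ' x₀ s e₀ c₂ c₃ : ℝ} (hx₀ : 0 ≤ x₀) (hc₂ : 0 ≤ c₂) (hc₂' : c₂ ≤ 1) (hc₃ : 0 ≤ c₃)
    (hc₂₃ : c₂ + c₃ < 1)
    (hD : Det P Δ E σ ρ') (A : Ω → ℝ) (Kn Wk : U → T → Prop) (al e : U → T → ℝ)
    (hK : ∀ d z, 0 < P.pr (fun ω => (Δ ω, ζ ω)) (d, z) → Kn d z → Mot P Δ ζ σ ρ x₀ e d z (al d z) ∧
      (1 - c₂) * P.pr (fun ω => (Δ ω, ζ ω)) (d, z) ≤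
        P.ex (fun ω => ind ((Δ ω, ζ ω) = (d, z) ∧ |A ω - al d z| ≤ s)))
    (hWk : ∀ d z, 0 < P.pr (fun ω => (Δ ω, ζ ω)) (d, z) → Wk d z → ∃ α₁ α₂, s ≤ |α₂ - α₁| ∧
      Mot P Δ ζ σ ρ x₀ e d z α₁ ∧ Mot P Δ ζ σ ρ x₀ e d z α₂)
    {d : U} (hd : 0 < P.pr Δ d) (hl : ¬ Lost P Δ ζ E Kn Wk e e₀ c₃ d) :
    Atm P Δ A s (c₂ + c₃) d ∨
      ∃ τ : ℝ, s * (x₀ * x₀) ≤ |τ| ∧ |τ| ≤ 2 ∧ NI (P.cond Δ d) σ (ns τ) (48 * (ρ + 4 * ρ')) (4 * e₀) := by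
  classical
  by_cases hw : ∃ z, Good P Δ ζ E e e₀ d z ∧ Wk d z
  · obtain ⟨z, hg, hz⟩ := hw
    obtain ⟨α₁, α₂, h1, h2, h3⟩ := hWk d z hg.1 hz
    exact Or.inr (shift_of_mot hx₀ hD hg hg h2 h3 h1)
  push Not at hw
  by_cases hk : ∃ z₁ z₂, (Good P Δ ζ E e e₀ d z₁ ∧ Kn d z₁) ∧ (Good P Δ ζ E e e₀ d z₂ ∧ Kn d z₂) ∧
      s ≤ |al d z₂ - al d z₁|
  · obtain ⟨z₁, z₂, h1, h2, h3⟩ := hk
    exact Or.inr (shift_of_mot hx₀ hD h1.1 h2.1 (hK d z₁ h1.1.1 h1.2).1 (hK d z₂ h2.1.1 h2.2).1 h3)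
  push Not at hk
  left
  -- mass of the usable directions
  have hmass : (1 - c₃) * P.pr Δ d ≤ P.ex (fun ω => ind (Δ ω = d ∧ Us P Δ ζ E Kn Wk e e₀ (Δ ω) (ζ ω))) := by
    have h1 : P.pr Δ d = P.ex (fun ω => ind (Δ ω = d ∧ Us P Δ ζ E Kn Wk e e₀ (Δ ω) (ζ ω))) +
        P.ex (fun ω => ind (Δ ω = d ∧ ¬ Us P Δ ζ E Kn Wk e e₀ (Δ ω) (ζ ω))) := by
      rw [P.pr_eq_ex, ← P.ex_add]
      refine P.ex_congr fun ω _ => ?_
      by_cases h1 : Δ ω = d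
      · by_cases h2 : Us P Δ ζ E Kn Wk e e₀ (Δ ω) (ζ ω)
        · rw [ind_of h1, ind_of ⟨h1, h2⟩, ind_not fun h => h.2 h2]
          norm_num
        · rw [ind_of h1, ind_not (fun h => h2 h.2), ind_of ⟨h1, h2⟩]
          norm_num
      · rw [ind_not h1, ind_not (fun h => h1 h.1), ind_not fun h => h1 h.1]
        norm_num
    unfold Lost at hl
    push Not at hl
    linarith
  -- one usable direction
  have hpos : 0 < P.ex (fun ω => ind (Δ ω = d ∧ Us P Δ ζ E Kn Wk e e₀ (Δ ω) (ζ ω))) := by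
    have : 0 < (1 - c₃) * P.pr Δ d := mul_pos (by linarith) hd
    linarith
  obtain ⟨z₀, hz₀⟩ : ∃ z₀, Us P Δ ζ E Kn Wk e e₀ d z₀ := by
    by_contra hcon
    push Not at hcon
    refine hpos.ne' ?_
    rw [← P.ex_const 0]
    refine P.ex_congr fun ω _ => ?_
    refine ind_not fun h => hcon (ζ ω) ?_
    have h2 := h.2
    rwa [h.1] at h2
  have hKz : ∀ z, Us P Δ ζ E Kn Wk e e₀ d z → Good P Δ ζ E e e₀ d z ∧ Kn d z := fun z hz =>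
    ⟨hz.1, hz.2.resolve_right (hw z hz.1)⟩
  refine ⟨al d z₀, ?_⟩
  have h1 := ex_event_ge P (fun ω => (Δ ω, ζ ω)) (fun (g : ℝ) ω => |A ω - g| ≤ s) (q := 1 - c₂)
    (fun p => p.1 = d ∧ Us P Δ ζ E Kn Wk e e₀ p.1 p.2) (fun p => al p.1 p.2) (fun ω hω h => by
      have hp := P.pr_pos (fun ω => (Δ ω, ζ ω)) hω
      have h0 : Δ ω = d := h.1
      have h2 : Us P Δ ζ E Kn Wk e e₀ d (ζ ω) := by
        have := h.2
        dsimp only at this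
        rwa [h0] at this
      have h3 := (hK (Δ ω) (ζ ω) hp (by
        rw [h0]
        exact (hKz _ h2).2)).2
      exact h3)
  have h2 : P.ex (fun ω => ind (((Δ ω, ζ ω).1 = d ∧ Us P Δ ζ E Kn Wk e e₀ (Δ ω, ζ ω).1 (Δ ω, ζ ω).2) ∧
      |A ω - al (Δ ω, ζ ω).1 (Δ ω, ζ ω).2| ≤ s)) ≤ P.ex (fun ω => ind (Δ ω = d ∧ |A ω - al d z₀| ≤ 2 * s)) := by
    refine P.ex_mono fun ω _ => ?_
    by_cases h : ((Δ ω, ζ ω).1 = d ∧ Us P Δ ζ E Kn Wk e e₀ (Δ ω, ζ ω).1 (Δ ω, ζ ω).2) ∧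
      |A ω - al (Δ ω, ζ ω).1 (Δ ω, ζ ω).2| ≤ s
    · have h3 : Δ ω = d := h.1.1
      have h4 : Us P Δ ζ E Kn Wk e e₀ d (ζ ω) := by
        have := h.1.2
        dsimp only at this
        rwa [h3] at this
      have h5 : |A ω - al d (ζ ω)| ≤ s := by
        have := h.2
        dsimp only at this
        rwa [h3] at this
      have h6 := hk z₀ (ζ ω) (hKz _ hz₀) (hKz _ h4)
      have h7 : |A ω - al d z₀| ≤ 2 * s := by
        have : A ω - al d z₀ = (A ω - al d (ζ ω)) + (al d (ζ ω) - al d z₀) := by ring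
        rw [this]
        refine (abs_add_le _ _).trans ?_
        linarith
      rw [ind_of h, ind_of ⟨h3, h7⟩]
    · rw [ind_not h]
      exact ind_nonneg _
  have h3 : (1 - c₂) * ((1 - c₃) * P.pr Δ d) ≤ (1 - c₂) *
      P.ex (fun ω => ind ((Δ ω, ζ ω).1 = d ∧ Us P Δ ζ E Kn Wk e e₀ (Δ ω, ζ ω).1 (Δ ω, ζ ω).2)) :=
    mul_le_mul_of_nonneg_left hmass (by linarith)
  have h4 : (1 - (c₂ + c₃)) * P.pr Δ d ≤ (1 - c₂) * ((1 - c₃) * P.pr Δ d) := by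
    have : 0 ≤ c₂ * c₃ * P.pr Δ d := by positivity
    nlinarith
  linarith

end

/-- **the two-cap lemma, composition** -/
theorem two_cap : ∃ c : ℝ, 0 ≤ c ∧ ∀ {Ω : Type} [Fintype Ω] {S T U V V' : Type}
    (P : Law Ω) (Δ : Ω → U) (ζ : Ω → T) (E : Ω → S) (σ : Ω → Fin 6 → ℝ) (W : Ω → V) (Bad : Ω → Prop) (A : Ω → ℝ)
    (Kn Wk : U → T → Prop) (al e : U → T → ℝ) (C : Ω → V') {c' c₂ c₃ s x₀ ρ ρ' e₀ β L : ℝ} {R : ℕ},
    (∀ ω ω', 0 < P.w ω → 0 < P.w ω' → ¬ Bad ω → ¬ Bad ω' → W ω = W ω' → Δ ω = Δ ω') →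
    (∀ ω, 0 < P.w ω → ∀ g : ℝ, P.ex (fun ω' => ind (W ω' = W ω ∧ |A ω' - g| ≤ 2 * s)) ≤ (1 - c') * P.pr W (W ω)) →
    Det P Δ E σ ρ' →
    (∀ d z, 0 < P.pr (fun ω => (Δ ω, ζ ω)) (d, z) → Kn d z → Mot P Δ ζ σ ρ x₀ e d z (al d z) ∧
      (1 - c₂) * P.pr (fun ω => (Δ ω, ζ ω)) (d, z) ≤
        P.ex (fun ω => ind ((Δ ω, ζ ω) = (d, z) ∧ |A ω - al d z| ≤ s))) →
    (∀ d z, 0 < P.pr (fun ω => (Δ ω, ζ ω)) (d, z) → Wk d z → ∃ α₁ α₂, s ≤ |α₂ - α₁| ∧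
      Mot P Δ ζ σ ρ x₀ e d z α₁ ∧ Mot P Δ ζ σ ρ x₀ e d z α₂) →
    (∀ ω, 0 < P.w ω → 0 ≤ e (Δ ω) (ζ ω)) →
    P.ex (fun ω => ind (¬ (Kn (Δ ω) (ζ ω) ∨ Wk (Δ ω) (ζ ω)))) ≤ β →
    0 < s → 0 < x₀ → 0 ≤ ρ → 0 ≤ ρ' → 0 < e₀ → 0 ≤ c₂ → 0 < c₃ → c₂ + c₃ < c' → c' ≤ 1 →
    1 ≤ L → c * L ≤ R * (s * (x₀ * x₀)) → c * (R * (ρ + ρ')) ≤ 1 → 1 ≤ R →
    Fn P C (fun ω => ((⌊σ ω 2 / L⌋, fun i : Fin 5 => ⌊σ ω (Fin.succAbove 2 i)⌋), ζ ω, Δ ω)) →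
    Real.log L * (1 - 2 * P.ex (fun ω => ind (Bad ω)) / (c' - (c₂ + c₃)) -
        (β + (P.ex (fun ω => e (Δ ω) (ζ ω)) + 4 * Real.sqrt (mi P ζ E Δ)) / e₀) / c₃) -
      (c + c * (R * (1 + Real.log R)) * e₀) -
      mi P ζ (fun ω => (⌊σ ω 2⌋, (⌊σ ω 2 / L⌋, fun i : Fin 5 => ⌊σ ω (Fin.succAbove 2 i)⌋))) Δ ≤
      hc P (fun ω => ⌊σ ω 2⌋) C := by
  classical
  obtain ⟨c, hc0, H⟩ := avg_shift
  have hl3 : 0 ≤ Real.log 3 := Real.log_nonneg (by norm_num)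
  refine ⟨192 * c + 5 * Real.log 3, by positivity, ?_⟩
  intro Ω _ S T U V V' P Δ ζ E σ W Bad A Kn Wk al e C c' c₂ c₃ s x₀ ρ ρ' e₀ β L R hf hW hD hK hWk he hβ hs hx hρ
    hρ' he₀ hc₂ hc₃ hcc hc1 hL hLR hRρ hR hC
  have hR1 : (1 : ℝ) ≤ R := by exact_mod_cast hR
  have hlR : 0 ≤ Real.log R := Real.log_nonneg hR1
  have hlL : 0 ≤ Real.log L := Real.log_nonneg hL
  -- the shift
  let τ : U → ℝ := fun d => if h : ∃ τ : ℝ, s * (x₀ * x₀) ≤ |τ| ∧ |τ| ≤ 2 ∧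
      NI (P.cond Δ d) σ (ns τ) (48 * (ρ + 4 * ρ')) (4 * e₀) then h.choose else 0
  have key := H P W Δ Bad hf (fun (g : ℝ) ω => |A ω - g| ≤ 2 * s) (c' := c') (c'' := c₂ + c₃) (by linarith) hcc hc1 hW
    (Atm P Δ A s (c₂ + c₃)) (Lost P Δ ζ E Kn Wk e e₀ c₃) (fun ω _ h => h) ζ (fun ω => σ ω 2)
    (fun ω (i : Fin 5) => σ ω (Fin.succAbove 2 i)) C τ (fun _ => 4 * e₀) (δ := s * (x₀ * x₀))
    (ρ := 48 * (ρ + 4 * ρ')) (L := L) (R := R) (by positivity) hL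
    (le_trans (mul_le_mul_of_nonneg_right (by linarith) (by linarith)) hLR) (by positivity)
    (by
      refine le_trans ?_ hRρ
      have h1 : 0 ≤ (R : ℝ) * (ρ + ρ') := by positivity
      have h2 : c * (R * (48 * (ρ + 4 * ρ'))) ≤ 192 * c * (R * (ρ + ρ')) := by
        have : 0 ≤ c * (R * ρ) := by positivity
        nlinarith
      have h3 : 0 ≤ 5 * Real.log 3 * (R * (ρ + ρ')) := by positivity
      linarith) hR (fun ω _ => by positivity)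
    (fun ω hω hA hB => by
      have hd := P.pr_pos Δ hω
      have h1 := cell_dich (x₀ := x₀) hx.le hc₂ (by linarith) hc₃.le (by linarith) hD A Kn Wk al e hK hWk hd hB
      have h2 := h1.resolve_left hA
      have h3 : τ (Δ ω) = h2.choose := by
        simp only [τ, dif_pos h2]
      obtain ⟨k1, k2, k3⟩ := h2.choose_spec
      rw [h3]
      refine ⟨k1, k2, SubC.mono k3 ?_ le_rfl⟩
      intro a b hab
      refine ⟨?_, fun i => ?_⟩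
      · have := hab 2
        simp only [ns, if_true] at this
        rwa [← sub_sub] at this
      · have := hab (Fin.succAbove 2 i)
        have h5 : (Fin.succAbove (2 : Fin 6) i) ≠ 2 := Fin.succAbove_ne 2 i
        simp only [ns, h5, if_false, add_zero] at this
        exact this) hC
  have hB := lost_ex (P := P) (Δ := Δ) (ζ := ζ) (E := E) Kn Wk e he₀ hc₃ he hβ
  have e1 : P.ex (fun _ => 4 * e₀) = 4 * e₀ := P.ex_const _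
  rw [e1] at key
  have e2 : (Fintype.card (Fin 5) : ℝ) = 5 := by simp
  rw [e2] at key
  have h8 := mul_le_mul_of_nonneg_left hB hlL
  have h9 : c * (R * (1 + Real.log R)) * (4 * e₀) ≤ (192 * c + 5 * Real.log 3) * (R * (1 + Real.log R)) * e₀ := by
    have h10 : 0 ≤ c * (R * (1 + Real.log R)) * e₀ := by positivity
    have h11 : 0 ≤ 5 * Real.log 3 * (R * (1 + Real.log R)) * e₀ := by positivity
    nlinarith
  have h12 : 0 ≤ 191 * c := by positivity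
  linarith

end Vale.Agent.P106.U.H416.Pfx
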